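import Mathlib

/-!
# P146: the two-time argument in real numbers (helper508)

`r_k` overlaps, `c_k` third chaos over `r_k`, times `T_k`; two-sided rows
`α - T_k = y r_k - c_k - F / r_k ± e`, the third chaos loses the cube of the overlap:
`c_(k+1) ≤ (r_(k+1) / r_k)² c_k + e`.
-/

namespace Vale.Agent.P146.H508

/-- one step -/
theorem ur_step {y F e α r0 r1 c0 c1 T0 T1 q : ℝ} (hr1 : 0 < r1) (hle : r1 ≤ r0)
    (h0 : |α - T0 - (y * r0 - c0 - F / r0)| ≤ e) (h1 : |α - T1 - (y * r1 - c1 - F / r1)| ≤ e)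
    (hc : c1 ≤ (r1 / r0) ^ 2 * c0 + e) (hT : 3 * e < T1 - T0) (hF : 0 ≤ F) (hy : 0 ≤ y)
    (hq0 : 0 < q) (hq : q * r0 ≤ r1) :
    y * r0 ^ 2 * (q / (1 + q)) ≤ (α - T0 + e) * r0 + F * (1 + 1 / (q * (1 + q))) := by
  have hr0 : 0 < r0 := hr1.trans_le hle
  obtain ⟨h0a, h0b⟩ := abs_le.1 h0
  obtain ⟨h1a, h1b⟩ := abs_le.1 h1
  -- the difference of the rows
  have d1 : c0 - c1 ≤ y * (r0 - r1) - (T1 - T0) + (F / r1 - F / r0) + 2 * e := by linarith
  set θ := r1 / r0 with hθ
  have hθ0 : 0 < θ := div_pos hr1 hr0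
  have hθ1 : θ ≤ 1 := (div_le_one hr0).2 hle
  have e1 : r1 = θ * r0 := by rw [hθ]; field_simp
  have d2 : (1 - θ ^ 2) * c0 ≤ y * (r0 - r1) + (F / r1 - F / r0) - (T1 - T0 - 3 * e) := by
    nlinarith
  have hqθ : q ≤ θ := by
    rw [hθ, le_div_iff₀ hr0]; exact hq
  have e2 : y * (r0 - r1) + (F / r1 - F / r0) = (1 - θ) * (y * r0 + F / (θ * r0)) := by
    rw [e1]
    field_simp
  rw [e2] at d2
  have hθlt : θ < 1 := by
    rcases hθ1.lt_or_eq with h | h
    · exact h
    · rw [h] at d2
      linarith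
  have d3 : (1 + θ) * c0 ≤ y * r0 + F / (θ * r0) := by
    have h2 : (1 - θ) * ((1 + θ) * c0) ≤ (1 - θ) * (y * r0 + F / (θ * r0)) := by
      have : (1 - θ) * ((1 + θ) * c0) = (1 - θ ^ 2) * c0 := by ring
      rw [this]
      linarith
    exact le_of_mul_le_mul_left h2 (by linarith)
  -- the row at the first time
  have d4 : y * r0 - c0 - F / r0 ≤ α - T0 + e := by linarith
  have d5 : c0 ≤ (y * r0 + F / (θ * r0)) / (1 + θ) := by
    rw [le_div_iff₀ (by linarith)]
    linarith
  have d6 : y * r0 - (y * r0 + F / (θ * r0)) / (1 + θ) - F / r0 ≤ α - T0 + e := by linarith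
  have d7 : (y * r0 - (y * r0 + F / (θ * r0)) / (1 + θ) - F / r0) * r0 =
      y * r0 ^ 2 * (θ / (1 + θ)) - F * (1 + 1 / (θ * (1 + θ))) := by
    field_simp
    ring
  have d8 := mul_le_mul_of_nonneg_right d6 hr0.le
  rw [d7] at d8
  have d9 : q / (1 + q) ≤ θ / (1 + θ) := by
    rw [div_le_div_iff₀ (by linarith) (by linarith)]
    nlinarith
  have d10 : 1 / (θ * (1 + θ)) ≤ 1 / (q * (1 + q)) := by
    apply one_div_le_one_div_of_le (by positivity)
    exact mul_le_mul hqθ (by linarith) (by linarith) hθ0.le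
  have d11 := mul_le_mul_of_nonneg_left d9 (show 0 ≤ y * r0 ^ 2 by positivity)
  have d12 := mul_le_mul_of_nonneg_left d10 hF
  nlinarith

/-- a sequence which does not decrease too much has a good step -/
theorem good_step {N : ℕ} {r : ℕ → ℝ} {q : ℝ} (hq : 0 ≤ q) (h : q ^ N * r 0 ≤ r N)
    (hN : 0 < N) : ∃ k < N, q * r k ≤ r (k + 1) := by
  by_contra hcon
  push Not at hcon
  have h1 : ∀ k ≤ N, 0 < k → r k < q ^ k * r 0 ∨ False := by
    intro k
    induction k with
    | zero => intro _ h; omega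
    | succ k ih =>
      intro hk _
      left
      have h2 := hcon k (by omega)
      rcases Nat.eq_zero_or_pos k with h0 | h0
      · rw [h0] at h2 ⊢
        simpa using h2
      · have h3 := ih (by omega) h0
        rcases h3 with h3 | h3
        · have h4 : q * r k ≤ q * (q ^ k * r 0) := mul_le_mul_of_nonneg_left h3.le hq
          calc r (k + 1) < q * r k := h2
            _ ≤ q * (q ^ k * r 0) := h4
            _ = q ^ (k + 1) * r 0 := by ring
        · exact h3.elim
  rcases h1 N le_rfl hN with h2 | h2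
  · linarith
  · exact h2

/-- **(UR\*)**: the overlap at the last time is at most twice the response, up to errors. -/
theorem ur_star {N : ℕ} (hN : 0 < N) {y F e α q : ℝ} {r c T : ℕ → ℝ} (hr : ∀ k ≤ N, 0 < r k)
    (hanti : ∀ k < N, r (k + 1) ≤ r k)
    (hrow : ∀ k ≤ N, |α - T k - (y * r k - c k - F / r k)| ≤ e)
    (hcub : ∀ k < N, c (k + 1) ≤ (r (k + 1) / r k) ^ 2 * c k + e)
    (hT : ∀ k < N, 3 * e < T (k + 1) - T k) (he : 0 ≤ e) (hF : 0 ≤ F) (hy : 0 < y)
    (hq0 : 0 < q) :
    r N ≤ q ^ N * r 0 ∨ y * r N ^ 2 * (q / (1 + q)) ≤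
      (max (α - T 0) 0 + e) * r N + F * (1 + 1 / (q * (1 + q))) := by
  by_cases hcase : q ^ N * r 0 ≤ r N
  · right
    obtain ⟨k, hk, hkq⟩ := good_step hq0.le hcase hN
    have h1 := ur_step (q := q) (hr (k + 1) (by omega)) (hanti k hk)
      (hrow k hk.le) (hrow (k + 1) (by omega)) (hcub k hk) (hT k hk) hF hy.le hq0 hkq
    -- monotonicity
    have hTk : ∀ j ≤ N, T 0 ≤ T j := by
      intro j
      induction j with
      | zero => intro _; exact le_rfl
      | succ j ih =>
        intro hj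
        have := ih (by omega)
        have := hT j (by omega)
        linarith
    have hrk : ∀ j ≤ N, r N ≤ r (N - j) := by
      intro j
      induction j with
      | zero => intro _; simp
      | succ j ih =>
        intro hj
        have h2 := ih (by omega)
        have h3 := hanti (N - (j + 1)) (by omega)
        have e3 : N - (j + 1) + 1 = N - j := by omega
        rw [e3] at h3
        linarith
    have h2 : r N ≤ r k := by
      have := hrk (N - k) (by omega)
      have e3 : N - (N - k) = k := by omega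
      rwa [e3] at this
    have hrN := hr N le_rfl
    have hrk0 := hr k hk.le
    set G := max (α - T 0) 0 + e with hG
    have hG0 : 0 ≤ G := add_nonneg (le_max_right _ _) he
    have h3 : α - T k + e ≤ G := by
      have := hTk k hk.le
      have := le_max_left (α - T 0) 0
      linarith
    have h4 : y * r k ^ 2 * (q / (1 + q)) ≤ G * r k + F * (1 + 1 / (q * (1 + q))) := by
      have := mul_le_mul_of_nonneg_right h3 hrk0.le
      linarith
    -- the quadratic function
    set A := y * (q / (1 + q)) with hA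
    have hA0 : 0 < A := by positivity
    set C := F * (1 + 1 / (q * (1 + q))) with hC
    have hC0 : 0 ≤ C := by positivity
    have h5 : A * r k ^ 2 - G * r k ≤ C := by rw [hA]; linarith
    by_contra hcon
    push Not at hcon
    have h6 : C < A * r N ^ 2 - G * r N := by rw [hA]; linarith
    -- `A r² - G r` is nondecreasing where it is nonnegative
    have h7 : 0 < A * r N - G := by
      by_contra h8
      push Not at h8
      have : A * r N ^ 2 - G * r N = (A * r N - G) * r N := by ring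
      have h9 := mul_nonneg_of_nonpos_of_nonpos h8 (neg_nonpos.2 hrN.le)
      nlinarith
    have h8 : (A * r N - G) * r N ≤ (A * r k - G) * r k := by
      have h9 : A * r N - G ≤ A * r k - G := by nlinarith
      exact mul_le_mul h9 h2 hrN.le (h7.le.trans h9)
    nlinarith
  · left
    exact (not_le.1 hcase).le

/-- the explicit form of a quadratic inequality -/
theorem quad_le {A G C r : ℝ} (hA : 0 < A) (hG : 0 ≤ G) (hC : 0 ≤ C)
    (h : A * r ^ 2 ≤ G * r + C) : r ≤ G / A + Real.sqrt (C / A) := by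
  by_contra hcon
  push Not at hcon
  set u := G / A with hu
  set v := Real.sqrt (C / A) with hv
  have hu0 : 0 ≤ u := div_nonneg hG hA.le
  have hv0 : 0 ≤ v := Real.sqrt_nonneg _
  have e1 : G = A * u := by rw [hu]; field_simp
  have e2 : C = A * v ^ 2 := by
    rw [hv, Real.sq_sqrt (div_nonneg hC hA.le)]
    field_simp
  rw [e1, e2] at h
  have h1 : r ^ 2 ≤ u * r + v ^ 2 := by
    have : A * r ^ 2 ≤ A * (u * r + v ^ 2) := by linarith
    exact le_of_mul_le_mul_left this hA
  nlinarith

/-- **(UR\*), explicit**: `r_N ≤ ((1+q)/(q y)) ((α - T_0)⁺ + e) + √(F (..)/..)` or `r_N ≤ q^N r_0`. -/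
theorem ur_star' {N : ℕ} (hN : 0 < N) {y F e α q : ℝ} {r c T : ℕ → ℝ} (hr : ∀ k ≤ N, 0 < r k)
    (hanti : ∀ k < N, r (k + 1) ≤ r k)
    (hrow : ∀ k ≤ N, |α - T k - (y * r k - c k - F / r k)| ≤ e)
    (hcub : ∀ k < N, c (k + 1) ≤ (r (k + 1) / r k) ^ 2 * c k + e)
    (hT : ∀ k < N, 3 * e < T (k + 1) - T k) (he : 0 ≤ e) (hF : 0 ≤ F) (hy : 0 < y)
    (hq0 : 0 < q) :
    r N ≤ q ^ N * r 0 ∨ r N ≤ (max (α - T 0) 0 + e) / (y * (q / (1 + q))) +
      Real.sqrt (F * (1 + 1 / (q * (1 + q))) / (y * (q / (1 + q)))) := by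
  rcases ur_star hN hr hanti hrow hcub hT he hF hy hq0 with h | h
  · exact Or.inl h
  · right
    refine quad_le (by positivity) (add_nonneg (le_max_right _ _) he) (by positivity) ?_
    linarith

end Vale.Agent.P146.H508
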