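import Vale.Agent.P146.H508.Lev
import Vale.Agent.P146.H508.Ur
import Vale.Agent.P146.H379.RowG

/-!
# P146: the third chaos of a row for the SK system with `K` levels (helper508)
-/

open MeasureTheory ProbabilityTheory

namespace Vale.Agent.P146.H508

open Vale.Agent.P157 Vale.Agent.P157.Lv Vale.Agent.P157.Lv.Sy
open Vale.Agent.P146.H425 Vale.Agent.P146.H93 Vale.Agent.P146.H985 Vale.Agent.P146.H985.Ch
open Vale.Agent.P146.H946 Vale.Agent.P146.H325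
open Vale.Agent.P146.H379.Row (bt2 dd gg gD pd_gg)

set_option linter.unusedSectionVars false

/-! ### General systems: pairs of replicas -/

section gen

variable {ι X : Type} [Fintype ι] [DecidableEq ι] [Fintype X] [Nonempty X] [DecidableEq X]
  {S : Sy ι X}

lemma ExT_mono (hS : S.Reg) {l l' : ℕ} (h : l ≤ l') (hl : l' ≤ S.K) (f : X → ℝ) :
    S.Ex (fun z _ => S.T l (fun _ x => f x) z ^ 2) ≤
      S.Ex (fun z _ => S.T l' (fun _ x => f x) z ^ 2) := by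
  have n0 : Nh (ι := ι) fun _ (x : X) => f x := Nh.snd f
  have e1 := hS.eg_T hl n0
  have h1 : ∀ z, S.T l (fun _ x => f x) z ^ 2 ≤
      S.T l (fun z _ => S.T l' (fun _ x => f x) z ^ 2) z := by
    intro z
    rw [← hS.T_T h hl n0]
    exact hS.sq_T_le (h.trans hl) (Nh.fst e1) z
  refine (hS.Ex_mono (Nh.fst ((hS.eg_T (h.trans hl) n0).pow 2))
    (Nh.fst (hS.eg_T (h.trans hl) (Nh.fst (e1.pow 2)))) fun z _ => h1 z).trans (le_of_eq ?_)
  exact hS.Ex_T (h.trans hl) (Nh.fst (e1.pow 2))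

lemma pairEx_gram (hS : S.Reg) {κ : Type} (B : Finset κ) (f : X → κ → ℝ) {l : ℕ}
    (hl : l ≤ S.K) : S.pairEx l (fun x y => ∑ i ∈ B, f x i * f y i) =
      ∑ i ∈ B, S.Ex (fun z _ => S.T l (fun _ x => f x i) z ^ 2) := by
  rw [← hS.Ex_sum B (f := fun i z (_ : X) => S.T l (fun _ x => f x i) z ^ 2) fun i _ =>
    Nh.fst ((hS.eg_T hl (Nh.snd fun x => f x i)).pow 2)]
  unfold pairEx
  congr 1
  funext z _
  have e1 : ∀ i, S.T l (fun _ x => f x i) z ^ 2 =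
      ∑ x, ∑ x', S.pr l z x * S.pr l z x' * (f x i * f x' i) := by
    intro i
    rw [hS.T_pr hl (fun x => f x i) z, sq, Finset.sum_mul_sum]
    exact Finset.sum_congr rfl fun x _ => Finset.sum_congr rfl fun x' _ => by ring
  calc ∑ x, ∑ x', S.pr l z x * S.pr l z x' * ∑ i ∈ B, f x i * f x' i =
      ∑ x, ∑ x', ∑ i ∈ B, S.pr l z x * S.pr l z x' * (f x i * f x' i) :=
        Finset.sum_congr rfl fun x _ => Finset.sum_congr rfl fun x' _ => Finset.mul_sum _ _ _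
    _ = ∑ x, ∑ i ∈ B, ∑ x', S.pr l z x * S.pr l z x' * (f x i * f x' i) :=
        Finset.sum_congr rfl fun x _ => Finset.sum_comm
    _ = ∑ i ∈ B, ∑ x, ∑ x', S.pr l z x * S.pr l z x' * (f x i * f x' i) := Finset.sum_comm
    _ = _ := Finset.sum_congr rfl fun i _ => (e1 i).symm

/-- positive definite functions are averaged more at lower levels -/
lemma pairEx_gram_mono (hS : S.Reg) {κ : Type} (B : Finset κ) (f : X → κ → ℝ) {l l' : ℕ}
    (h : l ≤ l') (hl : l' ≤ S.K) : S.pairEx l (fun x y => ∑ i ∈ B, f x i * f y i) ≤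
      S.pairEx l' (fun x y => ∑ i ∈ B, f x i * f y i) := by
  rw [pairEx_gram hS B f (h.trans hl), pairEx_gram hS B f hl]
  exact Finset.sum_le_sum fun i _ => ExT_mono hS h hl fun x => f x i

lemma pairEx_Rov4_mono (hS : S.Reg) {n : ℕ} (φ : X → Fin n → ℝ) {l l' : ℕ}
    (h : l ≤ l') (hl : l' ≤ S.K) : S.pairEx l (fun x y => Rov φ x y ^ 4) ≤
      S.pairEx l' (fun x y => Rov φ x y ^ 4) := by
  have e1 : (fun x y => Rov φ x y ^ 4) = fun x y : X => (1 / (n : ℝ)) ^ 4 *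
      ∑ i ∈ (Finset.univ : Finset (Fin n)) ×ˢ (Finset.univ : Finset (Fin n)) ×ˢ
        (Finset.univ : Finset (Fin n)) ×ˢ (Finset.univ : Finset (Fin n)),
      (φ x i.1 * (φ x i.2.1 * (φ x i.2.2.1 * φ x i.2.2.2))) *
      (φ y i.1 * (φ y i.2.1 * (φ y i.2.2.1 * φ y i.2.2.2))) := by
    funext x y
    rw [gram_prod4 (φ x) (φ x) (φ x) (φ x) (φ y) (φ y) (φ y) (φ y)]
    unfold Rov
    ring
  have h1 := pairEx_gram_mono hS ((Finset.univ : Finset (Fin n)) ×ˢ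
    (Finset.univ : Finset (Fin n)) ×ˢ (Finset.univ : Finset (Fin n)) ×ˢ
      (Finset.univ : Finset (Fin n)))
    (fun x i => φ x i.1 * (φ x i.2.1 * (φ x i.2.2.1 * φ x i.2.2.2))) h hl
  have h0 : (0 : ℝ) ≤ (1 / (n : ℝ)) ^ 4 := by positivity
  have h2 := mul_le_mul_of_nonneg_left h1 h0
  rw [← hS.pairEx_const_mul, ← hS.pairEx_const_mul] at h2
  rw [e1]
  exact h2

/-- third absolute moments from fourth moments -/
lemma pairEx_abs3 (hS : S.Reg) {l : ℕ} (hl : l ≤ S.K) {ψ : X → X → ℝ} {θ : ℝ} (hθ : 0 < θ)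
    (h : S.pairEx l (fun x y => ψ x y ^ 4) ≤ θ ^ 4) :
    S.pairEx l (fun x y => |ψ x y| ^ 3) ≤ θ ^ 3 := by
  have key : ∀ t : ℝ, 0 ≤ t → t ^ 3 ≤ 3 / (4 * θ) * t ^ 4 + θ ^ 3 / 4 := by
    intro t ht
    have h1 : 0 ≤ (t - θ) ^ 2 * (3 * t ^ 2 + 2 * t * θ + θ ^ 2) := by positivity
    have h2 : 3 / (4 * θ) * t ^ 4 + θ ^ 3 / 4 - t ^ 3 =
        (t - θ) ^ 2 * (3 * t ^ 2 + 2 * t * θ + θ ^ 2) / (4 * θ) := by
      field_simp
      ring
    have h3 : 0 ≤ (t - θ) ^ 2 * (3 * t ^ 2 + 2 * t * θ + θ ^ 2) / (4 * θ) := by positivity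
    linarith
  have h1 : S.pairEx l (fun x y => |ψ x y| ^ 3) ≤
      S.pairEx l (fun x y => 3 / (4 * θ) * ψ x y ^ 4 + θ ^ 3 / 4) := by
    refine hS.pairEx_mono hl fun x y => ?_
    have h3 := key |ψ x y| (abs_nonneg _)
    have e4 : |ψ x y| ^ 4 = ψ x y ^ 4 := Even.pow_abs (by decide) _
    rwa [e4] at h3
  rw [hS.pairEx_add hl (fun x y => 3 / (4 * θ) * ψ x y ^ 4) (fun _ _ => θ ^ 3 / 4),
    hS.pairEx_const hl, hS.pairEx_const_mul] at h1
  have h2 := mul_le_mul_of_nonneg_left h (show 0 ≤ 3 / (4 * θ) by positivity)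
  have h3 : 3 / (4 * θ) * θ ^ 4 = 3 / 4 * θ ^ 3 := by field_simp
  linarith

lemma pairEx_abs1 (hS : S.Reg) {l : ℕ} (hl : l ≤ S.K) {ψ : X → X → ℝ} {D : ℝ} (hD : 0 ≤ D)
    (h : S.pairEx l (fun x y => ψ x y ^ 2) ≤ D ^ 2) :
    S.pairEx l (fun x y => |ψ x y|) ≤ D :=
  (hS.pairEx_abs_le hl ψ).trans ((Real.sqrt_le_sqrt h).trans (le_of_eq (Real.sqrt_sq hD)))

/-- the bounds `Bs` for `C = B R + κ`-type functions -/
theorem bs_of (hS : S.Reg) {l : ℕ} (hl : l ≤ S.K) {n : ℕ} {φ : X → Fin n → ℝ}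
    {C : X → X → ℝ} {B κ θ D ρ : ℝ} (hB : 0 ≤ B) (hκ : 0 ≤ κ) (hκθ : κ ≤ θ) (hθ : 0 < θ)
    (hθ1 : θ ≤ 1) (hD : 0 < D) (hρ : 0 ≤ ρ) (hρθ : ρ ≤ θ)
    (hC : ∀ x y, |C x y - B * Rov φ x y| ≤ κ)
    (h4 : S.pairEx l (fun x y => Rov φ x y ^ 4) ≤ θ ^ 4)
    (h2 : S.pairEx l (fun x y => (Rov φ x y - ρ) ^ 2) ≤ D ^ 2) :
    Bs S l C (B * ρ) (4 * (B ^ 3 * θ ^ 3 + κ ^ 3)) (8 * (B ^ 4 * θ ^ 4 + κ ^ 4))
      (4 * (B ^ 3 * (17 / 2 * (D * θ ^ 2)) + κ ^ 3) + (B * ρ) ^ 2 * (B * D + κ)) where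
  h3 := fun i hi => by
    have hi' := hi.trans hl
    have h4' := (pairEx_Rov4_mono hS φ hi hl).trans h4
    have h3 := pairEx_abs3 hS hi' hθ h4'
    have h5 : S.pairEx i (fun x y => |C x y| ^ 3) ≤
        S.pairEx i (fun x y => 4 * B ^ 3 * |Rov φ x y| ^ 3 + 4 * κ ^ 3) := by
      refine hS.pairEx_mono hi' fun x y => ?_
      have h6 : |C x y| ≤ B * |Rov φ x y| + κ := by
        have e : C x y = B * Rov φ x y + (C x y - B * Rov φ x y) := by ring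
        rw [e]
        refine (abs_add_le _ _).trans (add_le_add ?_ (by simpa using hC x y))
        rw [abs_mul, abs_of_nonneg hB]
      have h7 := pow_le_pow_left₀ (abs_nonneg _) h6 3
      refine h7.trans ?_
      have hu : 0 ≤ B * |Rov φ x y| := mul_nonneg hB (abs_nonneg _)
      nlinarith [mul_nonneg (add_nonneg hu hκ) (sq_nonneg (B * |Rov φ x y| - κ))]
    rw [hS.pairEx_add hi' (fun x y => 4 * B ^ 3 * |Rov φ x y| ^ 3) (fun _ _ => 4 * κ ^ 3),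
      hS.pairEx_const hi', hS.pairEx_const_mul] at h5
    have h6 := mul_le_mul_of_nonneg_left h3 (show 0 ≤ 4 * B ^ 3 by positivity)
    linarith
  h4 := fun i hi => by
    have hi' := hi.trans hl
    have h4' := (pairEx_Rov4_mono hS φ hi hl).trans h4
    have h5 : S.pairEx i (fun x y => C x y ^ 4) ≤
        S.pairEx i (fun x y => 8 * B ^ 4 * Rov φ x y ^ 4 + 8 * κ ^ 4) := by
      refine hS.pairEx_mono hi' fun x y => ?_
      have h6 : |C x y| ≤ B * |Rov φ x y| + κ := by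
        have e : C x y = B * Rov φ x y + (C x y - B * Rov φ x y) := by ring
        rw [e]
        refine (abs_add_le _ _).trans (add_le_add ?_ (by simpa using hC x y))
        rw [abs_mul, abs_of_nonneg hB]
      have h7 := pow_le_pow_left₀ (abs_nonneg _) h6 4
      rw [Even.pow_abs (by decide)] at h7
      refine h7.trans ?_
      have hu : 0 ≤ B * |Rov φ x y| := mul_nonneg hB (abs_nonneg _)
      have e8 : B ^ 4 * Rov φ x y ^ 4 = (B * |Rov φ x y|) ^ 4 := by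
        rw [mul_pow, Even.pow_abs (by decide)]
      have h9 : (B * |Rov φ x y| + κ) ^ 2 ≤ 2 * ((B * |Rov φ x y|) ^ 2 + κ ^ 2) := by
        nlinarith [sq_nonneg (B * |Rov φ x y| - κ)]
      have h10 := pow_le_pow_left₀ (sq_nonneg _) h9 2
      have h11 : (2 * ((B * |Rov φ x y|) ^ 2 + κ ^ 2)) ^ 2 ≤
          8 * ((B * |Rov φ x y|) ^ 4 + κ ^ 4) := by
        nlinarith [sq_nonneg ((B * |Rov φ x y|) ^ 2 - κ ^ 2)]
      calc (B * |Rov φ x y| + κ) ^ 4 = ((B * |Rov φ x y| + κ) ^ 2) ^ 2 := by ring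
        _ ≤ 8 * ((B * |Rov φ x y|) ^ 4 + κ ^ 4) := h10.trans h11
        _ = 8 * B ^ 4 * Rov φ x y ^ 4 + 8 * κ ^ 4 := by rw [← e8]; ring
    rw [hS.pairEx_add hi' (fun x y => 8 * B ^ 4 * Rov φ x y ^ 4) (fun _ _ => 8 * κ ^ 4),
      hS.pairEx_const hi', hS.pairEx_const_mul] at h5
    have h6 := mul_le_mul_of_nonneg_left h4' (show 0 ≤ 8 * B ^ 4 by positivity)
    linarith
  hE := by
    have a1 := pairEx_abs1 hS hl hD.le h2
    have a3 : S.pairEx l (fun x y => |Rov φ x y - ρ| ^ 3) ≤ 17 / 2 * (D * θ ^ 2) := by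
      have h5 : S.pairEx l (fun x y => |Rov φ x y - ρ| ^ 3) ≤
          S.pairEx l (fun x y => θ ^ 2 / (2 * D) * (Rov φ x y - ρ) ^ 2 +
            (4 * D / θ ^ 2 * Rov φ x y ^ 4 + 4 * D / θ ^ 2 * ρ ^ 4)) := by
        refine hS.pairEx_mono hl fun x y => ?_
        set u := Rov φ x y - ρ with hu
        have h6 : |u| ^ 3 ≤ θ ^ 2 / (2 * D) * u ^ 2 + D / (2 * θ ^ 2) * u ^ 4 := by
          have h7 : 0 ≤ u ^ 2 * (θ ^ 2 - D * |u|) ^ 2 / (2 * D * θ ^ 2) := by positivity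
          have e7 : u ^ 2 * (θ ^ 2 - D * |u|) ^ 2 / (2 * D * θ ^ 2) =
              θ ^ 2 / (2 * D) * u ^ 2 + D / (2 * θ ^ 2) * (u ^ 2 * |u| ^ 2) - u ^ 2 * |u| := by
            field_simp
            ring
          have e8 : u ^ 2 * |u| ^ 2 = u ^ 4 := by rw [sq_abs]; ring
          have e9 : u ^ 2 * |u| = |u| ^ 3 := by rw [← sq_abs]; ring
          rw [e7, e8, e9] at h7
          linarith
        have h8 : u ^ 4 ≤ 8 * (Rov φ x y ^ 4 + ρ ^ 4) := by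
          have h9 : u ^ 2 ≤ 2 * (Rov φ x y ^ 2 + ρ ^ 2) := by
            rw [hu]; nlinarith [sq_nonneg (Rov φ x y + ρ)]
          have h10 := pow_le_pow_left₀ (sq_nonneg _) h9 2
          have h11 : (2 * (Rov φ x y ^ 2 + ρ ^ 2)) ^ 2 ≤ 8 * (Rov φ x y ^ 4 + ρ ^ 4) := by
            nlinarith [sq_nonneg (Rov φ x y ^ 2 - ρ ^ 2)]
          calc u ^ 4 = (u ^ 2) ^ 2 := by ring
            _ ≤ _ := h10.trans h11
        have h12 := mul_le_mul_of_nonneg_left h8 (show 0 ≤ D / (2 * θ ^ 2) by positivity)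
        have e13 : D / (2 * θ ^ 2) * (8 * (Rov φ x y ^ 4 + ρ ^ 4)) =
            4 * D / θ ^ 2 * Rov φ x y ^ 4 + 4 * D / θ ^ 2 * ρ ^ 4 := by
          field_simp
          ring
        rw [e13] at h12
        linarith
      rw [hS.pairEx_add hl (fun x y => θ ^ 2 / (2 * D) * (Rov φ x y - ρ) ^ 2)
        (fun x y => 4 * D / θ ^ 2 * Rov φ x y ^ 4 + 4 * D / θ ^ 2 * ρ ^ 4),
        hS.pairEx_add hl (fun x y => 4 * D / θ ^ 2 * Rov φ x y ^ 4)
        (fun _ _ => 4 * D / θ ^ 2 * ρ ^ 4), hS.pairEx_const hl, hS.pairEx_const_mul,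
        hS.pairEx_const_mul] at h5
      have h6 := mul_le_mul_of_nonneg_left h2 (show 0 ≤ θ ^ 2 / (2 * D) by positivity)
      have h7 := mul_le_mul_of_nonneg_left h4 (show 0 ≤ 4 * D / θ ^ 2 by positivity)
      have h8 : ρ ^ 4 ≤ θ ^ 4 := pow_le_pow_left₀ hρ hρθ 4
      have h9 := mul_le_mul_of_nonneg_left h8 (show 0 ≤ 4 * D / θ ^ 2 by positivity)
      have e6 : θ ^ 2 / (2 * D) * D ^ 2 = D * θ ^ 2 / 2 := by field_simp
      have e7 : 4 * D / θ ^ 2 * θ ^ 4 = 4 * (D * θ ^ 2) := by field_simp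
      linarith
    have h5 : S.pairEx l (fun x y => |C x y - B * ρ| ^ 3 + (B * ρ) ^ 2 * |C x y - B * ρ|) ≤
        S.pairEx l (fun x y => 4 * B ^ 3 * |Rov φ x y - ρ| ^ 3 +
          ((B * ρ) ^ 2 * B * |Rov φ x y - ρ| + (4 * κ ^ 3 + (B * ρ) ^ 2 * κ))) := by
      refine hS.pairEx_mono hl fun x y => ?_
      have h6 : |C x y - B * ρ| ≤ B * |Rov φ x y - ρ| + κ := by
        have e : C x y - B * ρ = B * (Rov φ x y - ρ) + (C x y - B * Rov φ x y) := by ring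
        rw [e]
        refine (abs_add_le _ _).trans (add_le_add ?_ (hC x y))
        rw [abs_mul, abs_of_nonneg hB]
      have h7 := pow_le_pow_left₀ (abs_nonneg _) h6 3
      have hu : 0 ≤ B * |Rov φ x y - ρ| := mul_nonneg hB (abs_nonneg _)
      have h8 : (B * |Rov φ x y - ρ| + κ) ^ 3 ≤ 4 * ((B * |Rov φ x y - ρ|) ^ 3 + κ ^ 3) := by
        nlinarith [mul_nonneg (add_nonneg hu hκ) (sq_nonneg (B * |Rov φ x y - ρ| - κ))]
      have h9 := mul_le_mul_of_nonneg_left h6 (show 0 ≤ (B * ρ) ^ 2 by positivity)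
      nlinarith
    rw [hS.pairEx_add hl (fun x y => 4 * B ^ 3 * |Rov φ x y - ρ| ^ 3)
      (fun x y => (B * ρ) ^ 2 * B * |Rov φ x y - ρ| + (4 * κ ^ 3 + (B * ρ) ^ 2 * κ)),
      hS.pairEx_add hl (fun x y => (B * ρ) ^ 2 * B * |Rov φ x y - ρ|)
      (fun _ _ => 4 * κ ^ 3 + (B * ρ) ^ 2 * κ), hS.pairEx_const hl, hS.pairEx_const_mul,
      hS.pairEx_const_mul] at h5
    have h6 := mul_le_mul_of_nonneg_left a3 (show 0 ≤ 4 * B ^ 3 by positivity)
    have h7 := mul_le_mul_of_nonneg_left a1 (show 0 ≤ (B * ρ) ^ 2 * B by positivity)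
    linarith

end gen

/-! ### The SK system -/

variable {n K : ℕ} {m b w : ℕ → ℝ}

lemma mm_sk (hm : Em K m) : Mm (skS n K m b w) where
  m0 := hm.m0.ge
  mono := hm.mono

/-- the variance of the visible fields -/
noncomputable def sw (w : ℕ → ℝ) (l : ℕ) : ℝ := ∑ q : Fin l, w (q + 1) ^ 2

/-- the coefficients without the spin of the row -/
noncomputable def ph (K : ℕ) (b w : ℕ → ℝ) (i : Fin n) (x : Fin n → ℤˣ) (e : Cd n K) : ℝ :=
  sp x i * aSK n K b w x e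

lemma CC_sk (i : Fin n) {l : ℕ} (hl : l ≤ K) (x y : Fin n → ℤˣ) :
    CC (rwl K i l) (ph K b w i) x y = bt2 n b l * Rov sp x y + sw w l -
      (∑ q : Fin l, b (q + 1) ^ 2) * (sp x i * sp y i) := by
  have hn : (n : ℝ) ≠ 0 := by
    have := i.2
    exact_mod_cast (by omega : n ≠ 0)
  have s1 : ∀ (x : Fin n → ℤˣ) (j : Fin n), sp x j * sp x j = 1 := fun x j => by
    have h := abs_sp x j
    rw [← abs_mul_abs_self, h, one_mul]
  unfold CC
  rw [sum_rwl i hl]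
  have e1 : ∀ k : Fin l, (∑ j : {j : Fin n // j ≠ i},
      ph K b w i x (Sum.inl (bnd i j.1 j.2.symm), Fin.castLE hl k) *
        ph K b w i y (Sum.inl (bnd i j.1 j.2.symm), Fin.castLE hl k)) +
      ph K b w i x (Sum.inr i, Fin.castLE hl k) * ph K b w i y (Sum.inr i, Fin.castLE hl k) =
      b (k + 1) ^ 2 * (n * Rov sp x y - sp x i * sp y i) + w (k + 1) ^ 2 := by
    intro k
    have e2 : ∀ (x : Fin n → ℤˣ) (j : {j : Fin n // j ≠ i}),
        ph K b w i x (Sum.inl (bnd i j.1 j.2.symm), Fin.castLE hl k) = b (k + 1) * sp x j.1 := by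
      intro x j
      unfold ph
      rw [aSK_inl, SkS_bnd]
      have := s1 x i
      calc sp x i * (b (((Fin.castLE hl k : Fin K) : ℕ) + 1) * (sp x i * sp x j.1)) =
          (sp x i * sp x i) * (b ((k : ℕ) + 1) * sp x j.1) := by
            simp only [Fin.val_castLE]; ring
        _ = _ := by rw [this, one_mul]
    have e3 : ∀ x : Fin n → ℤˣ, ph K b w i x (Sum.inr i, Fin.castLE hl k) = w (k + 1) := by
      intro x
      unfold ph
      rw [aSK_inr]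
      have := s1 x i
      calc sp x i * (w (((Fin.castLE hl k : Fin K) : ℕ) + 1) * sp x i) =
          (sp x i * sp x i) * w ((k : ℕ) + 1) := by simp only [Fin.val_castLE]; ring
        _ = _ := by rw [this, one_mul]
    simp only [e2, e3]
    have e4 : ∑ j : {j : Fin n // j ≠ i}, b (k + 1) * sp x j.1 * (b (k + 1) * sp y j.1) =
        b (k + 1) ^ 2 * (∑ j, sp x j * sp y j - sp x i * sp y i) := by
      have e5 : ∑ j : {j : Fin n // j ≠ i}, sp x j.1 * sp y j.1 =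
          ∑ j, sp x j * sp y j - sp x i * sp y i := by
        rw [← Finset.sum_erase_eq_sub (Finset.mem_univ i)]
        exact (Finset.sum_subtype (Finset.univ.erase i) (fun x => by simp)
          fun j => sp x j * sp y j).symm
      rw [← e5, Finset.mul_sum]
      exact Finset.sum_congr rfl fun j _ => by ring
    rw [e4]
    unfold Rov
    field_simp
  rw [Finset.sum_congr rfl fun k _ => e1 k, Finset.sum_add_distrib, ← Finset.sum_mul]
  unfold bt2 sw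
  rw [← Finset.mul_sum]
  ring

/-- the hypotheses on the overlaps at the level `l`: `θ` size, `D` concentration -/
structure Hy (n K : ℕ) (m b w : ℕ → ℝ) (l : ℕ) (θ D ρ κ : ℝ) : Prop where
  κ0 : 0 ≤ κ
  κθ : κ ≤ θ
  θ0 : 0 < θ
  θ1 : θ ≤ 1
  D0 : 0 < D
  ρ0 : 0 ≤ ρ
  ρθ : ρ ≤ θ
  wκ : sw w l + bt2 n b l / n ≤ κ
  h4 : (skS n K m b w).pairEx l (fun x y => Rov sp x y ^ 4) ≤ θ ^ 4
  h2 : (skS n K m b w).pairEx l (fun x y => (Rov sp x y - ρ) ^ 2) ≤ D ^ 2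

lemma bt2_nonneg (n : ℕ) (b : ℕ → ℝ) (l : ℕ) : 0 ≤ bt2 n b l :=
  Finset.sum_nonneg fun q _ => by positivity

lemma sw_nonneg (w : ℕ → ℝ) (l : ℕ) : 0 ≤ sw w l := Finset.sum_nonneg fun q _ => by positivity

/-- the error of the third chaos -/
noncomputable def e3 (n K : ℕ) (m b : ℕ → ℝ) (l : ℕ) (θ D κ : ℝ) : ℝ :=
  50000000000 * (1 + bt2 n b l) ^ 4 * (D * θ ^ 2 + m K * θ ^ 3 + θ ^ 4 + κ * θ ^ 2)

/-- **The third chaos of a row of the SK system.** -/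
theorem one_level_sk (hm : Em K m) (hK : 1 ≤ K) {l : ℕ} (hl : l ≤ K) (i : Fin n)
    {θ D ρ κ : ℝ} (H : Hy n K m b w l θ D ρ κ) (I : ℕ → Cd n K) :
    |6 * H379.Row.NL K m b w l i - (bt2 n b l * ρ) ^ 3 *
      tE (skS n K m b w) (fun x => sp x i) I l| ≤ e3 n K m b l θ D κ := by
  have h := linS_sk (n := n) hm b w
  have hS := h.reg
  have hn : (0 : ℝ) < n := by
    have := i.2
    exact_mod_cast (by omega : 0 < n)
  have hmK : m K ≤ 1 := (hm.mono K le_rfl).trans hm.mK.le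
  have hmK0 : 0 < m K := hm.pos.trans_le ((mm_sk (n := n) (b := b) (w := w) hm).le hK (by
    simp only [skS_K]; omega))
  have hs : ∀ x : Fin n → ℤˣ, sp x i ^ 2 = 1 := fun x => by
    rw [← sq_abs, abs_sp, one_pow]
  have hε : ∀ e ∈ rwl K i l, fE i e = -1 := fun e he => by
    rw [mem_rwl] at he
    unfold fE
    rw [if_pos he.2]
  have hAl : ∀ e ∈ rwl K i l, (skS n K m b w).lev e ≤ l := fun e he => (mem_rwl.1 he).1
  have hsy := sys_flip (n := n) hm b w i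
  have ho : ∀ z, (skS n K m b w).T l (fun _ x => sp x i) (gz (Equiv.refl _) (fE i) z) =
      -(skS n K m b w).T l (fun _ x => sp x i) z := fun z =>
    hsy.T_odd l (f := fun x => sp x i) (fun x => by rw [fX_symm, sp_fX_self]) z
  have ha : ∀ (x : Fin n → ℤˣ), ∀ e ∈ rwl K i l, aSK n K b w x e = sp x i * ph K b w i x e := by
    intro x e _
    unfold ph
    have := hs x
    rw [← mul_assoc, ← sq, this, one_mul]
  have hg1 : ∀ e ∈ rwl K i l, PD e (fun z => Real.exp (VL (skS n K m b w) l z / 2) *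
      (skS n K m b w).T l (fun _ x => sp x i) z) (gD m b w l i e) := fun e he =>
    pd_gg hm b w hl i (mem_rwl.1 he).1
  set B := bt2 n b l with hBdef
  have hB0 : 0 ≤ B := bt2_nonneg n b l
  have hC : ∀ x y, |CC (rwl K i l) (ph K b w i) x y - B * Rov sp x y| ≤ κ := by
    intro x y
    rw [CC_sk i hl]
    have e1 : bt2 n b l * Rov sp x y + sw w l - (∑ q : Fin l, b (q + 1) ^ 2) *
        (sp x i * sp y i) - B * Rov sp x y = sw w l - (∑ q : Fin l, b (q + 1) ^ 2) *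
        (sp x i * sp y i) := by rw [hBdef]; ring
    have e2 : ∑ q : Fin l, b (q + 1) ^ 2 = B / n := by
      rw [hBdef]
      unfold bt2
      rw [← Finset.mul_sum]
      field_simp
    rw [e1, e2]
    refine (abs_sub _ _).trans ?_
    rw [abs_of_nonneg (sw_nonneg w l), abs_mul, abs_mul, abs_sp, abs_sp, mul_one, mul_one,
      abs_of_nonneg (by positivity : 0 ≤ B / n)]
    exact H.wκ
  have hBs := bs_of hS hl (φ := sp) (C := CC (rwl K i l) (ph K b w i)) hB0 H.κ0 H.κθ H.θ0 H.θ1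
    H.D0 H.ρ0 H.ρθ hC H.h4 H.h2
  have h1 := one_level h (mm_sk hm) hmK0 hmK hs hl (mv_flip m b w i l) hε hAl ho
    (fun z => hsy.VL l z) ha (mul_nonneg hB0 H.ρ0) hg1 hBs I
  have e1 : NL (skS n K m b w) (fun x => sp x i) l (rwl K i l) (gD m b w l i) =
      H379.Row.NL K m b w l i := rfl
  rw [e1] at h1
  refine h1.trans ?_
  have hmS : (skS n K m b w).m (skS n K m b w).K = m K := rfl
  rw [hmS]
  unfold e3
  have hθ := H.θ0.le
  have hθ1 := H.θ1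
  have hκ := H.κ0
  have hκθ := H.κθ
  have hρ := H.ρ0
  have hρθ := H.ρθ
  have hD := H.D0.le
  -- the powers of `B`
  have hP : (1 : ℝ) ≤ (1 + B) ^ 4 := one_le_pow₀ (by linarith)
  have p3 : B ^ 3 ≤ (1 + B) ^ 4 := by
    calc B ^ 3 ≤ (1 + B) ^ 3 := pow_le_pow_left₀ hB0 (by linarith) 3
      _ ≤ (1 + B) ^ 4 := pow_le_pow_right₀ (by linarith) (by norm_num)
  have p4 : B ^ 4 ≤ (1 + B) ^ 4 := pow_le_pow_left₀ hB0 (by linarith) 4
  have p2 : B ^ 2 ≤ (1 + B) ^ 4 := by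
    calc B ^ 2 ≤ (1 + B) ^ 2 := pow_le_pow_left₀ hB0 (by linarith) 2
      _ ≤ (1 + B) ^ 4 := pow_le_pow_right₀ (by linarith) (by norm_num)
  have k2 : κ ^ 2 ≤ θ ^ 2 := pow_le_pow_left₀ hκ hκθ 2
  have k3 : κ ^ 3 ≤ κ * θ ^ 2 := by
    have := mul_le_mul_of_nonneg_left k2 hκ
    linarith [show κ ^ 3 = κ * κ ^ 2 by ring]
  have k1 : κ ≤ 1 := hκθ.trans hθ1
  have k4 : κ ^ 4 ≤ κ * θ ^ 2 := by
    have h5 : κ ^ 4 = κ * κ ^ 3 := by ring
    have h6 : κ * κ ^ 3 ≤ 1 * κ ^ 3 := mul_le_mul_of_nonneg_right k1 (by positivity)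
    linarith
  have r2 : (B * ρ) ^ 2 ≤ B ^ 2 * θ ^ 2 := by
    rw [mul_pow]
    exact mul_le_mul_of_nonneg_left (pow_le_pow_left₀ hρ hρθ 2) (by positivity)
  set P := (1 + B) ^ 4
  have q1 : (B * ρ) ^ 2 * (B * D + κ) ≤ P * (D * θ ^ 2 + κ * θ ^ 2) := by
    have h5 : (B * ρ) ^ 2 * (B * D + κ) ≤ B ^ 2 * θ ^ 2 * (B * D + κ) :=
      mul_le_mul_of_nonneg_right r2 (by positivity)
    have h6 : B ^ 2 * θ ^ 2 * (B * D + κ) = B ^ 3 * (D * θ ^ 2) + B ^ 2 * (κ * θ ^ 2) := by ring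
    have h7 := mul_le_mul_of_nonneg_right p3 (show 0 ≤ D * θ ^ 2 by positivity)
    have h8 := mul_le_mul_of_nonneg_right p2 (show 0 ≤ κ * θ ^ 2 by positivity)
    linarith
  have q2 : 4 * (B ^ 3 * (17 / 2 * (D * θ ^ 2)) + κ ^ 3) ≤
      34 * (P * (D * θ ^ 2)) + 4 * (P * (κ * θ ^ 2)) := by
    have h7 := mul_le_mul_of_nonneg_right p3 (show 0 ≤ D * θ ^ 2 by positivity)
    have h8 := mul_le_mul_of_nonneg_right hP (show 0 ≤ κ * θ ^ 2 by positivity)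
    linarith
  have q3 : m K * (4 * (B ^ 3 * θ ^ 3 + κ ^ 3)) ≤
      4 * (P * (m K * θ ^ 3)) + 4 * (P * (κ * θ ^ 2)) := by
    have h7 := mul_le_mul_of_nonneg_right p3 (show 0 ≤ m K * θ ^ 3 by positivity)
    have h8 := mul_le_mul_of_nonneg_right hP (show 0 ≤ κ * θ ^ 2 by positivity)
    have h9 : m K * κ ^ 3 ≤ 1 * κ ^ 3 := mul_le_mul_of_nonneg_right hmK (by positivity)
    nlinarith
  have q4 : 8 * (B ^ 4 * θ ^ 4 + κ ^ 4) ≤ 8 * (P * θ ^ 4) + 8 * (P * (κ * θ ^ 2)) := by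
    have h7 := mul_le_mul_of_nonneg_right p4 (show 0 ≤ θ ^ 4 by positivity)
    have h8 := mul_le_mul_of_nonneg_right hP (show 0 ≤ κ * θ ^ 2 by positivity)
    linarith
  have n1 : 0 ≤ P * (D * θ ^ 2) := by positivity
  have n2 : 0 ≤ P * (m K * θ ^ 3) := by positivity
  have n3 : 0 ≤ P * θ ^ 4 := by positivity
  have n4 : 0 ≤ P * (κ * θ ^ 2) := by positivity
  have e9 : 50000000000 * P * (D * θ ^ 2 + m K * θ ^ 3 + θ ^ 4 + κ * θ ^ 2) =
      50000000000 * (P * (D * θ ^ 2)) + 50000000000 * (P * (m K * θ ^ 3)) +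
      50000000000 * (P * θ ^ 4) + 50000000000 * (P * (κ * θ ^ 2)) := by ring
  rw [e9]
  linarith

/-- the nonlinear part is nonnegative -/
theorem NL_sk_nonneg (hm : Em K m) (hK : 1 ≤ K) {l : ℕ} (hl : l ≤ K) (i : Fin n) :
    0 ≤ H379.Row.NL K m b w l i := by
  have h := linS_sk (n := n) hm b w
  obtain ⟨I⟩ : Nonempty (ℕ → Cd n K) := ⟨fun _ => (Sum.inr i, ⟨0, by omega⟩)⟩
  have hε : ∀ e ∈ rwl K i l, fE i e = -1 := fun e he => by
    rw [mem_rwl] at he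
    unfold fE
    rw [if_pos he.2]
  have hAl : ∀ e ∈ rwl K i l, (skS n K m b w).lev e ≤ l := fun e he => (mem_rwl.1 he).1
  have hsy := sys_flip (n := n) hm b w i
  have ho : ∀ z, (skS n K m b w).T l (fun _ x => sp x i) (gz (Equiv.refl _) (fE i) z) =
      -(skS n K m b w).T l (fun _ x => sp x i) z := fun z =>
    hsy.T_odd l (f := fun x => sp x i) (fun x => by rw [fX_symm, sp_fX_self]) z
  have hg1 : ∀ e ∈ rwl K i l, PD e (fun z => Real.exp (VL (skS n K m b w) l z / 2) *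
      (skS n K m b w).T l (fun _ x => sp x i) z) (gD m b w l i e) := fun e he =>
    pd_gg hm b w hl i (mem_rwl.1 he).1
  exact (chaos_gk h hl (mv_flip m b w i l) hε hAl ho (fun z => hsy.VL l z) hg1 I).1

lemma bt2_mono (n : ℕ) (b : ℕ → ℝ) {l0 l : ℕ} (h : l0 ≤ l) : bt2 n b l0 ≤ bt2 n b l := by
  unfold bt2
  rw [Fin.sum_univ_eq_sum_range (fun q => (n : ℝ) * b (q + 1) ^ 2),
    Fin.sum_univ_eq_sum_range (fun q => (n : ℝ) * b (q + 1) ^ 2)]
  exact Finset.sum_le_sum_of_subset_of_nonneg (Finset.range_mono h) fun q _ _ => by positivity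

/-- **The third chaos loses the cube of the overlap**: `l0 ≤ l`. -/
theorem d3_sk (hm : Em K m) (hK : 1 ≤ K) {l0 l : ℕ} (hl0 : l0 ≤ l) (hl : l ≤ K) (i : Fin n)
    {θ D ρ0 ρ κ : ℝ} (H0 : Hy n K m b w l0 θ D ρ0 κ) (H : Hy n K m b w l θ D ρ κ) :
    6 * H379.Row.NL K m b w l0 i * (bt2 n b l * ρ) ^ 3 ≤
      6 * H379.Row.NL K m b w l i * (bt2 n b l0 * ρ0) ^ 3 +
        (bt2 n b l * ρ) ^ 3 * e3 n K m b l0 θ D κ + (bt2 n b l0 * ρ0) ^ 3 * e3 n K m b l θ D κ := by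
  have hS := (linS_sk (n := n) hm b w).reg
  obtain ⟨I⟩ : Nonempty (ℕ → Cd n K) := ⟨fun _ => (Sum.inr i, ⟨0, by omega⟩)⟩
  have h1 := (abs_le.1 (one_level_sk hm hK (hl0.trans hl) i H0 I)).2
  have h2 := (abs_le.1 (one_level_sk hm hK hl i H I)).1
  have h3 := tE_mono hS (fun x => sp x i) I hl0 hl
  set t0 := tE (skS n K m b w) (fun x => sp x i) I l0
  set t1 := tE (skS n K m b w) (fun x => sp x i) I l
  set r0 := bt2 n b l0 * ρ0 with hr0
  set r := bt2 n b l * ρ with hr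
  have n0 : 0 ≤ r0 ^ 3 := pow_nonneg (mul_nonneg (bt2_nonneg _ _ _) H0.ρ0) 3
  have n1 : 0 ≤ r ^ 3 := pow_nonneg (mul_nonneg (bt2_nonneg _ _ _) H.ρ0) 3
  have a1 := mul_le_mul_of_nonneg_right h1 n1
  have a2 := mul_le_mul_of_nonneg_right h2 n0
  have a3 := mul_le_mul_of_nonneg_left h3 (mul_nonneg n0 n1)
  nlinarith

/-- **The third chaos divided by the overlap loses the square of the overlap.** -/
theorem cub_sk (hm : Em K m) (hK : 1 ≤ K) {l0 l : ℕ} (hl0 : l0 ≤ l) (hl : l ≤ K) (i : Fin n)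
    {θ D ρ0 ρ κ : ℝ} (H0 : Hy n K m b w l0 θ D ρ0 κ) (H : Hy n K m b w l θ D ρ κ)
    (hB : 0 < bt2 n b l0) (hρ0 : 0 < ρ0) (hρ : ρ0 ≤ ρ) :
    H379.Row.NL K m b w l0 i / ρ0 ≤
      (bt2 n b l0 * ρ0 / (bt2 n b l * ρ)) ^ 2 * (H379.Row.NL K m b w l i / ρ) +
        (e3 n K m b l0 θ D κ + e3 n K m b l θ D κ) / (6 * ρ0) := by
  have h1 := d3_sk hm hK hl0 hl i H0 H
  have hNL := NL_sk_nonneg (b := b) (w := w) hm hK hl i
  have hBB := bt2_mono n b hl0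
  set B0 := bt2 n b l0
  set B := bt2 n b l
  set N0 := H379.Row.NL K m b w l0 i
  set N := H379.Row.NL K m b w l i
  set E0 := e3 n K m b l0 θ D κ
  set E := e3 n K m b l θ D κ
  have hBp : 0 < B := hB.trans_le hBB
  have hρp : 0 < ρ := hρ0.trans_le hρ
  have hκ := H.κ0
  have hθ := H.θ0
  have hD := H.D0
  have hmK0 : 0 ≤ m K := (mm_sk (n := n) (b := b) (w := w) hm).nn (by simp only [skS_K]; omega)
  have hE : 0 ≤ E := by
    show 0 ≤ e3 n K m b l θ D κ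
    unfold e3
    have := bt2_nonneg n b l
    positivity
  have hr : B0 * ρ0 ≤ B * ρ := mul_le_mul hBB hρ hρ0.le hBp.le
  have hrp : 0 < B * ρ := mul_pos hBp hρp
  have hr0 : 0 < B0 * ρ0 := mul_pos hB hρ0
  have h2 : 6 * N0 ≤ 6 * N * (B0 * ρ0) ^ 3 / (B * ρ) ^ 3 + E0 + E := by
    have h3 : (B0 * ρ0) ^ 3 * E ≤ (B * ρ) ^ 3 * E :=
      mul_le_mul_of_nonneg_right (pow_le_pow_left₀ hr0.le hr 3) hE
    have h4 : 6 * N0 * (B * ρ) ^ 3 ≤
        (6 * N * (B0 * ρ0) ^ 3 / (B * ρ) ^ 3 + E0 + E) * (B * ρ) ^ 3 := by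
      have e1 : (6 * N * (B0 * ρ0) ^ 3 / (B * ρ) ^ 3 + E0 + E) * (B * ρ) ^ 3 =
          6 * N * (B0 * ρ0) ^ 3 + (B * ρ) ^ 3 * E0 + (B * ρ) ^ 3 * E := by
        field_simp
      rw [e1]
      linarith
    exact le_of_mul_le_mul_right h4 (by positivity)
  have h5 : N * (B0 * ρ0) ^ 3 / (B * ρ) ^ 3 ≤ (B0 * ρ0 / (B * ρ)) ^ 2 * (N / ρ) * ρ0 := by
    have e1 : N * (B0 * ρ0) ^ 3 / (B * ρ) ^ 3 =
        (B0 * ρ0 / (B * ρ)) ^ 2 * (N / ρ) * ρ0 * (B0 / B) := by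
      field_simp
    rw [e1]
    have h6 : B0 / B ≤ 1 := (div_le_one hBp).2 hBB
    have h7 : 0 ≤ (B0 * ρ0 / (B * ρ)) ^ 2 * (N / ρ) * ρ0 := by positivity
    nlinarith
  rw [div_le_iff₀ hρ0]
  have e3' : ((B0 * ρ0 / (B * ρ)) ^ 2 * (N / ρ) + (E0 + E) / (6 * ρ0)) * ρ0 =
      (B0 * ρ0 / (B * ρ)) ^ 2 * (N / ρ) * ρ0 + (E0 + E) / 6 := by
    field_simp
  rw [e3']
  have e4 : 6 * N * (B0 * ρ0) ^ 3 / (B * ρ) ^ 3 = 6 * (N * (B0 * ρ0) ^ 3 / (B * ρ) ^ 3) := by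
    ring
  rw [e4] at h2
  linarith

end Vale.Agent.P146.H508
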