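import Vale.Agent.P146.H508.Lst

/-!
# P146: Gram bounds for the monomials (helper508)
-/

open MeasureTheory ProbabilityTheory

namespace Vale.Agent.P146.H508

open Vale.Agent.P157 Vale.Agent.P157.Lv Vale.Agent.P157.Lv.Sy
open Vale.Agent.P146.H425 Vale.Agent.P146.H93 Vale.Agent.P146.H985

set_option linter.unusedSectionVars false

variable {ι X : Type} [Fintype ι] [DecidableEq ι] [Fintype X] [Nonempty X]
  {S : Sy ι X} {a : X → ι → ℝ} {c : X → ℝ} {s : X → ℝ} {I : ℕ → ι} {A : Finset ι}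

/-! ### Algebra -/

lemma gram_base {κ Ω Ω' : Type} [Fintype Ω] [Fintype Ω'] (B : Finset κ) (W : Ω → ℝ)
    (F : Ω → κ → ℝ) (W' : Ω' → ℝ) (F' : Ω' → κ → ℝ) :
    ∑ i ∈ B, (∑ ω, W ω * F ω i) * (∑ ω', W' ω' * F' ω' i) =
      ∑ ω, ∑ ω', W ω * W' ω' * ∑ i ∈ B, F ω i * F' ω' i := by
  simp only [Finset.sum_mul_sum]
  rw [Finset.sum_comm]
  refine Finset.sum_congr rfl fun ω _ => ?_
  rw [Finset.sum_comm]
  refine Finset.sum_congr rfl fun ω' _ => ?_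
  rw [Finset.mul_sum]
  exact Finset.sum_congr rfl fun i _ => by ring

lemma gram_prod3 (u v w u' v' w' : ι → ℝ) :
    ∑ i ∈ A ×ˢ A ×ˢ A, (u i.1 * (v i.2.1 * w i.2.2)) * (u' i.1 * (v' i.2.1 * w' i.2.2)) =
      (∑ e ∈ A, u e * u' e) * ((∑ f ∈ A, v f * v' f) * ∑ h ∈ A, w h * w' h) := by
  rw [Finset.sum_product, Finset.sum_mul]
  refine Finset.sum_congr rfl fun e _ => ?_
  rw [Finset.sum_product, Finset.sum_mul, Finset.mul_sum]
  refine Finset.sum_congr rfl fun f _ => ?_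
  rw [Finset.mul_sum, Finset.mul_sum]
  refine Finset.sum_congr rfl fun h _ => ?_
  ring

lemma gram_prod4 (u v w q u' v' w' q' : ι → ℝ) :
    ∑ i ∈ A ×ˢ A ×ˢ A ×ˢ A, (u i.1 * (v i.2.1 * (w i.2.2.1 * q i.2.2.2))) *
      (u' i.1 * (v' i.2.1 * (w' i.2.2.1 * q' i.2.2.2))) =
      (∑ e ∈ A, u e * u' e) * ((∑ f ∈ A, v f * v' f) * ((∑ h ∈ A, w h * w' h) *
        ∑ k ∈ A, q k * q' k)) := by
  rw [Finset.sum_product, Finset.sum_mul]
  refine Finset.sum_congr rfl fun e _ => ?_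
  have h1 := gram_prod3 (A := A) v w q v' w' q'
  rw [← h1, Finset.mul_sum]
  refine Finset.sum_congr rfl fun i _ => ?_
  ring

lemma real_prod3 {ρ c0 c1 c2 : ℝ} (hρ : 0 ≤ ρ) : |c0 * (c1 * c2) - ρ ^ 3| ≤
    3 / 2 * ((|c0 - ρ| ^ 3 + ρ ^ 2 * |c0 - ρ|) + (|c1 - ρ| ^ 3 + ρ ^ 2 * |c1 - ρ|) +
      (|c2 - ρ| ^ 3 + ρ ^ 2 * |c2 - ρ|)) := by
  have e : c0 * (c1 * c2) - ρ ^ 3 = ρ ^ 2 * ((c0 - ρ) + (c1 - ρ) + (c2 - ρ)) +
      ρ * ((c0 - ρ) * (c1 - ρ) + (c0 - ρ) * (c2 - ρ) + (c1 - ρ) * (c2 - ρ)) +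
      (c0 - ρ) * (c1 - ρ) * (c2 - ρ) := by ring
  rw [e]
  set x := c0 - ρ
  set y := c1 - ρ
  set w := c2 - ρ
  have hx := abs_nonneg x
  have hy := abs_nonneg y
  have hw := abs_nonneg w
  have h1 : |ρ ^ 2 * (x + y + w)| ≤ ρ ^ 2 * (|x| + |y| + |w|) := by
    rw [abs_mul, abs_of_nonneg (by positivity : (0 : ℝ) ≤ ρ ^ 2)]
    refine mul_le_mul_of_nonneg_left ?_ (by positivity)
    exact (abs_add_le _ _).trans (by have := abs_add_le x y; linarith)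
  have h2 : |ρ * (x * y + x * w + y * w)| ≤ ρ * (|x| * |y| + |x| * |w| + |y| * |w|) := by
    rw [abs_mul, abs_of_nonneg hρ]
    refine mul_le_mul_of_nonneg_left ?_ hρ
    refine (abs_add_le _ _).trans ?_
    have h3 := abs_add_le (x * y) (x * w)
    rw [abs_mul, abs_mul] at h3
    rw [abs_mul y w]
    linarith
  have h3 : |x * y * w| = |x| * |y| * |w| := by rw [abs_mul, abs_mul]
  have h4 := abs_add_le (ρ ^ 2 * (x + y + w) + ρ * (x * y + x * w + y * w)) (x * y * w)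
  have h5 := abs_add_le (ρ ^ 2 * (x + y + w)) (ρ * (x * y + x * w + y * w))
  rw [h3] at h4
  have g1 : ∀ p : ℝ, 0 ≤ p → ρ * p ^ 2 ≤ (ρ ^ 2 * p + p ^ 3) / 2 := fun p hp => by
    have := mul_nonneg hp (sq_nonneg (ρ - p))
    nlinarith
  have g2 : ρ * (|x| * |y| + |x| * |w| + |y| * |w|) ≤ ρ * (|x| ^ 2 + |y| ^ 2 + |w| ^ 2) := by
    refine mul_le_mul_of_nonneg_left ?_ hρ
    nlinarith [sq_nonneg (|x| - |y|), sq_nonneg (|x| - |w|), sq_nonneg (|y| - |w|)]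
  have g3 : |x| * |y| * |w| ≤ (|x| ^ 3 + |y| ^ 3 + |w| ^ 3) / 3 := by
    nlinarith [mul_nonneg hx (sq_nonneg (|x| - |y|)), mul_nonneg hx (sq_nonneg (|x| - |w|)),
      mul_nonneg hx (sq_nonneg (|y| - |w|)), mul_nonneg hy (sq_nonneg (|x| - |y|)),
      mul_nonneg hy (sq_nonneg (|x| - |w|)), mul_nonneg hy (sq_nonneg (|y| - |w|)),
      mul_nonneg hw (sq_nonneg (|x| - |y|)), mul_nonneg hw (sq_nonneg (|x| - |w|)),
      mul_nonneg hw (sq_nonneg (|y| - |w|))]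
  have p1 := g1 _ hx
  have p2 := g1 _ hy
  have p3 := g1 _ hw
  have q1 := pow_nonneg hx 3
  have q2 := pow_nonneg hy 3
  have q3 := pow_nonneg hw 3
  nlinarith

lemma real_abs3 (c0 c1 c2 : ℝ) : |c0 * (c1 * c2)| ≤ 1 / 3 * (|c0| ^ 3 + |c1| ^ 3 + |c2| ^ 3) := by
  rw [abs_mul, abs_mul]
  have hx := abs_nonneg c0
  have hy := abs_nonneg c1
  have hw := abs_nonneg c2
  set x := |c0|
  set y := |c1|
  set w := |c2|
  nlinarith [mul_nonneg hx (sq_nonneg (x - y)), mul_nonneg hx (sq_nonneg (x - w)),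
      mul_nonneg hx (sq_nonneg (y - w)), mul_nonneg hy (sq_nonneg (x - y)),
      mul_nonneg hy (sq_nonneg (x - w)), mul_nonneg hy (sq_nonneg (y - w)),
      mul_nonneg hw (sq_nonneg (x - y)), mul_nonneg hw (sq_nonneg (x - w)),
      mul_nonneg hw (sq_nonneg (y - w))]

lemma real_abs4 (c0 c1 c2 c3 : ℝ) : |c0 * (c1 * (c2 * c3))| ≤
    1 / 4 * (c0 ^ 4 + c1 ^ 4 + c2 ^ 4 + c3 ^ 4) := by
  have h1 : |(c0 * c1) * (c2 * c3)| ≤ 1 / 2 * ((c0 * c1) ^ 2 + (c2 * c3) ^ 2) := by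
    rw [abs_le]
    constructor
    · nlinarith [sq_nonneg (c0 * c1 + c2 * c3)]
    · nlinarith [sq_nonneg (c0 * c1 - c2 * c3)]
  have h2 : (c0 * c1) ^ 2 ≤ 1 / 2 * (c0 ^ 4 + c1 ^ 4) := by nlinarith [sq_nonneg (c0 ^ 2 - c1 ^ 2)]
  have h3 : (c2 * c3) ^ 2 ≤ 1 / 2 * (c2 ^ 4 + c3 ^ 4) := by nlinarith [sq_nonneg (c2 ^ 2 - c3 ^ 2)]
  have e : c0 * (c1 * (c2 * c3)) = (c0 * c1) * (c2 * c3) := by ring
  rw [e]
  linarith

/-! ### Pairs of replicas -/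

variable [DecidableEq X]

/-- the average over two replicas which split at the level `l` -/
noncomputable def pp (S : Sy ι X) (l : ℕ) (z : ι → ℝ) (F : X → X → ℝ) : ℝ :=
  ∑ x, ∑ x', S.pr l z x * S.pr l z x' * F x x'

lemma pairEx_eq (l : ℕ) (F : X → X → ℝ) : S.pairEx l F = S.Ex fun z _ => pp S l z F := rfl

lemma pp_eq (hS : S.Reg) {l : ℕ} (hl : l ≤ S.K) (F : X → X → ℝ) (z : ι → ℝ) :
    S.T l (fun _ x => S.T l (fun _ x' => F x x') z) z = pp S l z F := by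
  rw [hS.T_pr hl (fun x => S.T l (fun _ x' => F x x') z) z]
  unfold pp
  refine Finset.sum_congr rfl fun x _ => ?_
  rw [hS.T_pr hl (F x) z, Finset.mul_sum]
  exact Finset.sum_congr rfl fun x' _ => by ring

lemma RpD.pair (hS : S.Reg) {M M' : Mo} {l : ℕ} (hl : l ≤ S.K) {Ω Ω' : Type} [Fintype Ω]
    [Fintype Ω'] {P : Ω → (ι → ℝ) → X → ℝ} {B : Ω → X → ℕ → X} {q : Ω → X → ℝ}
    {P' : Ω' → (ι → ℝ) → X → ℝ} {B' : Ω' → X → ℕ → X} {q' : Ω' → X → ℝ}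
    (h : RpD S s M Ω P B q) (h' : RpD S s M' Ω' P' B' q') {v : ℕ} (hv : v ∈ lab M)
    (hv' : v ∈ lab M') (hc : cl M v = some l) (hc' : cl M' v = some l) (F : X → X → ℝ)
    (z : ι → ℝ) (x : X) :
    ∑ ω, ∑ ω', P ω z x * P' ω' z x * F (B ω x v) (B' ω' x v) = pp S l z F := by
  have e1 : ∀ ω, ∑ ω', P ω z x * P' ω' z x * F (B ω x v) (B' ω' x v) =
      P ω z x * S.T l (fun _ y' => F (B ω x v) y') z := by
    intro ω
    have h1 := h'.marg v hv' (F (B ω x v)) z x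
    rw [hc', mar_some] at h1
    rw [← h1, Finset.mul_sum]
    exact Finset.sum_congr rfl fun ω' _ => by ring
  simp only [e1]
  have h2 := h.marg v hv (fun y => S.T l (fun _ y' => F y y') z) z x
  rw [hc, mar_some] at h2
  rw [h2, pp_eq hS hl]

/-- the indices -/
def ix (e f h k : ι) : ℕ → ι
  | 0 => e
  | 1 => f
  | 2 => h
  | _ => k

/-- the covariance of the coefficients -/
def CC (A : Finset ι) (a : X → ι → ℝ) (x y : X) : ℝ := ∑ e ∈ A, a x e * a y e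

/-- sums over three indices -/
lemma RpD.gram3 {M M' : Mo} {Ω Ω' : Type} [Fintype Ω]
    [Fintype Ω'] {P : Ω → (ι → ℝ) → X → ℝ} {B : Ω → X → ℕ → X} {q : Ω → X → ℝ}
    {P' : Ω' → (ι → ℝ) → X → ℝ} {B' : Ω' → X → ℕ → X} {q' : Ω' → X → ℝ}
    (h : RpD S s M Ω P B q) (h' : RpD S s M' Ω' P' B' q') (hM : lab M = Finset.range 3)
    (hM' : lab M' = Finset.range 3) (A : Finset ι) (a : X → ι → ℝ) (z : ι → ℝ) (x : X) :
    ∑ e ∈ A, ∑ f ∈ A, ∑ k ∈ A, ev S a s (ix e f k k) M z x * ev S a s (ix e f k k) M' z x =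
      ∑ ω, ∑ ω', P ω z x * q ω x * (P' ω' z x * q' ω' x) *
        (CC A a (B ω x 0) (B' ω' x 0) * (CC A a (B ω x 1) (B' ω' x 1) *
          CC A a (B ω x 2) (B' ω' x 2))) := by
  have e1 : ∀ e f k : ι, ev S a s (ix e f k k) M z x = ∑ ω, P ω z x * q ω x *
      (a (B ω x 0) e * (a (B ω x 1) f * a (B ω x 2) k)) := by
    intro e f k
    rw [h.ev_eq, hM]
    refine Finset.sum_congr rfl fun ω _ => ?_
    simp only [Finset.prod_range_succ, Finset.prod_range_zero, ix]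
    ring
  have e2 : ∀ e f k : ι, ev S a s (ix e f k k) M' z x = ∑ ω, P' ω z x * q' ω x *
      (a (B' ω x 0) e * (a (B' ω x 1) f * a (B' ω x 2) k)) := by
    intro e f k
    rw [h'.ev_eq, hM']
    refine Finset.sum_congr rfl fun ω _ => ?_
    simp only [Finset.prod_range_succ, Finset.prod_range_zero, ix]
    ring
  simp only [e1, e2]
  have h1 := gram_base (A ×ˢ A ×ˢ A) (fun ω => P ω z x * q ω x)
    (fun ω i => a (B ω x 0) i.1 * (a (B ω x 1) i.2.1 * a (B ω x 2) i.2.2))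
    (fun ω' => P' ω' z x * q' ω' x)
    (fun ω' i => a (B' ω' x 0) i.1 * (a (B' ω' x 1) i.2.1 * a (B' ω' x 2) i.2.2))
  rw [Finset.sum_product] at h1
  simp only [Finset.sum_product] at h1
  rw [h1]
  refine Finset.sum_congr rfl fun ω _ => Finset.sum_congr rfl fun ω' _ => ?_
  have h2 := gram_prod3 (A := A) (a (B ω x 0)) (a (B ω x 1)) (a (B ω x 2)) (a (B' ω' x 0))
    (a (B' ω' x 1)) (a (B' ω' x 2))
  simp only [Finset.sum_product] at h2
  rw [h2]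
  rfl

/-- sums over four indices -/
lemma RpD.gram4 {M M' : Mo} {Ω Ω' : Type} [Fintype Ω]
    [Fintype Ω'] {P : Ω → (ι → ℝ) → X → ℝ} {B : Ω → X → ℕ → X} {q : Ω → X → ℝ}
    {P' : Ω' → (ι → ℝ) → X → ℝ} {B' : Ω' → X → ℕ → X} {q' : Ω' → X → ℝ}
    (h : RpD S s M Ω P B q) (h' : RpD S s M' Ω' P' B' q') (hM : lab M = Finset.range 4)
    (hM' : lab M' = Finset.range 4) (A : Finset ι) (a : X → ι → ℝ) (z : ι → ℝ) (x : X) :
    ∑ e ∈ A, ∑ f ∈ A, ∑ k ∈ A, ∑ j ∈ A, ev S a s (ix e f k j) M z x *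
        ev S a s (ix e f k j) M' z x =
      ∑ ω, ∑ ω', P ω z x * q ω x * (P' ω' z x * q' ω' x) *
        (CC A a (B ω x 0) (B' ω' x 0) * (CC A a (B ω x 1) (B' ω' x 1) *
          (CC A a (B ω x 2) (B' ω' x 2) * CC A a (B ω x 3) (B' ω' x 3)))) := by
  have e1 : ∀ e f k j : ι, ev S a s (ix e f k j) M z x = ∑ ω, P ω z x * q ω x *
      (a (B ω x 0) e * (a (B ω x 1) f * (a (B ω x 2) k * a (B ω x 3) j))) := by
    intro e f k j
    rw [h.ev_eq, hM]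
    refine Finset.sum_congr rfl fun ω _ => ?_
    simp only [Finset.prod_range_succ, Finset.prod_range_zero, ix]
    ring
  have e2 : ∀ e f k j : ι, ev S a s (ix e f k j) M' z x = ∑ ω, P' ω z x * q' ω x *
      (a (B' ω x 0) e * (a (B' ω x 1) f * (a (B' ω x 2) k * a (B' ω x 3) j))) := by
    intro e f k j
    rw [h'.ev_eq, hM']
    refine Finset.sum_congr rfl fun ω _ => ?_
    simp only [Finset.prod_range_succ, Finset.prod_range_zero, ix]
    ring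
  simp only [e1, e2]
  have h1 := gram_base (A ×ˢ A ×ˢ A ×ˢ A) (fun ω => P ω z x * q ω x)
    (fun ω i => a (B ω x 0) i.1 * (a (B ω x 1) i.2.1 * (a (B ω x 2) i.2.2.1 *
      a (B ω x 3) i.2.2.2)))
    (fun ω' => P' ω' z x * q' ω' x)
    (fun ω' i => a (B' ω' x 0) i.1 * (a (B' ω' x 1) i.2.1 * (a (B' ω' x 2) i.2.2.1 *
      a (B' ω' x 3) i.2.2.2)))
  rw [Finset.sum_product] at h1
  simp only [Finset.sum_product] at h1
  rw [h1]
  refine Finset.sum_congr rfl fun ω _ => Finset.sum_congr rfl fun ω' _ => ?_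
  have h2 := gram_prod4 (A := A) (a (B ω x 0)) (a (B ω x 1)) (a (B ω x 2)) (a (B ω x 3))
    (a (B' ω' x 0)) (a (B' ω' x 1)) (a (B' ω' x 2)) (a (B' ω' x 3))
  simp only [Finset.sum_product] at h2
  rw [h2]
  rfl

/-- a weighted double sum -/
lemma dsum_le {Ω Ω' : Type} [Fintype Ω] [Fintype Ω'] {P q : Ω → ℝ} {P' q' : Ω' → ℝ}
    (hP : ∀ ω, 0 ≤ P ω) (hP' : ∀ ω, 0 ≤ P' ω) (hq : ∀ ω, |q ω| ≤ 1) (hq' : ∀ ω, |q' ω| ≤ 1)
    {F G : Ω → Ω' → ℝ} (h : ∀ ω ω', |F ω ω'| ≤ G ω ω') :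
    |∑ ω, ∑ ω', P ω * q ω * (P' ω' * q' ω') * F ω ω'| ≤ ∑ ω, ∑ ω', P ω * P' ω' * G ω ω' := by
  refine (Finset.abs_sum_le_sum_abs _ _).trans (Finset.sum_le_sum fun ω _ => ?_)
  refine (Finset.abs_sum_le_sum_abs _ _).trans (Finset.sum_le_sum fun ω' _ => ?_)
  have e : P ω * q ω * (P' ω' * q' ω') * F ω ω' = (P ω * P' ω') * ((q ω * q' ω') * F ω ω') := by
    ring
  rw [e, abs_mul, abs_of_nonneg (mul_nonneg (hP ω) (hP' ω'))]
  refine mul_le_mul_of_nonneg_left ?_ (mul_nonneg (hP ω) (hP' ω'))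
  rw [abs_mul, abs_mul]
  have h1 : |q ω| * |q' ω'| ≤ 1 := mul_le_one₀ (hq ω) (abs_nonneg _) (hq' ω')
  calc |q ω| * |q' ω'| * |F ω ω'| ≤ 1 * |F ω ω'| :=
        mul_le_mul_of_nonneg_right h1 (abs_nonneg _)
    _ ≤ G ω ω' := by rw [one_mul]; exact h ω ω'

/-- the closed monomials of order `k` -/
structure Cm (S : Sy ι X) (l k : ℕ) (M : Mo) : Prop where
  tk : tk S.K M
  lin : Lin M
  lab : lab M = Finset.range k
  out : Out l M

lemma Gd.cm {l k : ℕ} {L : List (Tm ι)} (h : Gd S l k L) {t : Tm ι} (ht : t ∈ L) :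
    Cm S l k t.M := ⟨h.tk t ht, h.lin t ht, h.lab t ht, h.out t ht⟩

/-- **Bound of the squares of a monomial, three indices.** -/
lemma sq3_le (hS : S.Reg) (hs : ∀ x, |s x| ≤ 1) {l : ℕ} (hl : l ≤ S.K) {M : Mo}
    (hM : Cm S l 3 M) (A : Finset ι) (a : X → ι → ℝ) : ∃ i : ℕ → ℕ, (∀ v, i v ≤ l) ∧
    ∀ z x, ∑ e ∈ A, ∑ f ∈ A, ∑ k ∈ A, ev S a s (ix e f k k) M z x ^ 2 ≤
      1 / 3 * (pp S (i 0) z (fun x y => |CC A a x y| ^ 3) +
        pp S (i 1) z (fun x y => |CC A a x y| ^ 3) + pp S (i 2) z fun x y => |CC A a x y| ^ 3) := by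
  obtain ⟨Ω, _, P, B, q, h⟩ := rep hS hs M hM.tk hM.lin
  have h1 : ∀ v < 3, ∃ i ≤ l, cl M v = some i := fun v hv =>
    hM.out.cl v (by rw [hM.lab]; exact Finset.mem_range.2 hv)
  obtain ⟨i0, l0, c0⟩ := h1 0 (by norm_num)
  obtain ⟨i1, l1, c1⟩ := h1 1 (by norm_num)
  obtain ⟨i2, l2, c2⟩ := h1 2 (by norm_num)
  refine ⟨fun v => match v with | 0 => i0 | 1 => i1 | _ => i2, fun v => ?_, fun z x => ?_⟩
  · rcases v with _ | _ | v
    · exact l0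
    · exact l1
    · exact l2
  · have m : ∀ v < 3, v ∈ lab M := fun v hv => by rw [hM.lab]; exact Finset.mem_range.2 hv
    have g := h.gram3 h hM.lab hM.lab A a z x
    simp only [sq]
    rw [g]
    refine (le_abs_self _).trans ((dsum_le (fun ω => h.nn ω z x) (fun ω => h.nn ω z x)
      (fun ω => h.q1 ω x) (fun ω => h.q1 ω x) fun ω ω' => real_abs3 _ _ _).trans (le_of_eq ?_))
    have p0 := h.pair hS (l0.trans hl) h (m 0 (by norm_num)) (m 0 (by norm_num)) c0 c0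
      (fun x y => |CC A a x y| ^ 3) z x
    have p1 := h.pair hS (l1.trans hl) h (m 1 (by norm_num)) (m 1 (by norm_num)) c1 c1
      (fun x y => |CC A a x y| ^ 3) z x
    have p2 := h.pair hS (l2.trans hl) h (m 2 (by norm_num)) (m 2 (by norm_num)) c2 c2
      (fun x y => |CC A a x y| ^ 3) z x
    rw [← p0, ← p1, ← p2, ← Finset.sum_add_distrib, ← Finset.sum_add_distrib, Finset.mul_sum]
    refine Finset.sum_congr rfl fun ω _ => ?_
    rw [← Finset.sum_add_distrib, ← Finset.sum_add_distrib, Finset.mul_sum]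
    exact Finset.sum_congr rfl fun ω' _ => by ring

/-- **Bound of the squares of a monomial, four indices.** -/
lemma sq4_le (hS : S.Reg) (hs : ∀ x, |s x| ≤ 1) {l : ℕ} (hl : l ≤ S.K) {M : Mo}
    (hM : Cm S l 4 M) (A : Finset ι) (a : X → ι → ℝ) : ∃ i : ℕ → ℕ, (∀ v, i v ≤ l) ∧
    ∀ z x, ∑ e ∈ A, ∑ f ∈ A, ∑ k ∈ A, ∑ j ∈ A, ev S a s (ix e f k j) M z x ^ 2 ≤
      1 / 4 * (pp S (i 0) z (fun x y => CC A a x y ^ 4) +
        pp S (i 1) z (fun x y => CC A a x y ^ 4) + pp S (i 2) z (fun x y => CC A a x y ^ 4) +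
          pp S (i 3) z fun x y => CC A a x y ^ 4) := by
  obtain ⟨Ω, _, P, B, q, h⟩ := rep hS hs M hM.tk hM.lin
  have h1 : ∀ v < 4, ∃ i ≤ l, cl M v = some i := fun v hv =>
    hM.out.cl v (by rw [hM.lab]; exact Finset.mem_range.2 hv)
  obtain ⟨i0, l0, c0⟩ := h1 0 (by norm_num)
  obtain ⟨i1, l1, c1⟩ := h1 1 (by norm_num)
  obtain ⟨i2, l2, c2⟩ := h1 2 (by norm_num)
  obtain ⟨i3, l3, c3⟩ := h1 3 (by norm_num)
  refine ⟨fun v => match v with | 0 => i0 | 1 => i1 | 2 => i2 | _ => i3, fun v => ?_,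
    fun z x => ?_⟩
  · rcases v with _ | _ | _ | v
    · exact l0
    · exact l1
    · exact l2
    · exact l3
  · have m : ∀ v < 4, v ∈ lab M := fun v hv => by rw [hM.lab]; exact Finset.mem_range.2 hv
    have g := h.gram4 h hM.lab hM.lab A a z x
    simp only [sq]
    rw [g]
    refine (le_abs_self _).trans ((dsum_le (fun ω => h.nn ω z x) (fun ω => h.nn ω z x)
      (fun ω => h.q1 ω x) (fun ω => h.q1 ω x) fun ω ω' => real_abs4 _ _ _ _).trans (le_of_eq ?_))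
    have p0 := h.pair hS (l0.trans hl) h (m 0 (by norm_num)) (m 0 (by norm_num)) c0 c0
      (fun x y => CC A a x y ^ 4) z x
    have p1 := h.pair hS (l1.trans hl) h (m 1 (by norm_num)) (m 1 (by norm_num)) c1 c1
      (fun x y => CC A a x y ^ 4) z x
    have p2 := h.pair hS (l2.trans hl) h (m 2 (by norm_num)) (m 2 (by norm_num)) c2 c2
      (fun x y => CC A a x y ^ 4) z x
    have p3 := h.pair hS (l3.trans hl) h (m 3 (by norm_num)) (m 3 (by norm_num)) c3 c3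
      (fun x y => CC A a x y ^ 4) z x
    rw [← p0, ← p1, ← p2, ← p3, ← Finset.sum_add_distrib, ← Finset.sum_add_distrib,
      ← Finset.sum_add_distrib, Finset.mul_sum]
    refine Finset.sum_congr rfl fun ω _ => ?_
    rw [← Finset.sum_add_distrib, ← Finset.sum_add_distrib, ← Finset.sum_add_distrib,
      Finset.mul_sum]
    exact Finset.sum_congr rfl fun ω' _ => by ring

end Vale.Agent.P146.H508
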