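import Vale.Agent.P146.H508.Lab

/-!
# P146: the derivatives of `e^{V/2} T_l s` (helper508)
-/

open MeasureTheory ProbabilityTheory

namespace Vale.Agent.P146.H508

open Vale.Agent.P157 Vale.Agent.P157.Lv Vale.Agent.P157.Lv.Sy
open Vale.Agent.P146.H425 Vale.Agent.P146.H93 Vale.Agent.P146.H985

set_option linter.unusedSectionVars false

variable {ι X : Type} [Fintype ι] [DecidableEq ι] [Fintype X] [Nonempty X]
  {S : Sy ι X} {a : X → ι → ℝ} {c : X → ℝ} {s : X → ℝ} {I : ℕ → ι}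

/-- keep the coefficient of the first term, the monomial of the second -/
def snd' (_ M' : Mo) : Mo := M'

/-- a list acting on the terms of a list -/
def bd (L : List (Tm ι)) (F : Mo → List (Tm ι)) (f : Mo → Mo → Mo) : List (Tm ι) :=
  L.flatMap fun t => (F t.M).map fun t' => Tm.tm t t' f

lemma bd_nil (F : Mo → List (Tm ι)) (f : Mo → Mo → Mo) : bd [] F f = [] := rfl

lemma bd_cons (t : Tm ι) (L : List (Tm ι)) (F : Mo → List (Tm ι)) (f : Mo → Mo → Mo) :
    bd (t :: L) F f = ((F t.M).map fun t' => Tm.tm t t' f) ++ bd L F f := by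
  simp [bd]

lemma mem_bd {L : List (Tm ι)} {F : Mo → List (Tm ι)} {f : Mo → Mo → Mo} {u : Tm ι} :
    u ∈ bd L F f ↔ ∃ t ∈ L, ∃ t' ∈ F t.M, u = Tm.tm t t' f := by
  simp only [bd, List.mem_flatMap, List.mem_map, eq_comm]

lemma evL_tm_snd (t : Tm ι) (z : ι → ℝ) (x : X) : ∀ L : List (Tm ι),
    evL S a s I (L.map fun t' => Tm.tm t t' snd') z x = t.c I * evL S a s I L z x
  | [] => by simp
  | t' :: L => by
    rw [List.map_cons, evL_cons, evL_cons, evL_tm_snd t z x L]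
    simp only [Tm.tm_c, Tm.tm_M, snd']
    ring

lemma evL_tm_mul (t : Tm ι) (z : ι → ℝ) (x : X) : ∀ L : List (Tm ι),
    evL S a s I (L.map fun t' => Tm.tm t t' Mo.mul) z x =
      t.c I * ev S a s I t.M z x * evL S a s I L z x
  | [] => by simp
  | t' :: L => by
    rw [List.map_cons, evL_cons, evL_cons, evL_tm_mul t z x L]
    simp only [Tm.tm_c, Tm.tm_M, ev]
    ring

lemma evL_bd_snd (F : Mo → List (Tm ι)) (z : ι → ℝ) (x : X) : ∀ L : List (Tm ι),
    evL S a s I (bd L F snd') z x = (L.map fun t => t.c I * evL S a s I (F t.M) z x).sum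
  | [] => rfl
  | t :: L => by
    rw [bd_cons, evL_append, evL_tm_snd, evL_bd_snd F z x L, List.map_cons, List.sum_cons]

lemma evL_bd_mul (U : List (Tm ι)) (z : ι → ℝ) (x : X) : ∀ L : List (Tm ι),
    evL S a s I (bd L (fun _ => U) Mo.mul) z x = evL S a s I L z x * evL S a s I U z x
  | [] => by simp [bd_nil]
  | t :: L => by
    rw [bd_cons, evL_append, evL_tm_mul, evL_bd_mul U z x L, evL_cons]
    ring

lemma tot_tm (t : Tm ι) (f : Mo → Mo → Mo) : ∀ L : List (Tm ι),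
    tot (L.map fun t' => Tm.tm t t' f) = t.r * tot L
  | [] => by simp
  | t' :: L => by
    rw [List.map_cons, tot_cons, tot_cons, tot_tm t f L]
    simp only [Tm.tm_r]
    ring

lemma tot_bd_le {F : Mo → List (Tm ι)} {f : Mo → Mo → Mo} {B : ℝ} : ∀ L : List (Tm ι),
    (∀ t ∈ L, tot (F t.M) ≤ B) → tot (bd L F f) ≤ tot L * B
  | [], _ => by simp [bd_nil]
  | t :: L, h => by
    rw [bd_cons, tot_append, tot_tm, tot_cons, add_mul]
    exact add_le_add (mul_le_mul_of_nonneg_left (h t List.mem_cons_self) t.hr)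
      (tot_bd_le L fun t' ht' => h t' (List.mem_cons_of_mem _ ht'))

/-- the derivative of half the log-density -/
noncomputable def uL (S : Sy ι X) (l v : ℕ) : List (Tm ι) :=
  Tm.cst (S.m l / 2) (Mo.T l (Mo.D v)) :: (Finset.Ico 0 l).toList.map fun i =>
    Tm.cut S.lev v i (Tm.cst (-(S.p i / 2)) (Mo.T i (Mo.D v)))

lemma evL_uL (l v : ℕ) (z : ι → ℝ) (x : X) :
    evL S a s I (uL S l v) z x = 1 / 2 * VLD S (fun e _ x => a x e) l (I v) z := by
  unfold uL VLD
  rw [evL_cons]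
  have e1 : evL S a s I ((Finset.Ico 0 l).toList.map fun i =>
      Tm.cut S.lev v i (Tm.cst (-(S.p i / 2)) (Mo.T i (Mo.D v)) : Tm ι)) z x =
      ∑ i ∈ Finset.Ico 0 l, (if S.lev (I v) ≤ i then -(S.p i / 2) else 0) *
        S.T i (fun _ x => a x (I v)) z := by
    unfold evL
    rw [List.map_map]
    exact Finset.sum_map_toList _ _
  have e2 : ev S a s I (Mo.T l (Mo.D v)) z x = S.T l (fun _ x => a x (I v)) z := rfl
  rw [e1, Tm.cst_c, Tm.cst_M, e2, mul_sub, Finset.mul_sum, sub_eq_add_neg,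
    ← Finset.sum_neg_distrib]
  congr 1
  · ring
  · refine Finset.sum_congr rfl fun i _ => ?_
    split_ifs <;> ring

lemma tot_uL (h : Mm S) {l : ℕ} (hl : l ≤ S.K) (v : ℕ) : tot (uL S l v) ≤ S.m S.K := by
  unfold uL
  have e1 : tot ((Finset.Ico 0 l).toList.map fun i =>
      Tm.cut S.lev v i (Tm.cst (-(S.p i / 2)) (Mo.T i (Mo.D v)) : Tm ι)) =
      ∑ i ∈ Finset.Ico 0 l, |-(S.p i / 2)| := by
    unfold tot
    rw [List.map_map]
    exact Finset.sum_map_toList _ _
  have e2 : ∑ i ∈ Finset.Ico 0 l, |-(S.p i / 2)| = (S.m l - S.m 0) / 2 := by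
    rw [← Finset.sum_Ico_sub S.m (Nat.zero_le l), Finset.sum_div]
    refine Finset.sum_congr rfl fun i hi => ?_
    have := h.mono i (by have := (Finset.mem_Ico.1 hi).2; omega)
    rw [abs_neg, abs_of_nonneg]
    · rfl
    · have : 0 ≤ S.p i := sub_nonneg.2 this
      positivity
  rw [tot_cons, e1, e2, Tm.cst_r, abs_of_nonneg (by have := h.nn (j := l) (by omega); positivity)]
  have h1 := h.le hl (by omega)
  have h2 := h.m0
  linarith

lemma mem_uL {l v : ℕ} {t : Tm ι} (ht : t ∈ uL S l v) : ∃ i ≤ l, t.M = Mo.T i (Mo.D v) ∧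
    ∀ I I' : ℕ → ι, I v = I' v → t.c I = t.c I' := by
  unfold uL at ht
  simp only [List.mem_cons, List.mem_map, Finset.mem_toList, Finset.mem_Ico] at ht
  rcases ht with rfl | ⟨i, hi, rfl⟩
  · exact ⟨l, le_rfl, rfl, fun _ _ _ => rfl⟩
  · exact ⟨i, hi.2.le, rfl, fun I I' hI => by rw [Tm.cut_c, Tm.cut_c, hI]; rfl⟩

/-- good lists with the labels `0, …, k - 1` -/
structure Gd (S : Sy ι X) (l k : ℕ) (L : List (Tm ι)) : Prop where
  tk : ∀ t ∈ L, tk S.K t.M
  out : ∀ t ∈ L, Out l t.M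
  lin : ∀ t ∈ L, Lin t.M
  lab : ∀ t ∈ L, lab t.M = Finset.range k
  nt : ∀ t ∈ L, nt t.M ≤ k + 1
  dp : ∀ t ∈ L, ∀ I I' : ℕ → ι, (∀ v < k, I v = I' v) → t.c I = t.c I'

lemma Gd.nil (S : Sy ι X) (l k : ℕ) : Gd S l k ([] : List (Tm ι)) where
  tk := fun t ht => by simp at ht
  out := fun t ht => by simp at ht
  lin := fun t ht => by simp at ht
  lab := fun t ht => by simp at ht
  nt := fun t ht => by simp at ht
  dp := fun t ht => by simp at ht

lemma Gd.append {l k : ℕ} {L L' : List (Tm ι)} (h : Gd S l k L) (h' : Gd S l k L') :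
    Gd S l k (L ++ L') where
  tk := fun t ht => (List.mem_append.1 ht).elim (h.tk t) (h'.tk t)
  out := fun t ht => (List.mem_append.1 ht).elim (h.out t) (h'.out t)
  lin := fun t ht => (List.mem_append.1 ht).elim (h.lin t) (h'.lin t)
  lab := fun t ht => (List.mem_append.1 ht).elim (h.lab t) (h'.lab t)
  nt := fun t ht => (List.mem_append.1 ht).elim (h.nt t) (h'.nt t)
  dp := fun t ht => (List.mem_append.1 ht).elim (h.dp t) (h'.dp t)

lemma Gd.not_mem {l k : ℕ} {L : List (Tm ι)} (h : Gd S l k L) {t : Tm ι} (ht : t ∈ L) :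
    k ∉ H508.lab t.M := by rw [h.lab t ht]; simp

lemma Gd.bd {l k : ℕ} {L : List (Tm ι)} (h : Gd S l k L) {F : Mo → List (Tm ι)}
    (hF : ∀ t ∈ L, ∀ t' ∈ F t.M, Dt k t.M t' ∧ H508.tk S.K t'.M) :
    Gd S l (k + 1) (H508.bd L F snd') where
  tk := fun u hu => by
    obtain ⟨t, ht, t', ht', rfl⟩ := mem_bd.1 hu
    exact (hF t ht t' ht').2
  out := fun u hu => by
    obtain ⟨t, ht, t', ht', rfl⟩ := mem_bd.1 hu
    exact (hF t ht t' ht').1.out l (h.out t ht)
  lin := fun u hu => by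
    obtain ⟨t, ht, t', ht', rfl⟩ := mem_bd.1 hu
    exact (hF t ht t' ht').1.lin
  lab := fun u hu => by
    obtain ⟨t, ht, t', ht', rfl⟩ := mem_bd.1 hu
    have h1 := (hF t ht t' ht').1.lab
    rw [h.lab t ht, ← Finset.range_add_one] at h1
    exact h1
  nt := fun u hu => by
    obtain ⟨t, ht, t', ht', rfl⟩ := mem_bd.1 hu
    exact (hF t ht t' ht').1.nt.trans (Nat.succ_le_succ (h.nt t ht))
  dp := fun u hu I I' hI => by
    obtain ⟨t, ht, t', ht', rfl⟩ := mem_bd.1 hu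
    rw [Tm.tm_c, Tm.tm_c, h.dp t ht I I' fun v hv => hI v (by omega),
      (hF t ht t' ht').1.dp I I' (hI k (by omega))]

lemma Gd.mmL {l k : ℕ} {L : List (Tm ι)} (h : Gd S l k L) :
    Gd S l (k + 1) (H508.bd L (mm S k) snd') :=
  h.bd fun t ht t' ht' => ⟨dt_mm k t.M (h.not_mem ht) (h.lin t ht) t' ht',
    tkL_mm k t.M (h.tk t ht) t' ht'⟩

lemma Gd.rrL {l k : ℕ} {L : List (Tm ι)} (h : Gd S l k L) :
    Gd S l (k + 1) (H508.bd L (rr S k) snd') :=
  h.bd fun t ht t' ht' => ⟨dt_rr k t.M (h.not_mem ht) (h.lin t ht) t' ht',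
    tkL_rr k t.M (h.tk t ht) t' ht'⟩

lemma Gd.pL {l k : ℕ} {L : List (Tm ι)} (h : Gd S l k L) (hl : l ≤ S.K) :
    Gd S l (k + 1) (H508.bd L (fun _ => uL S l k) Mo.mul) where
  tk := fun u hu => by
    obtain ⟨t, ht, t', ht', rfl⟩ := mem_bd.1 hu
    obtain ⟨i, hi, h1, h2⟩ := mem_uL ht'
    rw [Tm.tm_M, h1]
    exact ⟨h.tk t ht, hi.trans hl, trivial⟩
  out := fun u hu => by
    obtain ⟨t, ht, t', ht', rfl⟩ := mem_bd.1 hu
    obtain ⟨i, hi, h1, h2⟩ := mem_uL ht'
    rw [Tm.tm_M, h1]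
    exact ⟨h.out t ht, hi⟩
  lin := fun u hu => by
    obtain ⟨t, ht, t', ht', rfl⟩ := mem_bd.1 hu
    obtain ⟨i, hi, h1, h2⟩ := mem_uL ht'
    rw [Tm.tm_M, h1]
    exact ⟨Finset.disjoint_singleton_right.2 (h.not_mem ht), h.lin t ht, trivial⟩
  lab := fun u hu => by
    obtain ⟨t, ht, t', ht', rfl⟩ := mem_bd.1 hu
    obtain ⟨i, hi, h1, h2⟩ := mem_uL ht'
    rw [Tm.tm_M, h1]
    show H508.lab t.M ∪ {k} = _
    rw [h.lab t ht, Finset.union_comm, Finset.range_add_one]
    rfl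
  nt := fun u hu => by
    obtain ⟨t, ht, t', ht', rfl⟩ := mem_bd.1 hu
    obtain ⟨i, hi, h1, h2⟩ := mem_uL ht'
    rw [Tm.tm_M, h1]
    show H508.nt t.M + (0 + 1) ≤ _
    have := h.nt t ht
    omega
  dp := fun u hu I I' hI => by
    obtain ⟨t, ht, t', ht', rfl⟩ := mem_bd.1 hu
    obtain ⟨i, hi, h1, h2⟩ := mem_uL ht'
    rw [Tm.tm_c, Tm.tm_c, h.dp t ht I I' fun v hv => hI v (by omega), h2 I I' (hI k (by omega))]

lemma Gd.congr {l k : ℕ} : ∀ {L : List (Tm ι)}, Gd S l k L → ∀ {I I' : ℕ → ι},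
    (∀ v < k, I v = I' v) → ∀ z x, evL S a s I L z x = evL S a s I' L z x := by
  intro L h I I' hI z x
  unfold evL
  congr 1
  refine List.map_congr_left fun t ht => ?_
  rw [h.dp t ht I I' hI, ev_congr t.M fun v hv => hI v (by
    rw [h.lab t ht] at hv; exact Finset.mem_range.1 hv)]

lemma Gd.fst {l k : ℕ} {L : List (Tm ι)} (h : Gd S l k L) (z : ι → ℝ) (x y : X) :
    evL S a s I L z x = evL S a s I L z y := by
  unfold evL
  congr 1
  exact List.map_congr_left fun t ht => by rw [(h.out t ht).fst z x y]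

lemma evL_dep {l : ℕ} : ∀ L : List (Tm ι), (∀ t ∈ L, Out l t.M) → ∀ x,
    Dep S.lev l (fun z => evL S a s I L z x)
  | [], _, x => fun z w => by simp
  | t :: L, h, x => fun z w => by
    have h1 := evL_dep L (fun t' ht' => h t' (List.mem_cons_of_mem _ ht')) x z w
    have h2 := (h t List.mem_cons_self).dep (S := S) (a := a) (s := s) (I := I) x z w
    simp only [evL_cons] at h1 ⊢
    rw [h1]
    congr 2

lemma Gd.dep {l k : ℕ} {L : List (Tm ι)} (h : Gd S l k L) (x : X) :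
    Dep S.lev l (fun z => evL S a s I L z x) := evL_dep L h.out x

lemma Gd.eg {l k : ℕ} {L : List (Tm ι)} (hS : S.Reg) (h : Gd S l k L) (x : X) :
    EG (fun z => evL S a s I L z x) := nh_evL hS a s I L h.tk x

/-! ### The derivative of a list -/

lemma pd_evL (h : LinS S a c) (s : X → ℝ) (I : ℕ → ι) (v : ℕ) (x : X) : ∀ L : List (Tm ι),
    (∀ t ∈ L, tk S.K t.M) → PD (I v) (fun z => evL S a s I L z x)
      (fun z => evL S a s I (bd L (mm S v) snd') z x + evL S a s I (bd L (rr S v) snd') z x)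
  | [], _ => by
    simpa [bd_nil] using PD.const (e := I v) (0 : ℝ)
  | t :: L, hk => by
    have h1 := (pd_ev h s I v t.M (hk t List.mem_cons_self) x).const_mul (t.c I)
    have h2 := pd_evL h s I v x L fun t' ht' => hk t' (List.mem_cons_of_mem _ ht')
    have h3 := h1.add h2
    have e0 : (fun z => evL S a s I (t :: L) z x) =
        fun z => t.c I * ev S a s I t.M z x + evL S a s I L z x := by
      funext z; exact evL_cons t L z x
    rw [e0]
    refine h3.congr fun z => ?_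
    simp only [bd_cons, evL_append, evL_tm_snd]
    ring

/-- the derivative of `e^{V/2}` times a list -/
lemma pd_exp (h : LinS S a c) (s : X → ℝ) (I : ℕ → ι) {l : ℕ} (hl : l ≤ S.K) (v : ℕ)
    (hv : S.lev (I v) ≤ l) (x : X) (L : List (Tm ι)) (hk : ∀ t ∈ L, tk S.K t.M) :
    PD (I v) (fun z => Real.exp (VL S l z / 2) * evL S a s I L z x)
      (fun z => Real.exp (VL S l z / 2) * (evL S a s I (bd L (mm S v) snd') z x +
        (evL S a s I (bd L (rr S v) snd') z x +
          evL S a s I (bd L (fun _ => uL S l v) Mo.mul) z x))) := by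
  have h1 := pd_evL h s I v x L hk
  have h2 : PD (I v) (fun z => Real.exp (VL S l z / 2))
      (fun z => Real.exp (VL S l z / 2) * (1 / 2 * VLD S (fun e _ x => a x e) l (I v) z)) := by
    intro y t
    have h3 := ((VL_pd (regD h) hl hv y t).const_mul (1 / 2 : ℝ)).exp
    convert h3 using 1
    · funext s
      ring_nf
    · ring_nf
  refine (h2.mul h1).congr fun z => ?_
  rw [evL_bd_mul, evL_uL]
  ring

end Vale.Agent.P146.H508
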