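import Vale.Agent.P146.H877x.Vvb
import Vale.Agent.P146.H379.RowH

/-!
# P146: the field part of the row (helper508)

`FdA l = 1/n ∑_i ∑_q w_q² ∫ (PA_i (e^(VL/2) (T_l Mm_i - D_i Q_i)))²` is `∑_(q ≤ l) w_q² χ_l²` up
to small errors.  `F1 l i = e^(VL/2) T_l Mm_i`; the exchange of two sites maps `F1 i` to `F1 j`, the
influence of another row on `F1 i` is `O(Θ_l)`, and the variance of `T_l X_l` is at most
`1/(n w_(l+1)²)`.
-/

open MeasureTheory ProbabilityTheory

namespace Vale.Agent.P146.H508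

open Vale.Agent.P157 Vale.Agent.P157.Lv Vale.Agent.P157.Lv.Sy
open Vale.Agent.P146.H425 Vale.Agent.P146.H946 Vale.Agent.P146.H985
open Vale.Agent.P146.H93 Vale.Agent.P146.H325 Vale.Agent.P146.H379.Row
open Vale.Agent.P146.H877x

set_option linter.unusedSectionVars false

section spin

variable {ι : Type} [Fintype ι] [DecidableEq ι] {n : ℕ} {S : Sy ι (Fin n → ℤˣ)}

/-- the constant slot -/
abbrev one1 (n : ℕ) : (Fin n → ℤˣ) → ℝ := fun _ => 1

lemma abs_one1 (x : Fin n → ℤˣ) : |one1 n x| ≤ 1 := by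
  unfold one1; rw [abs_one]

/-- `e^(VL/2) T_l Mm_i` -/
noncomputable def F1 (S : Sy ι (Fin n → ℤˣ)) (l : ℕ) (i : Fin n) (z : ι → ℝ) : ℝ :=
  Real.exp (VL S l z / 2) * Vf S l i (one1 n) z

lemma eg_F1 (hS : S.Reg) {l : ℕ} (hl : l ≤ S.K) (i : Fin n) : EG (F1 S l i) :=
  (eg_expV hS hl).mul (eg_Vf hS hl i _)

lemma dep_F1 (hS : S.Reg) {l : ℕ} (hl : l ≤ S.K) (i : Fin n) : Dep S.lev l (F1 S l i) :=
  lc_dep_mul (dep_expV hS hl) (dep_Vf S l i _)

lemma int_F1_mul (hS : S.Reg) {l : ℕ} (hl : l ≤ S.K) (i j : Fin n) :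
    ∫ z, F1 S l i z * F1 S l j z ∂(gI ι) =
      S.Ex (fun z _ => Vf S l i (one1 n) z * Vf S l j (one1 n) z) :=
  int_expV hS hl (eg_Vf hS hl i _) (eg_Vf hS hl j _) (dep_Vf S l i _) (dep_Vf S l j _)

lemma int_F1_sq (hS : S.Reg) {l : ℕ} (hl : l ≤ S.K) (i : Fin n) :
    ∫ z, F1 S l i z ^ 2 ∂(gI ι) = S.Ex (fun z _ => Vf S l i (one1 n) z ^ 2) :=
  int_expV_sq hS hl (eg_Vf hS hl i _) (dep_Vf S l i _)

lemma abs_Vf1_le (hS : S.Reg) {l : ℕ} (hl : l ≤ S.K) (i : Fin n) (z : ι → ℝ) :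
    |Vf S l i (one1 n) z| ≤ 2 := abs_Vf_le hS hl i abs_one1 z

lemma int_F1_sq_le (hS : S.Reg) {l : ℕ} (hl : l ≤ S.K) (i : Fin n) :
    ∫ z, F1 S l i z ^ 2 ∂(gI ι) ≤ 4 := by
  rw [int_F1_sq hS hl]
  refine Ex_le_const hS (Nh.pow (Nh.fst (eg_Vf hS hl i _)) 2) fun z x => ?_
  have := sq_le_of_abs (abs_Vf1_le hS hl i z)
  linarith

lemma abs_int_F1_mul_le (hS : S.Reg) {l : ℕ} (hl : l ≤ S.K) (i j : Fin n) :
    |∫ z, F1 S l i z * F1 S l j z ∂(gI ι)| ≤ 4 := by
  rw [int_F1_mul hS hl]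
  refine abs_Ex_le_const hS (Nh.mul (Nh.fst (eg_Vf hS hl i _)) (Nh.fst (eg_Vf hS hl j _)))
    fun z x => ?_
  rw [abs_mul]
  calc _ ≤ (2 : ℝ) * 2 := mul_le_mul (abs_Vf1_le hS hl i z) (abs_Vf1_le hS hl j z)
        (abs_nonneg _) zero_le_two
    _ = 4 := by norm_num

/-- `T_l X_l` -/
noncomputable def TX (S : Sy ι (Fin n → ℤˣ)) (l : ℕ) : (ι → ℝ) → ℝ := S.T l (Xl S l)

lemma eg_TX (hS : S.Reg) {l : ℕ} (hl : l ≤ S.K) : EG (TX S l) := hS.eg_T hl (nh_Xl hS l)

lemma sum_Vf1 (hS : S.Reg) (hn : 0 < n) {l : ℕ} (hl : l ≤ S.K) (z : ι → ℝ) :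
    ∑ i, Vf S l i (one1 n) z = n * TX S l z := by
  unfold Vf TX
  rw [← hS.T_sum hl Finset.univ fun i _ => nh_fM hS l i _, ← T_const_mul]
  congr 1
  funext z x
  rw [← Finset.mul_sum, sum_Mm hn]
  unfold one1
  ring

/-- the sum of the products -/
lemma sum_FF1 (hS : S.Reg) (hn : 0 < n) {l : ℕ} (hl : l ≤ S.K) :
    ∑ i, ∑ j, ∫ z, F1 S l i z * F1 S l j z ∂(gI ι) =
      n ^ 2 * S.Ex (fun z _ => TX S l z ^ 2) := by
  have hN : ∀ i j, Nh (X := Fin n → ℤˣ) fun z _ => Vf S l i (one1 n) z * Vf S l j (one1 n) z :=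
    fun i j => Nh.mul (Nh.fst (eg_Vf hS hl i _)) (Nh.fst (eg_Vf hS hl j _))
  simp only [int_F1_mul hS hl]
  have h2 : ∀ i, ∑ j, S.Ex (fun z _ => Vf S l i (one1 n) z * Vf S l j (one1 n) z) =
      S.Ex (fun z _ => ∑ j, Vf S l i (one1 n) z * Vf S l j (one1 n) z) := fun i =>
    (hS.Ex_sum Finset.univ (f := fun j z _ => Vf S l i (one1 n) z * Vf S l j (one1 n) z)
      fun j _ => hN i j).symm
  simp only [h2]
  rw [← hS.Ex_sum Finset.univ (f := fun i z _ => ∑ j,
      Vf S l i (one1 n) z * Vf S l j (one1 n) z) fun i _ => Nh.sum Finset.univ fun j _ => hN i j,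
    ← Ex_const_mul]
  congr 1
  funext z _
  simp only [← Finset.mul_sum]
  rw [← Finset.sum_mul, sum_Vf1 hS hn hl]
  ring

end spin

/-! ### The exchange of two sites -/

section sk

variable {n K l : ℕ} {m b w : ℕ → ℝ}

lemma Vf1_swap (hm : Em K m) (b w : ℕ → ℝ) (l : ℕ) (i j : Fin n) (z : Cd n K → ℝ) :
    Vf (skS n K m b w) l i (one1 n) (gz (pC K (Equiv.swap i j)) (fun _ => 1) z) =
      Vf (skS n K m b w) l j (one1 n) z := by
  have h := sys_perm (n := n) hm b w (Equiv.swap i j)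
  unfold Vf
  rw [h.T]
  congr 1
  funext z x
  unfold Mm one1
  simp only [dd_swap hm, sp_pX_symm, Equiv.symm_swap, Equiv.swap_apply_left]

lemma F1_swap (hm : Em K m) (b w : ℕ → ℝ) (l : ℕ) (i j : Fin n) (z : Cd n K → ℝ) :
    F1 (skS n K m b w) l i (gz (pC K (Equiv.swap i j)) (fun _ => 1) z) =
      F1 (skS n K m b w) l j z := by
  have h := sys_perm (n := n) hm b w (Equiv.swap i j)
  unfold F1
  rw [h.VL, Vf1_swap hm b w l i j]

/-- **Both functions have the same average over the two rows.** -/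
theorem PA_F1 (hm : Em K m) (b w : ℕ → ℝ) {l : ℕ} (hl : l ≤ K) {i j : Fin n} (hij : i ≠ j)
    (z : Cd n K → ℝ) :
    PA (rwl K i l ∪ rwl K j l) (F1 (skS n K m b w) l i) z =
      PA (rwl K i l ∪ rwl K j l) (F1 (skS n K m b w) l j) z := by
  have hS : (skS n K m b w).Reg := (linS_sk hm b w).reg
  have e1 : EG (F1 (skS n K m b w) l i) := eg_F1 hS hl i
  have e2 : EG (F1 (skS n K m b w) l j) := eg_F1 hS hl j
  have d1 := dep_F1 hS (l := l) hl i
  have d2 := dep_F1 hS (l := l) hl j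
  set F : (Cd n K → ℝ) → ℝ := fun z => F1 (skS n K m b w) l i z - F1 (skS n K m b w) l j z
    with hF
  have eF : EG F := e1.sub e2
  have hd : Dep (skS n K m b w).lev l F := fun z w' => by
    simp only [hF, d1 z w', d2 z w']
  have ho : ∀ z, F (gz (pC K (Equiv.swap i j)) (fun _ => 1) z) = -F z := fun z => by
    have h1 := F1_swap hm b w l i j z
    have h2 := F1_swap hm b w l j i z
    rw [Equiv.swap_comm j i] at h2
    simp only [hF]
    rw [h1, h2]
    ring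
  have h0 : ∀ z, PA (rw2 K i j l) F z = 0 := fun z =>
    (mv_swap (K := K) m b w hij l).J_zero hd ho z
  have hsub : rw2 K i j l ⊆ rwl K i l ∪ rwl K j l := by
    intro e he
    rw [mem_rw2] at he
    rw [Finset.mem_union, mem_rwl, mem_rwl]
    tauto
  have h3 := PA.comp eF (rwl K i l ∪ rwl K j l) (rw2 K i j l) z
  rw [Finset.union_eq_left.2 hsub] at h3
  have h4 : PA (rwl K i l ∪ rwl K j l) (PA (rw2 K i j l) F) z = 0 := by
    have h5 : PA (rw2 K i j l) F = fun _ => 0 := funext h0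
    rw [h5]
    exact J_const 0 z
  rw [h4] at h3
  have h6 := PA.sub (A := rwl K i l ∪ rwl K j l) e1 e2 z
  rw [← h3] at h6
  linarith

/-! ### The influences -/

/-- the influence of the row of `i` on `F1 j` -/
noncomputable def Cf (S : Sy (Cd n K) (Fin n → ℤˣ)) (l : ℕ) (i j : Fin n) : ℝ :=
  ∫ z, (F1 S l j z - PA (rwl K i l) (F1 S l j) z) ^ 2 ∂(gI (Cd n K))

lemma Cf_nonneg (S : Sy (Cd n K) (Fin n → ℤˣ)) (l : ℕ) (i j : Fin n) : 0 ≤ Cf S l i j :=
  integral_nonneg fun _ => sq_nonneg _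

lemma Cf_le {S : Sy (Cd n K) (Fin n → ℤˣ)} (hS : S.Reg) (hl : l ≤ S.K) (i j : Fin n) :
    Cf S l i j ≤ 4 := by
  unfold Cf
  rw [PA.pyth (eg_F1 hS hl j) (rwl K i l)]
  have h1 := int_F1_sq_le hS hl j
  have h2 : 0 ≤ ∫ z, PA (rwl K i l) (F1 S l j) z ^ 2 ∂(gI (Cd n K)) :=
    integral_nonneg fun _ => sq_nonneg _
  linarith

lemma Vf1_perm (hm : Em K m) (b w : ℕ → ℝ) (ρ : Equiv.Perm (Fin n)) (l : ℕ) (j : Fin n)
    (z : Cd n K → ℝ) :
    Vf (skS n K m b w) l (ρ j) (one1 n) (gz (pC K ρ) (fun _ => 1) z) =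
      Vf (skS n K m b w) l j (one1 n) z := by
  refine T_pC hm b w ρ l (fun z x => ?_) z
  unfold Mm
  simp only [sp_pX_symm, Equiv.symm_apply_apply, dd_perm hm]

lemma F1_perm (hm : Em K m) (b w : ℕ → ℝ) (ρ : Equiv.Perm (Fin n)) (l : ℕ) (j : Fin n)
    (z : Cd n K → ℝ) :
    F1 (skS n K m b w) l (ρ j) (gz (pC K ρ) (fun _ => 1) z) = F1 (skS n K m b w) l j z := by
  unfold F1
  rw [(sys_perm hm b w ρ).VL l z, Vf1_perm hm]

lemma Cf_perm (hm : Em K m) (b w : ℕ → ℝ) (l : ℕ) (ρ : Equiv.Perm (Fin n)) (i j : Fin n) :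
    Cf (skS n K m b w) l (ρ i) (ρ j) = Cf (skS n K m b w) l i j := by
  unfold Cf
  refine int_gz_one ρ fun z => ?_
  unfold PA
  rw [J_row_pC, F1_perm hm]
  simp only [F1_perm hm]

/-- the bound of the influences -/
noncomputable def IF (n K : ℕ) (m b w : ℕ → ℝ) (l : ℕ) : ℝ :=
  (n * SB b l) * ((2 * KV ^ 2 + 8 * m l ^ 2) *
      (skS n K m b w).pairEx l (fun x x' => Rs n x x' ^ 2)) +
    SB w l * ((2 * KV ^ 2 + 8 * m l ^ 2) *
      (skS n K m b w).pairEx l (fun x x' => |Rs n x x'|))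

/-- **the influence of all rows on `F1 j`** -/
theorem Cf_sum (hm : Em K m) (b w : ℕ → ℝ) (hl : l ≤ K) (j : Fin n) :
    ∑ i, Cf (skS n K m b w) l i j ≤ n * IF n K m b w l := by
  have hS : (skS n K m b w).Reg := (linS_sk hm b w).reg
  have hSD := regD_sk (n := n) hm b w
  unfold IF
  set S := skS n K m b w with hSd
  have hlK : l ≤ S.K := hl
  have hn0 : (0 : ℝ) ≤ n := Nat.cast_nonneg n
  obtain ⟨V1, V2, hV⟩ := exists_VD hSD hlK j
  set Y : ((Fin n → ℤˣ) → ℝ) → ℝ := fun f =>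
    2 * S.Ex (fun z _ => V1 (one1 n) f z ^ 2) + 2 * S.Ex (fun z _ => YV S l f z) with hYd
  have hY0 : ∀ f, 0 ≤ Y f := fun f => by
    have h1 := Ex_nn hS (Nh.fst (X := Fin n → ℤˣ) ((hV.eg1 (one1 n) f).pow 2))
      fun z _ => sq_nonneg _
    have h2 := Ex_nn hS (Nh.fst (X := Fin n → ℤˣ) (eg_YV hS hlK f))
      fun z _ => YV_nonneg hS hlK f z
    simp only [hYd]
    linarith
  have h1 : ∀ i, Cf S l i j ≤
      SB b l * ∑ a, Y (fun x => H325.sp x i * H325.sp x a) + SB w l * Y (fun x => H325.sp x i) := by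
    intro i
    refine le_trans ?_ (row_sum_le hY0 b w i hl)
    have hAl : ∀ e ∈ rwl K i l, S.lev e ≤ l := fun e he => (mem_rwl.1 he).1
    refine (infl hSD hlK hAl (eg_Vf hS hlK j (one1 n)) (dep_Vf S l j _)
      (f' := fun e z => am b w e.1 (e.2 + 1) * V1 (one1 n) (st e.1) z)
      (fun e he => hV.pd0 e (hAl e he) _ (st e.1) (fun z x => rfl) _)
      (fun e he => (hV.eg1 _ _).const_mul _)).trans (Finset.sum_le_sum fun e he => ?_)
    have e1 : S.Ex (fun z _ => (am b w e.1 (e.2 + 1) *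
        V1 (one1 n) (st e.1) z) ^ 2) = am b w e.1 (e.2 + 1) ^ 2 *
        S.Ex (fun z _ => V1 (one1 n) (st e.1) z ^ 2) := by
      rw [← Ex_const_mul]
      congr 1
      funext z _
      rw [mul_pow]
    have e2 : S.Ex (fun z _ => VLD S (fun e _ x => aSK n K b w x e) l e z ^ 2 *
        Vf S l j (one1 n) z ^ 2) ≤ 4 * (am b w e.1 (e.2 + 1) ^ 2 *
        S.Ex (fun z _ => YV S l (st e.1) z)) := by
      rw [← Ex_const_mul, ← Ex_const_mul]
      refine hS.Ex_mono (Nh.fst (((VLD_eg hSD hlK e).pow 2).mul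
        ((eg_Vf hS hlK j (one1 n)).pow 2)))
        (Nh.const_mul _ (Nh.const_mul _ (Nh.fst (eg_YV hS hlK (st e.1))))) fun z _ => ?_
      have h2 := VLD_sq_le (n := n) hm b w hl e z
      have h3 := abs_Vf1_le hS hlK j z
      have h4 : Vf S l j (one1 n) z ^ 2 ≤ 4 := by
        have := sq_le_of_abs h3
        linarith
      calc _ ≤ (am b w e.1 (e.2 + 1) ^ 2 * YV S l (st e.1) z) * 4 :=
            mul_le_mul h2 h4 (sq_nonneg _)
              (mul_nonneg (sq_nonneg _) (YV_nonneg hS hlK _ z))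
        _ = _ := by ring
    rw [e1]
    simp only [hYd]
    linarith
  refine (Finset.sum_le_sum fun i _ => h1 i).trans ?_
  rw [Finset.sum_add_distrib, ← Finset.mul_sum, ← Finset.mul_sum]
  set P2 := S.pairEx l (fun x x' => Rs n x x' ^ 2) with hP2
  set Pa := S.pairEx l (fun x x' => |Rs n x x'|) with hPa
  have hP1 : S.pairEx l (Rs n) ≤ Pa := hS.pairEx_mono hlK fun x x' => le_abs_self _
  -- bonds
  have hA : ∑ i, ∑ a, Y (fun x => H325.sp x i * H325.sp x a) ≤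
      (n : ℝ) ^ 2 * ((2 * KV ^ 2 + 8 * m l ^ 2) * P2) := by
    have hN : ∀ i a, Nh (X := Fin n → ℤˣ) fun z _ =>
        V1 (one1 n) (fun x => H325.sp x i * H325.sp x a) z ^ 2 := fun i a =>
      Nh.fst ((hV.eg1 _ _).pow 2)
    have h2 : ∑ i, ∑ a, S.Ex (fun z _ => V1 (one1 n) (fun x => H325.sp x i * H325.sp x a) z ^ 2) ≤
        KV ^ 2 * ((n : ℝ) ^ 2 * P2) := by
      have e4 : ∑ i, ∑ a, S.Ex (fun z _ => V1 (one1 n) (fun x => H325.sp x i * H325.sp x a) z ^ 2) =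
          S.Ex (fun z _ => ∑ i, ∑ a, V1 (one1 n) (fun x => H325.sp x i * H325.sp x a) z ^ 2) := by
        rw [hS.Ex_sum _ fun i _ => Nh.sum _ fun a _ => hN i a]
        refine Finset.sum_congr rfl fun i _ => ?_
        rw [hS.Ex_sum _ fun a _ => hN i a]
      rw [e4, hP2, ← Ex_pp, ← Ex_const_mul, ← Ex_const_mul]
      refine hS.Ex_mono (Nh.sum _ fun i _ => Nh.sum _ fun a _ => hN i a)
        (Nh.fst (((eg_pp hS hlK _).const_mul _).const_mul _)) fun z _ => ?_
      have h4 := hV.b1 (J := Unit) (J' := Fin n × Fin n) (fun _ => one1 n)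
        (fun p x => H325.sp x p.1 * H325.sp x p.2) z (fun _ _ => 0)
        (fun x x' => (n : ℝ) ^ 2 * Rs n x x' ^ 2)
        (fun x x' => le_rfl) (fun x x' => by positivity) (fun x x' y y' => by
          have e5 : ∑ p : Fin n × Fin n, H325.sp y p.1 * H325.sp y p.2 * (H325.sp y' p.1 * H325.sp y' p.2) =
              (n * Rs n y y') ^ 2 := by
            rw [← sum_sp, sq, Finset.sum_mul_sum, Fintype.sum_prod_type]
            refine Finset.sum_congr rfl fun i _ => Finset.sum_congr rfl fun k _ => ?_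
            ring
          rw [e5, abs_of_nonneg (sq_nonneg ((n : ℝ) * Rs n y y'))]
          simp only [one1, Finset.univ_unique, Finset.sum_singleton, mul_one, abs_one, one_mul,
            zero_add]
          rw [mul_pow])
      rw [Fintype.sum_prod_type] at h4
      simp only [Finset.univ_unique, Finset.sum_singleton] at h4
      have e6 : pp S l z (fun _ _ => (0 : ℝ)) = 0 := pp_const hS hlK z 0
      rw [e6, zero_add, pp_const_mul] at h4
      exact h4
    have h3 : ∑ i : Fin n, ∑ a : Fin n, S.Ex (fun z _ =>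
        YV S l (fun x => H325.sp x i * H325.sp x a) z) ≤ 4 * m l ^ 2 * ((n : ℝ) ^ 2 * P2) := by
      rw [hP2, ← sum_Ex_T2 hS hlK, Finset.mul_sum]
      refine Finset.sum_le_sum fun i _ => ?_
      rw [Finset.mul_sum]
      exact Finset.sum_le_sum fun a _ => Ex_YV_le hS hlK fun x => H325.sp x i * H325.sp x a
    have e6 : ∑ i, ∑ a, Y (fun x => H325.sp x i * H325.sp x a) =
        2 * (∑ i, ∑ a, S.Ex (fun z _ => V1 (one1 n) (fun x => H325.sp x i * H325.sp x a) z ^ 2)) +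
        2 * ∑ i : Fin n, ∑ a : Fin n, S.Ex (fun z _ => YV S l (fun x => H325.sp x i * H325.sp x a) z) := by
      simp only [hYd, Finset.sum_add_distrib, Finset.mul_sum]
    rw [e6]
    linarith
  -- fields
  have hB : ∑ i, Y (fun x => H325.sp x i) ≤ n * ((2 * KV ^ 2 + 8 * m l ^ 2) * Pa) := by
    have hN : ∀ i, Nh (X := Fin n → ℤˣ) fun z _ => V1 (one1 n) (fun x => H325.sp x i) z ^ 2 :=
      fun i => Nh.fst ((hV.eg1 _ _).pow 2)
    have h2 : ∑ i, S.Ex (fun z _ => V1 (one1 n) (fun x => H325.sp x i) z ^ 2) ≤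
        KV ^ 2 * (n * Pa) := by
      rw [← hS.Ex_sum _ fun i _ => hN i, hPa, ← Ex_pp, ← Ex_const_mul, ← Ex_const_mul]
      refine hS.Ex_mono (Nh.sum _ fun i _ => hN i)
        (Nh.fst (((eg_pp hS hlK _).const_mul _).const_mul _)) fun z _ => ?_
      have h4 := hV.b1 (J := Unit) (J' := Fin n) (fun _ => one1 n)
        (fun p x => H325.sp x p) z (fun _ _ => 0)
        (fun x x' => (n : ℝ) * |Rs n x x'|)
        (fun x x' => le_rfl) (fun x x' => by positivity) (fun x x' y y' => by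
          rw [sum_sp, abs_mul, Nat.abs_cast]
          simp only [one1, Finset.univ_unique, Finset.sum_singleton, mul_one, abs_one, one_mul,
            zero_add]
          exact le_rfl)
      simp only [Finset.univ_unique, Finset.sum_singleton] at h4
      have e6 : pp S l z (fun _ _ => (0 : ℝ)) = 0 := pp_const hS hlK z 0
      rw [e6, zero_add, pp_const_mul] at h4
      exact h4
    have h3 : ∑ i : Fin n, S.Ex (fun z _ => YV S l (fun x => H325.sp x i) z) ≤
        4 * m l ^ 2 * (n * Pa) := by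
      refine le_trans ?_ (mul_le_mul_of_nonneg_left (mul_le_mul_of_nonneg_left hP1 hn0)
        (by positivity))
      rw [← sum_Ex_T1 hS hlK, Finset.mul_sum]
      exact Finset.sum_le_sum fun i _ => Ex_YV_le hS hlK fun x => H325.sp x i
    have e6 : ∑ i, Y (fun x => H325.sp x i) =
        2 * (∑ i, S.Ex (fun z _ => V1 (one1 n) (fun x => H325.sp x i) z ^ 2)) +
        2 * ∑ i : Fin n, S.Ex (fun z _ => YV S l (fun x => H325.sp x i) z) := by
      simp only [hYd, Finset.sum_add_distrib, Finset.mul_sum]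
    rw [e6]
    linarith
  have h7 := add_le_add (mul_le_mul_of_nonneg_left hA (SB_nonneg b l))
    (mul_le_mul_of_nonneg_left hB (SB_nonneg w l))
  refine h7.trans (le_of_eq ?_)
  ring

lemma IF_nonneg (hm : Em K m) (hl : l ≤ K) : 0 ≤ IF n K m b w l := by
  have hS : (skS n K m b w).Reg := (linS_sk hm b w).reg
  have h1 : 0 ≤ (skS n K m b w).pairEx l (fun x x' => Rs n x x' ^ 2) :=
    hS.pairEx_nonneg hl fun x x' => sq_nonneg _
  have h2 : 0 ≤ (skS n K m b w).pairEx l (fun x x' => |Rs n x x'|) :=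
    hS.pairEx_nonneg hl fun x x' => abs_nonneg _
  have h3 := SB_nonneg b l
  have h4 := SB_nonneg w l
  unfold IF
  positivity

/-- one other row -/
theorem Cf_one (hm : Em K m) (b w : ℕ → ℝ) (hl : l ≤ K) {i j : Fin n} (hij : i ≠ j) :
    Cf (skS n K m b w) l i j ≤ 2 * IF n K m b w l := by
  have h1 : ∑ j, ∑ i, Cf (skS n K m b w) l i j ≤ n * (n * IF n K m b w l) := by
    refine (Finset.sum_le_sum fun j _ => Cf_sum hm b w hl j).trans (le_of_eq ?_)
    rw [Finset.sum_const, Finset.card_univ, Fintype.card_fin, nsmul_eq_mul]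
  have hn2 : 2 ≤ n := by
    have h2 := i.2
    have h3 := j.2
    by_contra h
    exact hij (Fin.ext (by omega))
  have hnR : (2 : ℝ) ≤ n := by exact_mod_cast hn2
  have h2 := exch2_split (Ψ := fun i j => Cf (skS n K m b w) l i j)
    (fun ρ i j => Cf_perm hm b w l ρ i j) hij
  rw [Finset.sum_comm] at h1
  rw [h2] at h1
  have h3 := mul_nonneg (by linarith : (0 : ℝ) ≤ n) (Cf_nonneg (skS n K m b w) l i i)
  have h4 : (n : ℝ) ^ 2 / 2 * Cf (skS n K m b w) l i j ≤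
      (n : ℝ) * ((n : ℝ) - 1) * Cf (skS n K m b w) l i j := by
    refine mul_le_mul_of_nonneg_right ?_ (Cf_nonneg _ l i j)
    nlinarith
  have h7 : (0 : ℝ) < (n : ℝ) ^ 2 / 2 := by positivity
  refine le_of_mul_le_mul_left ?_ h7
  have e : (n : ℝ) ^ 2 / 2 * (2 * IF n K m b w l) = n * (n * IF n K m b w l) := by ring
  rw [e]
  linarith

end sk

end Vale.Agent.P146.H508
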