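import Vale.Agent.P146.H508.Fd

/-!
# P146: the field part of the row, `FdA l = ∑_(q ≤ l) w_q² (χ_l² + o(1))` (helper508)
-/

open MeasureTheory ProbabilityTheory

namespace Vale.Agent.P146.H508

open Vale.Agent.P157 Vale.Agent.P157.Lv Vale.Agent.P157.Lv.Sy
open Vale.Agent.P146.H425 Vale.Agent.P146.H946 Vale.Agent.P146.H985
open Vale.Agent.P146.H93 Vale.Agent.P146.H325 Vale.Agent.P146.H379.Row
open Vale.Agent.P146.H877x

set_option linter.unusedSectionVars false

variable {n K l : ℕ} {m b w : ℕ → ℝ}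

/-- `1/n ∑_i ∫ (PA_i F1_i)²` -/
noncomputable def PF (n K : ℕ) (m b w : ℕ → ℝ) (l : ℕ) : ℝ :=
  1 / n * ∑ i : Fin n, ∫ z, PA (rwl K i l) (F1 (skS n K m b w) l i) z ^ 2 ∂(gI (Cd n K))

lemma int_PA1_nonneg (i : Fin n) :
    0 ≤ ∫ z, PA (rwl K i l) (F1 (skS n K m b w) l i) z ^ 2 ∂(gI (Cd n K)) :=
  integral_nonneg fun _ => sq_nonneg _

lemma int_PA1_le (hm : Em K m) (hl : l ≤ K) (i : Fin n) :
    ∫ z, PA (rwl K i l) (F1 (skS n K m b w) l i) z ^ 2 ∂(gI (Cd n K)) ≤ 4 := by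
  have hS : (skS n K m b w).Reg := (linS_sk hm b w).reg
  exact (PA.sq_le (eg_F1 hS hl i) (rwl K i l)).trans (int_F1_sq_le hS hl i)

/-- one pair of sites -/
lemma pair1 (hm : Em K m) (hl : l ≤ K) {t : ℝ} (ht : 0 < t) (i j : Fin n) :
    |∫ z, F1 (skS n K m b w) l i z * F1 (skS n K m b w) l j z ∂(gI (Cd n K)) -
      ∫ z, PA (rwl K i l) (F1 (skS n K m b w) l i) z ^ 2 ∂(gI (Cd n K))| ≤
      ((2 + 1 / t) * (2 * IF n K m b w l) + 4 * t) + (if i = j then 8 else 0) := by
  have hS : (skS n K m b w).Reg := (linS_sk hm b w).reg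
  have hI := IF_nonneg (n := n) (b := b) (w := w) hm hl
  by_cases hij : i = j
  · rw [if_pos hij]
    have h1 := abs_int_F1_mul_le hS (l := l) hl i j
    have h2 := int_PA1_le (n := n) (b := b) (w := w) hm hl i
    have h3 := int_PA1_nonneg (K := K) (m := m) (b := b) (w := w) (l := l) i
    have h4 : 0 ≤ (2 + 1 / t) * (2 * IF n K m b w l) + 4 * t := by positivity
    rw [abs_le] at h1 ⊢
    constructor <;> linarith
  · rw [if_neg hij, add_zero]
    have h1 := swap_main (A := rwl K i l) (B := rwl K j l) (eg_F1 hS (l := l) hl i)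
      (eg_F1 hS (l := l) hl j) (PA_F1 hm b w hl hij) ht
    have c1 : ∫ z, (F1 (skS n K m b w) l i z - PA (rwl K j l) (F1 (skS n K m b w) l i) z) ^ 2
        ∂(gI (Cd n K)) ≤ 2 * IF n K m b w l := Cf_one hm b w hl (Ne.symm hij)
    have c2 : ∫ z, (F1 (skS n K m b w) l j z - PA (rwl K i l) (F1 (skS n K m b w) l j) z) ^ 2
        ∂(gI (Cd n K)) ≤ 2 * IF n K m b w l := Cf_one hm b w hl hij
    have c3 : ∫ z, (F1 (skS n K m b w) l i z - PA (rwl K i l) (F1 (skS n K m b w) l i) z) ^ 2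
        ∂(gI (Cd n K)) ≤ 4 := Cf_le hS (l := l) hl i i
    have c4 : ∫ z, (F1 (skS n K m b w) l j z - PA (rwl K j l) (F1 (skS n K m b w) l j) z) ^ 2
        ∂(gI (Cd n K)) ≤ 4 := Cf_le hS (l := l) hl j j
    have q1 := mul_le_mul_of_nonneg_left c1 (show 0 ≤ 3 / 2 + 1 / (2 * t) by positivity)
    have q2 := mul_le_mul_of_nonneg_left c2 (show 0 ≤ 1 / 2 + 1 / (2 * t) by positivity)
    have q3 := mul_le_mul_of_nonneg_left c3 (show 0 ≤ t / 2 by positivity)
    have q4 := mul_le_mul_of_nonneg_left c4 (show 0 ≤ t / 2 by positivity)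
    have e : (2 + 1 / t) * (2 * IF n K m b w l) + 4 * t =
        (3 / 2 + 1 / (2 * t)) * (2 * IF n K m b w l) +
        (1 / 2 + 1 / (2 * t)) * (2 * IF n K m b w l) + t / 2 * 4 + t / 2 * 4 := by
      field_simp
      ring
    rw [e]
    linarith

/-- the sites are exchanged -/
theorem PF_near (hm : Em K m) (hn : 0 < n) (hl : l ≤ K) {t : ℝ} (ht : 0 < t) :
    |(skS n K m b w).Ex (fun z _ => TX (skS n K m b w) l z ^ 2) - PF n K m b w l| ≤
      ((2 + 1 / t) * (2 * IF n K m b w l) + 4 * t) + 8 / n := by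
  have hS : (skS n K m b w).Reg := (linS_sk hm b w).reg
  have hn' : (0 : ℝ) < n := by exact_mod_cast hn
  set A : ℝ := (2 + 1 / t) * (2 * IF n K m b w l) + 4 * t with hA
  have h1 : |∑ i : Fin n, ∑ j : Fin n, (∫ z, F1 (skS n K m b w) l i z *
      F1 (skS n K m b w) l j z ∂(gI (Cd n K)) -
      ∫ z, PA (rwl K i l) (F1 (skS n K m b w) l i) z ^ 2 ∂(gI (Cd n K)))| ≤
      n ^ 2 * A + 8 * n := by
    refine (Finset.abs_sum_le_sum_abs _ _).trans ((Finset.sum_le_sum fun i _ =>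
      (Finset.abs_sum_le_sum_abs _ _).trans (Finset.sum_le_sum fun j _ =>
        pair1 hm hl ht i j)).trans (le_of_eq ?_))
    rw [← hA]
    simp only [Finset.sum_add_distrib, Finset.sum_const, Finset.card_univ, Fintype.card_fin,
      nsmul_eq_mul, Finset.sum_ite_eq, Finset.mem_univ, if_true]
    ring
  have e1 : ∑ i : Fin n, ∑ j : Fin n, (∫ z, F1 (skS n K m b w) l i z *
      F1 (skS n K m b w) l j z ∂(gI (Cd n K)) -
      ∫ z, PA (rwl K i l) (F1 (skS n K m b w) l i) z ^ 2 ∂(gI (Cd n K))) =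
      n ^ 2 * ((skS n K m b w).Ex (fun z _ => TX (skS n K m b w) l z ^ 2) - PF n K m b w l) := by
    simp only [Finset.sum_sub_distrib]
    rw [sum_FF1 hS hn hl]
    have e2 : ∑ i : Fin n, ∑ _j : Fin n, ∫ z, PA (rwl K i l) (F1 (skS n K m b w) l i) z ^ 2
        ∂(gI (Cd n K)) = n ^ 2 * PF n K m b w l := by
      unfold PF
      simp only [Finset.sum_const, Finset.card_univ, Fintype.card_fin, nsmul_eq_mul,
        ← Finset.mul_sum]
      field_simp
    rw [e2]
    ring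
  rw [e1, abs_mul, abs_of_pos (by positivity : (0 : ℝ) < (n : ℝ) ^ 2)] at h1
  have h2 : (n : ℝ) ^ 2 * (A + 8 / n) = n ^ 2 * A + 8 * n := by field_simp
  rw [← h2] at h1
  exact le_of_mul_le_mul_left h1 (by positivity)

/-- **The variance of `T_l X_l`.** -/
theorem TX_var (hm : Em K m) (hn : 0 < n) (hl : l < K) (hw1 : 0 < w (l + 1)) :
    (skS n K m b w).Ex (fun z _ => (TX (skS n K m b w) l z - ch n K m b w l) ^ 2) ≤
      1 / (n * w (l + 1) ^ 2) := by
  have hS : (skS n K m b w).Reg := (linS_sk hm b w).reg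
  have hK : 0 < K := by omega
  set P : ℕ → Prop := fun p => p = l + 1 with hP
  have hP1 : ∀ p, P p → 1 ≤ p := fun p h => by rw [hP] at h; omega
  have hPw : ∀ p ≤ K, P p → 0 < w p := fun p _ h => by
    rw [hP] at h
    rw [h]; exact hw1
  have F := H295.fldP_sk hn hK hm b w hP1
  have G := H295.gp_sk hn hK hm b w hP1 hPw
  have Pl : P (l + 1) := rfl
  have hl1 : l + 1 ≤ (skS n K m b w).K := hl
  set S := skS n K m b w with hSd
  set χ := ch n K m b w l with hχ
  have hlK : l ≤ S.K := by omega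
  have eTX : EG (TX S l) := eg_TX hS hlK
  have dTX : Dep S.lev l (TX S l) := dep_T S l _
  set u : (Cd n K → ℝ) → ℝ := fun z => TX S l z - χ with hu
  have eu : EG u := eTX.sub (EG.const χ)
  have du : Dep S.lev l u := fun z w' => by
    simp only [hu, dTX z w']
  have nu : Nh (X := Fin n → ℤˣ) fun z _ => u z := Nh.fst eu
  have nuu : ∀ k ≤ S.K, Nh (Fld.uu S (H295.spn n) k) := fun k hk => Fld.nh_uu hS hk
  -- `Ex ll = χ`
  have hEl : S.Ex (H295.ll (H295.spn n) (H295.zs hK) w (l + 1)) = χ := by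
    have h1 := F.Ex_hz hl1 Pl
    have h2 : S.Ex (H295.ll (H295.spn n) (H295.zs hK) w (l + 1)) =
        1 / w (l + 1) * S.Ex (hz (H295.spn n) (H295.zs hK) (l + 1)) := by
      rw [← Ex_const_mul]
      rfl
    rw [h2, h1, ← mul_assoc, one_div, inv_mul_cancel₀ hw1.ne', one_mul, hχ]
    rfl
  -- integration by parts
  have hIBP : S.Ex (fun z x => H295.ll (H295.spn n) (H295.zs hK) w (l + 1) z x * u z) =
      S.Ex (fun z x => u z * Xl S l z x) := by
    have h1 := F.Ex_hz_mul hl1 Pl (u := fun z _ => u z) (u' := fun _ _ _ => 0)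
      (fun i x => du.pd (by
        rw [F.lev (l + 1) hl1 Pl i]
        omega)) nu (fun i => Nh.fst (EG.const 0))
    simp only [mul_zero, Finset.sum_const_zero, hS.Ex_const, zero_add] at h1
    have h2 : S.Ex (fun z x => H295.ll (H295.spn n) (H295.zs hK) w (l + 1) z x * u z) =
        1 / w (l + 1) * S.Ex (fun z x => hz (H295.spn n) (H295.zs hK) (l + 1) z x * u z) := by
      rw [← Ex_const_mul]
      congr 1
      funext z x
      unfold H295.ll
      ring
    rw [h2, h1, ← mul_assoc, one_div, inv_mul_cancel₀ hw1.ne', one_mul]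
    have hN : ∀ k ∈ Finset.Ico (l + 1) (S.K + 1), Nh fun (z : Cd n K → ℝ) (x : Fin n → ℤˣ) =>
        S.p k * (u z * Fld.uu S (H295.spn n) k z x) := fun k hk => by
      rw [Finset.mem_Ico] at hk
      exact Nh.const_mul _ (Nh.mul nu (nuu k (by omega)))
    have e1 : (fun (z : Cd n K → ℝ) (x : Fin n → ℤˣ) => u z * Xl S l z x) = fun z x =>
        u z - ∑ k ∈ Finset.Ico (l + 1) (S.K + 1), S.p k * (u z * Fld.uu S (H295.spn n) k z x) := by
      funext z x
      unfold Xl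
      rw [mul_sub, mul_one, Finset.mul_sum]
      congr 1
      refine Finset.sum_congr rfl fun k _ => ?_
      show u z * (S.p k * Fld.uu S (H295.spn n) k z x) = _
      ring
    rw [e1, hS.Ex_sub nu (Nh.sum _ hN), hS.Ex_sum _ hN]
    congr 1
    exact Finset.sum_congr rfl fun k _ => (Ex_const_mul _ _ _).symm
  -- `Ex u² = Ex (u (ll - χ))`
  have nX : Nh (Xl S l) := nh_Xl hS l
  have nL := H295.nh_ll F (l + 1)
  have nlχ : Nh (fun z x => H295.ll (H295.spn n) (H295.zs hK) w (l + 1) z x - χ) :=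
    Nh.sub nL (Nh.fst (EG.const χ))
  have h3 : S.Ex (fun z _ => u z ^ 2) =
      S.Ex (fun z x => (H295.ll (H295.spn n) (H295.zs hK) w (l + 1) z x - χ) * u z) := by
    have h4 := hS.Ex_mul_T hlK du eu nX
    have e2 : S.Ex (fun z _ => u z ^ 2) = S.Ex (fun z x => u z * Xl S l z x) -
        χ * S.Ex (fun z _ => u z) := by
      rw [← h4, ← Ex_const_mul, ← hS.Ex_sub (Nh.fst (eu.mul (hS.eg_T hlK nX)))
        (Nh.const_mul _ nu)]
      congr 1
      funext z _
      show u z ^ 2 = u z * TX S l z - χ * u z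
      simp only [hu]
      ring
    have e3 : S.Ex (fun z x => (H295.ll (H295.spn n) (H295.zs hK) w (l + 1) z x - χ) * u z) =
        S.Ex (fun z x => H295.ll (H295.spn n) (H295.zs hK) w (l + 1) z x * u z) -
        χ * S.Ex (fun z _ => u z) := by
      rw [← Ex_const_mul, ← hS.Ex_sub (Nh.mul nL nu) (Nh.const_mul _ nu)]
      congr 1
      funext z x
      ring
    rw [e2, e3, hIBP]
  -- Cauchy-Schwarz
  have h5 := hS.Ex_cs nlχ nu
  rw [← h3] at h5
  have hV : S.Ex (fun z x => (H295.ll (H295.spn n) (H295.zs hK) w (l + 1) z x - χ) ^ 2) ≤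
      1 / (n * w (l + 1) ^ 2) := by
    have h6 := H498.Row.gg_nonneg G (l := l + 1) hl1 Pl
    unfold H295.gg at h6
    rw [if_pos rfl] at h6
    have e4 : S.Ex (fun z x => (H295.ll (H295.spn n) (H295.zs hK) w (l + 1) z x - χ) ^ 2) =
        H295.Cv S (H295.ll (H295.spn n) (H295.zs hK) w (l + 1))
          (H295.ll (H295.spn n) (H295.zs hK) w (l + 1)) := by
      unfold H295.Cv
      rw [hEl]
      have nLL : Nh (fun z x => H295.ll (H295.spn n) (H295.zs hK) w (l + 1) z x *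
        H295.ll (H295.spn n) (H295.zs hK) w (l + 1) z x) := Nh.mul nL nL
      have nc : Nh (ι := Cd n K) (X := Fin n → ℤˣ) (fun _ _ => χ ^ 2) := Nh.fst (EG.const _)
      have e5 : (fun z x => (H295.ll (H295.spn n) (H295.zs hK) w (l + 1) z x - χ) ^ 2) =
          fun z x => (H295.ll (H295.spn n) (H295.zs hK) w (l + 1) z x *
            H295.ll (H295.spn n) (H295.zs hK) w (l + 1) z x -
            2 * χ * H295.ll (H295.spn n) (H295.zs hK) w (l + 1) z x) + χ ^ 2 := by
        funext z x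
        ring
      rw [e5, hS.Ex_add (Nh.sub nLL (Nh.const_mul _ nL)) nc, hS.Ex_sub nLL (Nh.const_mul _ nL),
        Ex_const_mul, hS.Ex_const, hEl]
      ring
    rw [e4]
    linarith
  have hu0 : 0 ≤ S.Ex (fun z _ => u z ^ 2) := Ex_nn hS (Nh.fst (eu.pow 2)) fun z _ => sq_nonneg _
  rcases hu0.eq_or_lt with h0 | h0
  · show S.Ex (fun z _ => u z ^ 2) ≤ _
    rw [← h0]
    positivity
  · have h7 : S.Ex (fun z _ => u z ^ 2) * S.Ex (fun z _ => u z ^ 2) ≤
        1 / (n * w (l + 1) ^ 2) * S.Ex (fun z _ => u z ^ 2) := by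
      rw [← sq]
      exact h5.trans (mul_le_mul_of_nonneg_right hV hu0)
    exact le_of_mul_le_mul_right h7 h0

/-- `Ex (T_l X_l)² = χ² + Var` -/
theorem TX_sq (hm : Em K m) (hn : 0 < n) (hl : l < K) :
    (skS n K m b w).Ex (fun z _ => TX (skS n K m b w) l z ^ 2) = ch n K m b w l ^ 2 +
      (skS n K m b w).Ex (fun z _ => (TX (skS n K m b w) l z - ch n K m b w l) ^ 2) := by
  have hS : (skS n K m b w).Reg := (linS_sk hm b w).reg
  have hK : 0 < K := by omega
  have F := H295.fldP_sk hn hK hm b w (P := fun _ => False) (fun _ h => h.elim)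
  set S := skS n K m b w with hSd
  set χ := ch n K m b w l with hχ
  have hlK : l ≤ S.K := hl.le
  have eTX : EG (TX S l) := eg_TX hS hlK
  have hEu : ∀ k ≤ S.K, S.Ex (Fld.uu S (H295.spn n) k) = S.Rl H325.sp k := fun k hk => F.Ex_uu hk
  have hE : S.Ex (fun z _ => TX S l z) = χ := by
    unfold TX
    rw [hS.Ex_T hlK (nh_Xl hS l)]
    have hN : ∀ k ∈ Finset.Ico (l + 1) (S.K + 1), Nh fun (z : Cd n K → ℝ) (x : Fin n → ℤˣ) =>
        S.p k * Fld.uu S H325.sp k z x := fun k hk => by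
      rw [Finset.mem_Ico] at hk
      exact Nh.const_mul _ (Fld.nh_uu hS (by omega))
    have e1 : Xl S l = fun z x => 1 - ∑ k ∈ Finset.Ico (l + 1) (S.K + 1),
        S.p k * Fld.uu S H325.sp k z x := rfl
    rw [e1, hS.Ex_sub (Nh.fst (EG.const 1)) (Nh.sum _ hN), hS.Ex_const, hS.Ex_sum _ hN, hχ]
    unfold ch
    congr 1
    refine Finset.sum_congr rfl fun k hk => ?_
    rw [Finset.mem_Ico] at hk
    rw [Ex_const_mul]
    show S.p k * S.Ex (Fld.uu S (H295.spn n) k) = _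
    rw [hEu k (show k ≤ K by omega)]
    rfl
  have n1 : Nh (X := Fin n → ℤˣ) fun z _ => TX S l z ^ 2 := Nh.fst (eTX.pow 2)
  have n2 : Nh (X := Fin n → ℤˣ) fun z _ => TX S l z := Nh.fst eTX
  have nc : Nh (ι := Cd n K) (X := Fin n → ℤˣ) (fun _ _ => χ ^ 2) := Nh.fst (EG.const _)
  have e5 : (fun (z : Cd n K → ℝ) (_ : Fin n → ℤˣ) => (TX S l z - χ) ^ 2) =
      fun z _ => (TX S l z ^ 2 - 2 * χ * TX S l z) + χ ^ 2 := by
    funext z _
    ring
  rw [e5, hS.Ex_add (Nh.sub n1 (Nh.const_mul _ n2)) nc, hS.Ex_sub n1 (Nh.const_mul _ n2),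
    Ex_const_mul, hS.Ex_const, hE]
  ring

/-- the correction of one field -/
theorem Fk_near (hm : Em K m) (hl : l ≤ K) (q : ℕ) (i : Fin n) :
    |Fk (skS n K m b w) l q i -
      ∫ z, PA (rwl K i l) (F1 (skS n K m b w) l i) z ^ 2 ∂(gI (Cd n K))| ≤
      8 * m (l + 1) + 4 * m (l + 1) ^ 2 := by
  have hS : (skS n K m b w).Reg := (linS_sk hm b w).reg
  set S := skS n K m b w with hSd
  have hlK : l ≤ S.K := hl
  set A := rwl K i l with hA
  set W : (Cd n K → ℝ) → ℝ := fun z => Real.exp (VL S l z / 2) *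
    (dd S l i z * Qe S l q (fun x => H325.sp x i) z) with hW
  have eW : EG W := (eg_expV hS hlK).mul ((eg_dd hS hlK i).mul (eg_Qe hS hlK q _))
  have eF : EG (F1 S l i) := eg_F1 hS hlK i
  have hm1 : 0 ≤ m (l + 1) := m_nonneg hS (l := l + 1) (by show l + 1 ≤ K + 1; omega)
  have e0 : Fk S l q i = ∫ z, (PA A (F1 S l i) z - PA A W z) ^ 2 ∂(gI (Cd n K)) := by
    unfold Fk
    congr 1
    funext z
    rw [← PA.sub eF eW]
    congr 2
    funext z
    show Real.exp (VL S l z / 2) * (Vf S l i (fun _ => 1) z -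
      dd S l i z * Qe S l q (fun x => H325.sp x i) z) = Real.exp (VL S l z / 2) *
      Vf S l i (one1 n) z - Real.exp (VL S l z / 2) *
      (dd S l i z * Qe S l q (fun x => H325.sp x i) z)
    rw [mul_sub]
  have eP := PA.eg eF A
  have eQ := PA.eg eW A
  have hWsq : ∫ z, PA A W z ^ 2 ∂(gI (Cd n K)) ≤ 4 * m (l + 1) ^ 2 := by
    refine (PA.sq_le eW A).trans ?_
    have h1 : ∫ z, W z ^ 2 ∂(gI (Cd n K)) = S.Ex (fun z _ =>
        (dd S l i z * Qe S l q (fun x => H325.sp x i) z) ^ 2) :=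
      int_expV_sq hS hlK ((eg_dd hS hlK i).mul (eg_Qe hS hlK q _))
        (lc_dep_mul (dep_dd S l i) (dep_Qe S l q _))
    rw [h1]
    have h2 : S.Ex (fun z _ => (dd S l i z * Qe S l q (fun x => H325.sp x i) z) ^ 2) ≤
        S.Ex (fun z _ => Qe S l q (fun x => H325.sp x i) z ^ 2) := by
      refine hS.Ex_mono (Nh.fst (((eg_dd hS hlK i).mul (eg_Qe hS hlK q _)).pow 2))
        (Nh.fst ((eg_Qe hS hlK q _).pow 2)) fun z _ => ?_
      rw [mul_pow]
      have h3 := sq_le_of_abs (abs_dd_le hS hlK i z)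
      rw [one_pow] at h3
      calc dd S l i z ^ 2 * Qe S l q (fun x => H325.sp x i) z ^ 2 ≤
            1 * Qe S l q (fun x => H325.sp x i) z ^ 2 :=
          mul_le_mul_of_nonneg_right h3 (sq_nonneg _)
        _ = _ := one_mul _
    have h4 := Ex_Qe_sq hS hlK q (fun x => H325.sp x i)
    have h5 : S.Ex (fun z _ => S.T l (fun _ x => H325.sp x i) z ^ 2) ≤ 1 := by
      refine Ex_le_const hS (Nh.fst ((eg_dd hS hlK i).pow 2)) fun z _ => ?_
      have h3 := sq_le_of_abs (abs_dd_le hS hlK i z)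
      rw [one_pow] at h3
      exact h3
    have e6 : S.m (l + 1) = m (l + 1) := rfl
    rw [e6] at h4
    refine h2.trans (h4.trans ?_)
    calc 4 * m (l + 1) ^ 2 * _ ≤ 4 * m (l + 1) ^ 2 * 1 :=
          mul_le_mul_of_nonneg_left h5 (by positivity)
      _ = _ := mul_one _
  have hWsq0 : 0 ≤ ∫ z, PA A W z ^ 2 ∂(gI (Cd n K)) := integral_nonneg fun _ => sq_nonneg _
  have hPsq := int_PA1_le (n := n) (b := b) (w := w) hm hl i
  rw [← hA] at hPsq
  have e7 : Fk S l q i - ∫ z, PA A (F1 S l i) z ^ 2 ∂(gI (Cd n K)) =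
      ∫ z, PA A W z ^ 2 ∂(gI (Cd n K)) -
        2 * ∫ z, PA A W z * PA A (F1 S l i) z ∂(gI (Cd n K)) := by
    rw [e0]
    have e8 : ∀ z, (PA A (F1 S l i) z - PA A W z) ^ 2 = PA A (F1 S l i) z ^ 2 +
        (PA A W z ^ 2 - 2 * (PA A W z * PA A (F1 S l i) z)) := fun z => by ring
    simp only [e8]
    rw [integral_add (eP.pow 2).integrable
      ((eQ.pow 2).sub ((eQ.mul eP).const_mul 2)).integrable,
      integral_sub (eQ.pow 2).integrable ((eQ.mul eP).const_mul 2).integrable,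
      integral_const_mul]
    ring
  have h8 : |∫ z, PA A W z * PA A (F1 S l i) z ∂(gI (Cd n K))| ≤ 4 * m (l + 1) := by
    rcases hm1.eq_or_lt with h | h
    · have h9 : ∀ t : ℝ, 0 < t →
          |∫ z, PA A W z * PA A (F1 S l i) z ∂(gI (Cd n K))| ≤ 2 * t := by
        intro t ht
        have h10 := young eQ eP ht
        have h11 : ∫ z, PA A W z ^ 2 ∂(gI (Cd n K)) = 0 := by
          rw [← h] at hWsq
          linarith
        rw [h11, mul_zero, zero_add] at h10
        have h12 := mul_le_mul_of_nonneg_left hPsq (show 0 ≤ t / 2 by positivity)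
        linarith
      rw [← h, mul_zero]
      by_contra hc
      push Not at hc
      have := h9 (|∫ z, PA A W z * PA A (F1 S l i) z ∂(gI (Cd n K))| / 4) (by positivity)
      linarith
    · have h10 := young eQ eP h
      have h11 := mul_le_mul_of_nonneg_left hWsq (show 0 ≤ 1 / (2 * m (l + 1)) by positivity)
      have h12 := mul_le_mul_of_nonneg_left hPsq (show 0 ≤ m (l + 1) / 2 by positivity)
      have e9 : 1 / (2 * m (l + 1)) * (4 * m (l + 1) ^ 2) = 2 * m (l + 1) := by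
        field_simp
        ring
      rw [e9] at h11
      linarith
  rw [e7]
  have h13 := abs_sub (∫ z, PA A W z ^ 2 ∂(gI (Cd n K)))
    (2 * ∫ z, PA A W z * PA A (F1 S l i) z ∂(gI (Cd n K)))
  rw [abs_of_nonneg hWsq0, abs_mul, abs_two] at h13
  linarith

/-- **THE FIELD PART OF THE ROW.** -/
theorem FdA_near (hm : Em K m) (hn : 0 < n) (hl : l < K) (hw1 : 0 < w (l + 1)) {t : ℝ}
    (ht : 0 < t) :
    |FdA n K m b w l - SB w l * ch n K m b w l ^ 2| ≤
      SB w l * (((2 + 1 / t) * (2 * IF n K m b w l) + 4 * t) + 8 / n +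
        1 / (n * w (l + 1) ^ 2) + (8 * m (l + 1) + 4 * m (l + 1) ^ 2)) := by
  have hS : (skS n K m b w).Reg := (linS_sk hm b w).reg
  have hn' : (0 : ℝ) < n := by exact_mod_cast hn
  have h1 := PF_near (b := b) (w := w) hm hn hl.le ht
  have h2 := TX_var (b := b) hm hn hl hw1
  have h3 := TX_sq (b := b) (w := w) hm hn hl
  have hv0 : 0 ≤ (skS n K m b w).Ex (fun z _ => (TX (skS n K m b w) l z -
      ch n K m b w l) ^ 2) :=
    Ex_nn hS (Nh.fst (((eg_TX hS hl.le).sub (EG.const _)).pow 2)) fun z _ => sq_nonneg _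
  set A : ℝ := (2 + 1 / t) * (2 * IF n K m b w l) + 4 * t with hA
  set M : ℝ := 8 * m (l + 1) + 4 * m (l + 1) ^ 2 with hM
  -- `FdA = ∑ w² (1/n ∑ Fk)`
  have e1 : FdA n K m b w l - SB w l * ch n K m b w l ^ 2 = ∑ q : Fin l, w (q + 1) ^ 2 *
      (1 / n * ∑ i : Fin n, Fk (skS n K m b w) l (q + 1) i - ch n K m b w l ^ 2) := by
    unfold FdA SB
    rw [← Fin.sum_univ_eq_sum_range (fun c => w (c + 1) ^ 2) l, Finset.sum_comm,
      Finset.mul_sum, Finset.sum_mul, ← Finset.sum_sub_distrib]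
    refine Finset.sum_congr rfl fun q _ => ?_
    rw [← Finset.mul_sum]
    ring
  have e2 : ∀ q : Fin l, |1 / n * ∑ i : Fin n, Fk (skS n K m b w) l (q + 1) i -
      ch n K m b w l ^ 2| ≤ A + 8 / n + 1 / (n * w (l + 1) ^ 2) + M := by
    intro q
    have h4 : |1 / n * ∑ i : Fin n, Fk (skS n K m b w) l (q + 1) i - PF n K m b w l| ≤ M := by
      unfold PF
      rw [← mul_sub, ← Finset.sum_sub_distrib, abs_mul,
        abs_of_pos (by positivity : (0 : ℝ) < 1 / n)]
      have h5 : |∑ i : Fin n, (Fk (skS n K m b w) l (q + 1) i -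
          ∫ z, PA (rwl K i l) (F1 (skS n K m b w) l i) z ^ 2 ∂(gI (Cd n K)))| ≤ n * M := by
        refine (Finset.abs_sum_le_sum_abs _ _).trans ((Finset.sum_le_sum fun i _ =>
          Fk_near hm hl.le (q + 1) i).trans (le_of_eq ?_))
        rw [Finset.sum_const, Finset.card_univ, Fintype.card_fin, nsmul_eq_mul]
      calc 1 / (n : ℝ) * _ ≤ 1 / n * (n * M) := mul_le_mul_of_nonneg_left h5 (by positivity)
        _ = M := by field_simp
    have h6 : 1 / n * ∑ i : Fin n, Fk (skS n K m b w) l (q + 1) i - ch n K m b w l ^ 2 =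
        (1 / n * ∑ i : Fin n, Fk (skS n K m b w) l (q + 1) i - PF n K m b w l) -
        ((skS n K m b w).Ex (fun z _ => TX (skS n K m b w) l z ^ 2) - PF n K m b w l) +
        (skS n K m b w).Ex (fun z _ => (TX (skS n K m b w) l z - ch n K m b w l) ^ 2) := by
      rw [h3]
      ring
    rw [h6]
    have h7 := abs_le.1 h4
    have h8 := abs_le.1 h1
    rw [abs_le]
    constructor <;> linarith
  rw [e1]
  refine (Finset.abs_sum_le_sum_abs _ _).trans ?_
  have h9 : ∀ q ∈ (Finset.univ : Finset (Fin l)), |w (q + 1) ^ 2 *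
      (1 / n * ∑ i : Fin n, Fk (skS n K m b w) l (q + 1) i - ch n K m b w l ^ 2)| ≤
      w (q + 1) ^ 2 * (A + 8 / n + 1 / (n * w (l + 1) ^ 2) + M) := fun q _ => by
    rw [abs_mul, abs_of_nonneg (sq_nonneg _)]
    exact mul_le_mul_of_nonneg_left (e2 q) (sq_nonneg _)
  refine (Finset.sum_le_sum h9).trans (le_of_eq ?_)
  rw [← Finset.sum_mul]
  congr 1
  unfold SB
  rw [← Fin.sum_univ_eq_sum_range (fun c => w (c + 1) ^ 2) l]

end Vale.Agent.P146.H508
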