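import Vale.Agent.P146.H508.Rep

/-!
# P146: labels, levels and sizes of the terms of a derivative (helper508)
-/

open MeasureTheory ProbabilityTheory

namespace Vale.Agent.P146.H508

open Vale.Agent.P157 Vale.Agent.P157.Lv Vale.Agent.P157.Lv.Sy
open Vale.Agent.P146.H425 Vale.Agent.P146.H93 Vale.Agent.P146.H985

set_option linter.unusedSectionVars false

variable {ι X : Type} [Fintype ι] [DecidableEq ι] [Fintype X] [Nonempty X]
  {S : Sy ι X} {a : X → ι → ℝ} {c : X → ℝ} {s : X → ℝ} {I : ℕ → ι}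

/-- a monomial depends only on the coordinates of its labels -/
lemma ev_congr {I I' : ℕ → ι} : ∀ M : Mo, (∀ v ∈ lab M, I v = I' v) →
    ev S a s I M = ev S a s I' M
  | Mo.sp, _ => rfl
  | Mo.D v, h => by
    have h1 := h v (by simp [lab])
    funext z x
    simp only [ev, h1]
  | Mo.mul M N, h => by
    have h1 := ev_congr M fun v hv => h v (by simp [lab, hv])
    have h2 := ev_congr N fun v hv => h v (by simp [lab, hv])
    simp only [ev, h1, h2]
  | Mo.T j M, h => by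
    have h1 := ev_congr M h
    simp only [ev, h1]

/-- all outer nodes are averages of a level at most `l` -/
def Out (l : ℕ) : Mo → Prop
  | Mo.sp => False
  | Mo.D _ => False
  | Mo.mul M N => Out l M ∧ Out l N
  | Mo.T j _ => j ≤ l

lemma Out.fst {l : ℕ} : ∀ {M : Mo}, Out l M → ∀ z x y, ev S a s I M z x = ev S a s I M z y
  | Mo.sp, h, _, _, _ => absurd h id
  | Mo.D _, h, _, _, _ => absurd h id
  | Mo.mul M N, h, z, x, y => by
    simp only [ev]
    rw [Out.fst h.1 z x y, Out.fst h.2 z x y]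
  | Mo.T j M, _, z, x, y => rfl

lemma Out.dep {l : ℕ} : ∀ {M : Mo}, Out l M → ∀ x, Dep S.lev l (fun z => ev S a s I M z x)
  | Mo.sp, h, _ => absurd h id
  | Mo.D _, h, _ => absurd h id
  | Mo.mul M N, h, x => fun z w => by
    have h1 := Out.dep h.1 x z w
    have h2 := Out.dep h.2 x z w
    simp only [ev] at h1 h2 ⊢
    rw [h1, h2]
  | Mo.T j M, h, x => by
    have h1 : Dep S.lev j (S.T j (ev S a s I M)) := dep_T S j _
    exact h1.mono h

lemma Out.cl {l : ℕ} : ∀ {M : Mo}, Out l M → ∀ v ∈ lab M, ∃ i ≤ l, cl M v = some i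
  | Mo.sp, h, _, _ => absurd h id
  | Mo.D _, h, _, _ => absurd h id
  | Mo.mul M N, h, v, hv => by
    by_cases h1 : v ∈ lab M
    · obtain ⟨i, hi, h2⟩ := Out.cl h.1 v h1
      exact ⟨i, hi, by simp only [H508.cl, h1, if_true, h2]⟩
    · have h2 : v ∈ lab N := by
        rcases Finset.mem_union.1 hv with h3 | h3
        · exact absurd h3 h1
        · exact h3
      obtain ⟨i, hi, h3⟩ := Out.cl h.2 v h2
      exact ⟨i, hi, by simp only [H508.cl, h1, if_false, h3]⟩
  | Mo.T j M, h, v, _ => ⟨mn j (H508.cl M v), (mn_le _ _).trans h, rfl⟩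

/-- all averages have a level at least `l` -/
def Inn (l : ℕ) : Mo → Prop
  | Mo.sp => True
  | Mo.D _ => True
  | Mo.mul M N => Inn l M ∧ Inn l N
  | Mo.T j M => l ≤ j ∧ Inn l M

lemma Inn.cl {l : ℕ} : ∀ {M : Mo}, Inn l M → ∀ v i, cl M v = some i → l ≤ i
  | Mo.sp, _, v, i, hi => by simp [H508.cl] at hi
  | Mo.D _, _, v, i, hi => by simp [H508.cl] at hi
  | Mo.mul M N, h, v, i, hi => by
    unfold H508.cl at hi
    split_ifs at hi
    · exact Inn.cl h.1 v i hi
    · exact Inn.cl h.2 v i hi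
  | Mo.T j M, h, v, i, hi => by
    simp only [H508.cl, Option.some.injEq] at hi
    rw [← hi]
    rcases h2 : H508.cl M v with _ | i'
    · exact h.1
    · exact le_min h.1 (Inn.cl h.2 v i' h2)

lemma Inn.cl_T {l : ℕ} {M : Mo} (h : Inn l M) (v : ℕ) : H508.cl (Mo.T l M) v = some l := by
  simp only [H508.cl, Option.some.injEq]
  rcases h2 : H508.cl M v with _ | i'
  · rfl
  · exact min_eq_left (h.cl v i' h2)

/-- the properties of the terms of the derivative of `M` in the label `v` -/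
structure Dt (v : ℕ) (M : Mo) (t : Tm ι) : Prop where
  lab : lab t.M = insert v (lab M)
  lin : Lin t.M
  nt : nt t.M ≤ nt M + 1
  out : ∀ l, Out l M → Out l t.M
  dp : ∀ I I' : ℕ → ι, I v = I' v → t.c I = t.c I'

lemma Dt.mul_left {v : ℕ} {M N : Mo} (hv : v ∉ H508.lab N) (hd : Disjoint (H508.lab M) (H508.lab N))
    (hN : Lin N) {t : Tm ι} (h : Dt v M t) : Dt v (Mo.mul M N) (t.mp fun M' => Mo.mul M' N) where
  lab := by
    show H508.lab t.M ∪ H508.lab N = _
    rw [h.lab, Finset.insert_union]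
    rfl
  lin := ⟨by
    rw [h.lab, Finset.disjoint_insert_left]
    exact ⟨hv, hd⟩, h.lin, hN⟩
  nt := by
    show H508.nt t.M + H508.nt N ≤ H508.nt M + H508.nt N + 1
    have := h.nt
    omega
  out := fun l hl => ⟨h.out l hl.1, hl.2⟩
  dp := h.dp

lemma Dt.mul_right {v : ℕ} {M N : Mo} (hv : v ∉ H508.lab M)
    (hd : Disjoint (H508.lab M) (H508.lab N)) (hM : Lin M) {t : Tm ι} (h : Dt v N t) :
    Dt v (Mo.mul M N) (t.mp (Mo.mul M)) where
  lab := by
    show H508.lab M ∪ H508.lab t.M = _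
    rw [h.lab, Finset.union_insert]
    rfl
  lin := ⟨by
    rw [h.lab, Finset.disjoint_insert_right]
    exact ⟨hv, hd⟩, hM, h.lin⟩
  nt := by
    show H508.nt M + H508.nt t.M ≤ H508.nt M + H508.nt N + 1
    have := h.nt
    omega
  out := fun l hl => ⟨hl.1, h.out l hl.2⟩
  dp := h.dp

lemma Dt.T {v j : ℕ} {M : Mo} {t : Tm ι} (h : Dt v M t) : Dt v (Mo.T j M) (t.mp (Mo.T j)) where
  lab := h.lab
  lin := h.lin
  nt := by
    show H508.nt t.M + 1 ≤ H508.nt M + 1 + 1
    have := h.nt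
    omega
  out := fun _ hl => hl
  dp := h.dp

lemma Dt.cut {v j : ℕ} {M : Mo} {t : Tm ι} (lev : ι → ℕ) (h : Dt v M t) :
    Dt v M (Tm.cut lev v j t) where
  lab := h.lab
  lin := h.lin
  nt := h.nt
  out := h.out
  dp := fun I I' hI => by
    rw [Tm.cut_c, Tm.cut_c, hI, h.dp I I' hI]

/-- a direct term -/
lemma Dt.D {v j : ℕ} {M : Mo} (hv : v ∉ H508.lab M) (hM : Lin M) (k : ℝ) :
    Dt v (Mo.T j M) (Tm.cst k (Mo.T j (Mo.mul M (Mo.D v))) : Tm ι) where
  lab := by
    show H508.lab M ∪ {v} = _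
    rw [Finset.union_comm]
    rfl
  lin := ⟨Finset.disjoint_singleton_right.2 hv, hM, trivial⟩
  nt := by
    show H508.nt M + 0 + 1 ≤ H508.nt M + 1 + 1
    omega
  out := fun _ hl => hl
  dp := fun _ _ _ => rfl

lemma Dt.TD {v j i : ℕ} {M : Mo} (hv : v ∉ H508.lab M) (hM : Lin M) (k : ℝ) :
    Dt v (Mo.T j M) (Tm.cst k (Mo.T j (Mo.mul M (Mo.T i (Mo.D v)))) : Tm ι) where
  lab := by
    show H508.lab M ∪ {v} = _
    rw [Finset.union_comm]
    rfl
  lin := ⟨Finset.disjoint_singleton_right.2 hv, hM, trivial⟩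
  nt := by
    show H508.nt M + (0 + 1) + 1 ≤ H508.nt M + 1 + 1
    omega
  out := fun _ hl => hl
  dp := fun _ _ _ => rfl

lemma dt_lm {v j : ℕ} {M : Mo} (hv : v ∉ lab M) (hM : Lin M) : ∀ t ∈ lm S v j M,
    Dt v (Mo.T j M) t := by
  intro t ht
  simp only [lm, List.mem_cons, List.not_mem_nil, or_false] at ht
  rcases ht with rfl | rfl
  · exact Dt.D hv hM _
  · exact Dt.TD hv hM _

lemma dt_lr {v j : ℕ} {M : Mo} (hv : v ∉ lab M) (hM : Lin M) : ∀ t ∈ lr S v j M,
    Dt v (Mo.T j M) t := by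
  intro t ht
  unfold lr at ht
  split_ifs at ht with h
  · simp only [List.mem_cons, List.mem_map, Finset.mem_toList, Finset.mem_Ico] at ht
    rcases ht with rfl | rfl | ⟨i, hi, rfl⟩
    · exact Dt.TD hv hM _
    · exact Dt.TD hv hM _
    · exact Dt.TD hv hM _
  · simp at ht

lemma dt_mm (v : ℕ) : ∀ M : Mo, v ∉ lab M → Lin M → ∀ t ∈ mm S v M, Dt v M t
  | Mo.sp, _, _, t, ht => by simp [mm] at ht
  | Mo.D _, _, _, t, ht => by simp [mm] at ht
  | Mo.mul M N, hv, hl, t, ht => by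
    have hv' : v ∉ lab M ∧ v ∉ lab N := by simpa [lab] using hv
    simp only [mm, List.mem_append, List.mem_map] at ht
    rcases ht with ⟨t', ht', rfl⟩ | ⟨t', ht', rfl⟩
    · exact (dt_mm v M hv'.1 hl.2.1 t' ht').mul_left hv'.2 hl.1 hl.2.2
    · exact (dt_mm v N hv'.2 hl.2.2 t' ht').mul_right hv'.1 hl.1 hl.2.1
  | Mo.T j M, hv, hl, t, ht => by
    simp only [mm, List.mem_map, List.mem_append] at ht
    obtain ⟨t1, h1, rfl⟩ := ht
    refine Dt.cut S.lev ?_
    rcases h1 with ⟨t2, h2, rfl⟩ | h2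
    · exact (dt_mm v M hv hl t2 h2).T
    · exact dt_lm (M := M) hv hl t1 h2

lemma dt_rr (v : ℕ) : ∀ M : Mo, v ∉ lab M → Lin M → ∀ t ∈ rr S v M, Dt v M t
  | Mo.sp, _, _, t, ht => by simp [rr] at ht
  | Mo.D _, _, _, t, ht => by simp [rr] at ht
  | Mo.mul M N, hv, hl, t, ht => by
    have hv' : v ∉ lab M ∧ v ∉ lab N := by simpa [lab] using hv
    simp only [rr, List.mem_append, List.mem_map] at ht
    rcases ht with ⟨t', ht', rfl⟩ | ⟨t', ht', rfl⟩
    · exact (dt_rr v M hv'.1 hl.2.1 t' ht').mul_left hv'.2 hl.1 hl.2.2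
    · exact (dt_rr v N hv'.2 hl.2.2 t' ht').mul_right hv'.1 hl.1 hl.2.1
  | Mo.T j M, hv, hl, t, ht => by
    simp only [rr, List.mem_map, List.mem_append] at ht
    obtain ⟨t1, h1, rfl⟩ := ht
    refine Dt.cut S.lev ?_
    rcases h1 with ⟨t2, h2, rfl⟩ | h2
    · exact (dt_rr v M hv hl t2 h2).T
    · exact dt_lr (M := M) hv hl t1 h2

/-! ### The total coefficients -/

lemma tot_nonneg : ∀ L : List (Tm ι), 0 ≤ tot L
  | [] => le_rfl
  | t :: L => by rw [tot_cons]; exact add_nonneg t.hr (tot_nonneg L)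

lemma tot_mp (f : Mo → Mo) (L : List (Tm ι)) : tot (L.map fun t => t.mp f) = tot L :=
  tot_map (fun t => t.mp f) (fun _ => rfl) L

lemma tot_cut (lev : ι → ℕ) (v j : ℕ) (L : List (Tm ι)) :
    tot (L.map fun t => Tm.cut lev v j t) = tot L :=
  tot_map (fun t => Tm.cut lev v j t) (fun _ => rfl) L

lemma tot_lm (v j : ℕ) (M : Mo) : tot (lm S v j M) = 2 := by
  simp only [lm, tot_cons, tot_nil, Tm.cst_r, abs_one, abs_neg]
  norm_num

/-- monotone nonnegative exponents -/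
structure Mm (S : Sy ι X) : Prop where
  m0 : 0 ≤ S.m 0
  mono : ∀ i ≤ S.K, S.m i ≤ S.m (i + 1)

lemma Mm.le (h : Mm S) : ∀ {i j : ℕ}, i ≤ j → j ≤ S.K + 1 → S.m i ≤ S.m j := by
  intro i j hij
  induction j, hij using Nat.le_induction with
  | base => intro _; exact le_rfl
  | succ j _ ih => intro hj; exact (ih (by omega)).trans (h.mono j (by omega))

lemma Mm.nn (h : Mm S) {j : ℕ} (hj : j ≤ S.K + 1) : 0 ≤ S.m j :=
  h.m0.trans (h.le (Nat.zero_le j) hj)

lemma tot_lr (h : Mm S) (v j : ℕ) (M : Mo) : tot (lr S v j M) ≤ 2 * S.m S.K := by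
  unfold lr
  split_ifs with hj
  · have e1 : tot ((Finset.Ico (j + 1) S.K).toList.map fun i =>
        (Tm.cst (-S.p i) (Mo.T j (Mo.mul M (Mo.T i (Mo.D v)))) : Tm ι)) =
        ∑ i ∈ Finset.Ico (j + 1) S.K, |-S.p i| := by
      unfold tot
      rw [List.map_map]
      exact Finset.sum_map_toList _ _
    have e2 : ∑ i ∈ Finset.Ico (j + 1) S.K, |-S.p i| = S.m S.K - S.m (j + 1) := by
      rw [← Finset.sum_Ico_sub S.m (show j + 1 ≤ S.K by omega)]
      refine Finset.sum_congr rfl fun i hi => ?_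
      rw [abs_neg, abs_of_nonneg]
      · rfl
      · exact sub_nonneg.2 (h.mono i (Finset.mem_Ico.1 hi).2.le)
    simp only [tot_cons, Tm.cst_r]
    rw [e1, e2, abs_neg, abs_of_nonneg (h.nn (show S.K ≤ S.K + 1 by omega)), abs_of_nonneg (h.nn (by omega))]
    linarith
  · rw [tot_nil]
    have := h.nn (show S.K ≤ S.K + 1 by omega)
    linarith

lemma tot_mm (v : ℕ) : ∀ M : Mo, tot (mm S v M) ≤ 2 * nt M
  | Mo.sp => by simp [mm, nt]
  | Mo.D _ => by simp [mm, nt]
  | Mo.mul M N => by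
    simp only [mm, tot_append, tot_mp, nt]
    have h1 := tot_mm v M
    have h2 := tot_mm v N
    push_cast
    linarith
  | Mo.T j M => by
    simp only [mm, tot_append, tot_mp, nt, tot_cut, tot_lm]
    have h1 := tot_mm v M
    push_cast
    linarith

lemma tot_rr (h : Mm S) (v : ℕ) : ∀ M : Mo, tot (rr S v M) ≤ 2 * S.m S.K * nt M
  | Mo.sp => by simp [rr, nt]
  | Mo.D _ => by simp [rr, nt]
  | Mo.mul M N => by
    simp only [rr, tot_append, tot_mp, nt]
    have h1 := tot_rr h v M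
    have h2 := tot_rr h v N
    push_cast
    linarith
  | Mo.T j M => by
    simp only [rr, tot_append, tot_mp, nt, tot_cut]
    have h1 := tot_rr h v M
    have h2 := tot_lr h v j M
    push_cast
    linarith

end Vale.Agent.P146.H508
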