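import Vale.Agent.P146.H508.Sym
import Vale.Agent.P146.H985.Chaos3

/-!
# P146: the third chaos of a row at one level (helper508)

`N_l = E (T_l s)² - ∑_(e ∈ A) ∫ (J_A ∂_e (e^(V/2) T_l s))²` (row `A`, levels at most `l`) equals
`(1/6) ρ³ E (T_l τ)²` up to errors; `τ` does not depend on `l`.
-/

open MeasureTheory ProbabilityTheory

namespace Vale.Agent.P146.H508

open Vale.Agent.P157 Vale.Agent.P157.Lv Vale.Agent.P157.Lv.Sy
open Vale.Agent.P146.H425 Vale.Agent.P146.H93 Vale.Agent.P146.H985 Vale.Agent.P146.H985.Ch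
open Vale.Agent.P146.H946

set_option linter.unusedSectionVars false

variable {ι X : Type} [Fintype ι] [DecidableEq ι] [Fintype X] [Nonempty X] [DecidableEq X]
  {S : Sy ι X} {a : X → ι → ℝ} {c : X → ℝ} {s : X → ℝ} {I : ℕ → ι} {A : Finset ι}

/-- the symbol of the third Gibbs cumulant -/
noncomputable def tau (S : Sy ι X) (s : X → ℝ) (I : ℕ → ι) (z : ι → ℝ) (x : X) : ℝ :=
  evL S (fun x _ => s x) s I (L0 S 3) z x

lemma nh_tau (hS : S.Reg) (s : X → ℝ) (I : ℕ → ι) : Nh (tau S s I) :=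
  nh_evL hS _ s I _ fun t ht => (g0_L0 3 t ht).tk

lemma T_tau (hS : S.Reg) {l : ℕ} (hl : l ≤ S.K) (s : X → ℝ) (I : ℕ → ι) (z : ι → ℝ) (x : X) :
    S.T l (tau S s I) z = evL S (fun x _ => s x) s I (LM S l 3) z x :=
  T_evL hS hl _ s I z x _ fun t ht => (g0_L0 3 t ht).tk

/-- the energy of the symbol at the level `l` -/
noncomputable def tE (S : Sy ι X) (s : X → ℝ) (I : ℕ → ι) (l : ℕ) : ℝ :=
  S.Ex fun z _ => S.T l (tau S s I) z ^ 2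

/-- it is nondecreasing in the level -/
lemma tE_mono (hS : S.Reg) (s : X → ℝ) (I : ℕ → ι) {l l' : ℕ} (h : l ≤ l') (hl : l' ≤ S.K) :
    tE S s I l ≤ tE S s I l' := by
  have n0 := nh_tau hS s I
  have e1 := hS.eg_T hl n0
  have h1 : ∀ z, S.T l (tau S s I) z ^ 2 ≤ S.T l (fun z _ => S.T l' (tau S s I) z ^ 2) z := by
    intro z
    rw [← hS.T_T h hl n0]
    exact hS.sq_T_le (h.trans hl) (Nh.fst e1) z
  unfold tE
  refine (hS.Ex_mono (Nh.fst ((hS.eg_T (h.trans hl) n0).pow 2))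
    (Nh.fst (hS.eg_T (h.trans hl) (Nh.fst (e1.pow 2)))) fun z _ => h1 z).trans (le_of_eq ?_)
  exact hS.Ex_T (h.trans hl) (Nh.fst (e1.pow 2))

lemma tE_nonneg (hS : S.Reg) (s : X → ℝ) (I : ℕ → ι) {l : ℕ} (hl : l ≤ S.K) :
    0 ≤ tE S s I l := by
  have h := hS.Ex_mono (f := fun _ _ => (0 : ℝ)) (Nh.fst (EG.const 0))
    (Nh.fst (X := X) ((hS.eg_T hl (nh_tau hS s I)).pow 2)) fun z _ => sq_nonneg _
  rwa [hS.Ex_const] at h

lemma expV_half (l : ℕ) (z : ι → ℝ) (y : ℝ) :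
    (Real.exp (VL S l z / 2) * y) ^ 2 = Real.exp (VL S l z) * y ^ 2 := by
  rw [mul_pow, ← Real.exp_nat_mul]
  congr 2
  push_cast
  ring

/-- the sum of the two lists -/
noncomputable def wk (S : Sy ι X) (a : X → ι → ℝ) (s : X → ℝ) (l k : ℕ) (I : ℕ → ι) (z : ι → ℝ)
    (x : X) : ℝ := evL S a s I (LM S l k) z x + evL S a s I (LR S l k) z x

lemma int_gk (h : LinS S a c) {l : ℕ} (hl : l ≤ S.K) (k : ℕ) (I : ℕ → ι) :
    ∫ z, gk S a s l k I z ^ 2 ∂(gI ι) = S.Ex fun z x => wk S a s l k I z x ^ 2 := by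
  have hS := h.reg
  set x0 := Classical.arbitrary X with hx0
  have e1 : (fun z x => wk S a s l k I z x ^ 2) = fun z (_ : X) => wk S a s l k I z x0 ^ 2 := by
    funext z x
    unfold wk
    rw [(gd_LM hl k).fst z x x0, (gd_LR hl k).fst z x x0]
  have d1 : Dep S.lev l fun z => wk S a s l k I z x0 := fun z w => by
    have h1 := (gd_LM (S := S) hl k).dep (a := a) (s := s) (I := I) x0 z w
    have h2 := (gd_LR (S := S) hl k).dep (a := a) (s := s) (I := I) x0 z w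
    simp only at h1 h2
    show evL S a s I (LM S l k) (mix S.lev l z w) x0 +
      evL S a s I (LR S l k) (mix S.lev l z w) x0 = _
    rw [h1, h2]
    rfl
  have n1 : EG fun z => wk S a s l k I z x0 ^ 2 :=
    (((gd_LM hl k).eg hS x0).add ((gd_LR hl k).eg hS x0)).pow 2
  rw [e1, Ex_eq_VL hS hl n1 (fun z w => by
    have := d1 z w
    simp only at this ⊢
    rw [this])]
  congr 1
  funext z
  exact expV_half l z _

/-- `C(x, y)` for the coefficients `s φ` -/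
lemma CC_mul {φ : X → ι → ℝ} (ha : ∀ x, ∀ e ∈ A, a x e = s x * φ x e) (x y : X) :
    CC A a x y = s x * s y * CC A φ x y := by
  unfold CC
  rw [Finset.mul_sum]
  refine Finset.sum_congr rfl fun e he => ?_
  rw [ha x e he, ha y e he]
  ring

/-- the nonlinear part of the spin at the level `l` -/
noncomputable def NL (S : Sy ι X) (s : X → ℝ) (l : ℕ) (A : Finset ι)
    (g1 : ι → (ι → ℝ) → ℝ) : ℝ :=
  S.Ex (fun z _ => S.T l (fun _ x => s x) z ^ 2) -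
    ∑ e ∈ A, ∫ z, J (lvA A) 0 (g1 e) z ^ 2 ∂(gI ι)

lemma pd_unique {F F1 F2 : (ι → ℝ) → ℝ} {e : ι} (h1 : PD e F F1) (h2 : PD e F F2) : F1 = F2 := by
  funext z
  exact PD.unique h1 h2 z

/-- the bounds of all orders -/
structure Bs (S : Sy ι X) (l : ℕ) (C : X → X → ℝ) (ρ B3 B4 E : ℝ) : Prop where
  h3 : ∀ i ≤ l, S.pairEx i (fun x y => |C x y| ^ 3) ≤ B3
  h4 : ∀ i ≤ l, S.pairEx i (fun x y => C x y ^ 4) ≤ B4
  hE : S.pairEx l (fun x y => |C x y - ρ| ^ 3 + ρ ^ 2 * |C x y - ρ|) ≤ E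

lemma nh_wk (hS : S.Reg) {l : ℕ} (hl : l ≤ S.K) (k : ℕ) (a : X → ι → ℝ) (s : X → ℝ)
    (I : ℕ → ι) : Nh (wk S a s l k I) :=
  Nh.add (nh_evL hS a s _ _ (gd_LM hl k).tk) (nh_evL hS a s _ _ (gd_LR hl k).tk)

lemma sum3_Ex (h : LinS S a c) {l : ℕ} (hl : l ≤ S.K) :
    ∑ e ∈ A, ∑ f ∈ A, ∑ k ∈ A, ∫ z, gk S a s l 3 (ix e f k k) z ^ 2 ∂(gI ι) =
      S.Ex fun z x => ∑ e ∈ A, ∑ f ∈ A, ∑ k ∈ A, wk S a s l 3 (ix e f k k) z x ^ 2 := by
  have hS := h.reg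
  have nW : ∀ e f k : ι, Nh fun z x => wk S a s l 3 (ix e f k k) z x ^ 2 :=
    fun e f k => Nh.pow (nh_wk hS hl 3 a s _) 2
  rw [hS.Ex_sum A (f := fun e z x => ∑ f ∈ A, ∑ k ∈ A,
    wk S a s l 3 (ix e f k k) z x ^ 2) fun e _ => Nh.sum _ fun f _ => Nh.sum _ fun k _ =>
      nW e f k]
  refine Finset.sum_congr rfl fun e _ => ?_
  rw [hS.Ex_sum A (f := fun f z x => ∑ k ∈ A,
    wk S a s l 3 (ix e f k k) z x ^ 2) fun f _ => Nh.sum _ fun k _ => nW e f k]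
  refine Finset.sum_congr rfl fun f _ => ?_
  rw [hS.Ex_sum A (f := fun k z x =>
    wk S a s l 3 (ix e f k k) z x ^ 2) fun k _ => nW e f k]
  exact Finset.sum_congr rfl fun k _ => int_gk h hl 3 _

lemma sum4_Ex (h : LinS S a c) {l : ℕ} (hl : l ≤ S.K) :
    ∑ e ∈ A, ∑ f ∈ A, ∑ k ∈ A, ∑ j ∈ A, ∫ z, gk S a s l 4 (ix e f k j) z ^ 2 ∂(gI ι) =
      S.Ex fun z x => ∑ e ∈ A, ∑ f ∈ A, ∑ k ∈ A, ∑ j ∈ A,
        wk S a s l 4 (ix e f k j) z x ^ 2 := by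
  have hS := h.reg
  have nW : ∀ e f k j : ι, Nh fun z x => wk S a s l 4 (ix e f k j) z x ^ 2 :=
    fun e f k j => Nh.pow (nh_wk hS hl 4 a s _) 2
  rw [hS.Ex_sum A (f := fun e z x => ∑ f ∈ A, ∑ k ∈ A, ∑ j ∈ A,
    wk S a s l 4 (ix e f k j) z x ^ 2) fun e _ => Nh.sum _ fun f _ => Nh.sum _ fun k _ =>
      Nh.sum _ fun j _ => nW e f k j]
  refine Finset.sum_congr rfl fun e _ => ?_
  rw [hS.Ex_sum A (f := fun f z x => ∑ k ∈ A, ∑ j ∈ A,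
    wk S a s l 4 (ix e f k j) z x ^ 2) fun f _ => Nh.sum _ fun k _ =>
      Nh.sum _ fun j _ => nW e f k j]
  refine Finset.sum_congr rfl fun f _ => ?_
  rw [hS.Ex_sum A (f := fun k z x => ∑ j ∈ A,
    wk S a s l 4 (ix e f k j) z x ^ 2) fun k _ => Nh.sum _ fun j _ => nW e f k j]
  refine Finset.sum_congr rfl fun k _ => ?_
  rw [hS.Ex_sum A (f := fun j z x => wk S a s l 4 (ix e f k j) z x ^ 2) fun j _ =>
    nW e f k j]
  exact Finset.sum_congr rfl fun j _ => int_gk h hl 4 _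

lemma four_bd (h : LinS S a c) (hm : Mm S) (hm1 : S.m S.K ≤ 1) (hs1 : ∀ x, |s x| ≤ 1) {l : ℕ}
    (hl : l ≤ S.K) {B4 : ℝ} (B4n : 0 ≤ B4)
    (hB4' : ∀ i ≤ l, S.pairEx i (fun x y => CC A a x y ^ 4) ≤ B4) :
    ∑ e ∈ A, ∑ f ∈ A, ∑ k ∈ A, ∑ j ∈ A, ∫ z, gk S a s l 4 (ix e f k j) z ^ 2 ∂(gI ι) ≤
      2 * (cM 4 ^ 2 + cR 4 ^ 2) * B4 := by
  have hS := h.reg
  have x1 := ex4_le (A := A) (a := a) hS hs1 hl (gd_LM hl 4) hB4'
  have x2 := ex4_le (A := A) (a := a) hS hs1 hl (gd_LR hl 4) hB4'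
  have n1 : Nh (X := X) fun z x => ∑ e ∈ A, ∑ f ∈ A, ∑ k ∈ A, ∑ j ∈ A,
      evL S a s (ix e f k j) (LM S l 4) z x ^ 2 :=
    Nh.sum _ fun e _ => Nh.sum _ fun f _ => Nh.sum _ fun k _ => Nh.sum _ fun j _ =>
      Nh.pow (nh_evL hS a s _ _ (gd_LM hl 4).tk) 2
  have n2 : Nh (X := X) fun z x => ∑ e ∈ A, ∑ f ∈ A, ∑ k ∈ A, ∑ j ∈ A,
      evL S a s (ix e f k j) (LR S l 4) z x ^ 2 :=
    Nh.sum _ fun e _ => Nh.sum _ fun f _ => Nh.sum _ fun k _ => Nh.sum _ fun j _ =>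
      Nh.pow (nh_evL hS a s _ _ (gd_LR hl 4).tk) 2
  have n3 : Nh (X := X) fun z x => ∑ e ∈ A, ∑ f ∈ A, ∑ k ∈ A, ∑ j ∈ A,
      wk S a s l 4 (ix e f k j) z x ^ 2 :=
    Nh.sum _ fun e _ => Nh.sum _ fun f _ => Nh.sum _ fun k _ => Nh.sum _ fun j _ =>
      Nh.pow (nh_wk hS hl 4 a s _) 2
  have x3 : S.Ex (fun z x => ∑ e ∈ A, ∑ f ∈ A, ∑ k ∈ A, ∑ j ∈ A,
      wk S a s l 4 (ix e f k j) z x ^ 2) ≤ S.Ex fun z x =>
      2 * (∑ e ∈ A, ∑ f ∈ A, ∑ k ∈ A, ∑ j ∈ A, evL S a s (ix e f k j) (LM S l 4) z x ^ 2) +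
      2 * ∑ e ∈ A, ∑ f ∈ A, ∑ k ∈ A, ∑ j ∈ A,
        evL S a s (ix e f k j) (LR S l 4) z x ^ 2 := by
    refine hS.Ex_mono n3 (Nh.add (Nh.const_mul 2 n1) (Nh.const_mul 2 n2)) fun z x => ?_
    simp only [Finset.mul_sum, ← Finset.sum_add_distrib]
    refine Finset.sum_le_sum fun e _ => Finset.sum_le_sum fun f _ =>
      Finset.sum_le_sum fun k _ => Finset.sum_le_sum fun j _ => ?_
    unfold wk
    nlinarith [sq_nonneg (evL S a s (ix e f k j) (LM S l 4) z x -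
      evL S a s (ix e f k j) (LR S l 4) z x)]
  rw [hS.Ex_add (Nh.const_mul 2 n1) (Nh.const_mul 2 n2), Ex_const_mul, Ex_const_mul] at x3
  rw [sum4_Ex h hl]
  have t1 : tot (LM S l 4) ^ 2 ≤ cM 4 ^ 2 := pow_le_pow_left₀ (tot_nonneg _) (tot_LM l 4) 2
  have t2 : tot (LR S l 4) ^ 2 ≤ cR 4 ^ 2 := by
    refine pow_le_pow_left₀ (tot_nonneg _) ((tot_LR hm hm1 hl 4).trans ?_) 2
    have := mul_le_mul_of_nonneg_left hm1 (cR_nonneg 4)
    linarith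
  have y1 := x1.trans (mul_le_mul_of_nonneg_right t1 B4n)
  have y2 := x2.trans (mul_le_mul_of_nonneg_right t2 B4n)
  linarith

lemma real_cross {m u w : ℝ} (hm0 : 0 < m) {t : ℝ} (ht : t = 1 ∨ t = -1) :
    t * ((u + w) ^ 2 + -1 * u ^ 2) ≤ m * u ^ 2 + (1 / m + 1) * w ^ 2 := by
  have k1 : 0 ≤ m * u ^ 2 + 1 / m * w ^ 2 - 2 * (u * w) := by
    have : m * u ^ 2 + 1 / m * w ^ 2 - 2 * (u * w) = (m * u - w) ^ 2 / m := by
      field_simp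
      ring
    rw [this]
    positivity
  have k2 : 0 ≤ m * u ^ 2 + 1 / m * w ^ 2 + 2 * (u * w) := by
    have : m * u ^ 2 + 1 / m * w ^ 2 + 2 * (u * w) = (m * u + w) ^ 2 / m := by
      field_simp
      ring
    rw [this]
    positivity
  have k3 := sq_nonneg w
  rcases ht with rfl | rfl
  · nlinarith
  · nlinarith

/-- the squares of the main list -/
noncomputable def UU (S : Sy ι X) (a : X → ι → ℝ) (s : X → ℝ) (A : Finset ι) (l : ℕ) : ℝ :=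
  S.Ex fun z x => ∑ e ∈ A, ∑ f ∈ A, ∑ k ∈ A, evL S a s (ix e f k k) (LM S l 3) z x ^ 2

lemma nh_sq3 (hS : S.Reg) {L : List (Tm ι)} {l : ℕ} (hL : Gd S l 3 L) (a : X → ι → ℝ)
    (s : X → ℝ) : Nh (X := X) fun z x => ∑ e ∈ A, ∑ f ∈ A, ∑ k ∈ A,
      evL S a s (ix e f k k) L z x ^ 2 :=
  Nh.sum _ fun e _ => Nh.sum _ fun f _ => Nh.sum _ fun k _ =>
    Nh.pow (nh_evL hS a s _ _ hL.tk) 2

lemma UU_tE (h : LinS S a c) (hs : ∀ x, s x ^ 2 = 1) {l : ℕ} (hl : l ≤ S.K)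
    {φ : X → ι → ℝ} (ha : ∀ x, ∀ e ∈ A, a x e = s x * φ x e) {ρ : ℝ} (hρ : 0 ≤ ρ) {E : ℝ}
    (En : 0 ≤ E)
    (hE : S.pairEx l (fun x y => |CC A φ x y - ρ| ^ 3 + ρ ^ 2 * |CC A φ x y - ρ|) ≤ E)
    (I : ℕ → ι) : |UU S a s A l - ρ ^ 3 * tE S s I l| ≤ cM 3 ^ 2 * (9 / 2 * E) := by
  have hS := h.reg
  have n1 := nh_sq3 (A := A) hS (gd_LM hl 3) a s
  have nT : Nh (X := X) fun z _ => S.T l (tau S s I) z ^ 2 :=
    Nh.fst ((hS.eg_T hl (nh_tau hS s I)).pow 2)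
  have nP := hS.nh_pair hl fun x y => |CC A φ x y - ρ| ^ 3 + ρ ^ 2 * |CC A φ x y - ρ|
  have t1 : tot (LM S l 3) ^ 2 ≤ cM 3 ^ 2 := pow_le_pow_left₀ (tot_nonneg _) (tot_LM l 3) 2
  have p1 : ∀ z x, |(∑ e ∈ A, ∑ f ∈ A, ∑ k ∈ A,
      evL S a s (ix e f k k) (LM S l 3) z x ^ 2) - ρ ^ 3 * S.T l (tau S s I) z ^ 2| ≤
      tot (LM S l 3) ^ 2 * (9 / 2) * pp S l z (fun x y =>
        |CC A φ x y - ρ| ^ 3 + ρ ^ 2 * |CC A φ x y - ρ|) := by
    intro z x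
    rw [T_tau hS hl s I z x, mul_assoc]
    exact symL hS hs hl (gd_LM hl 3) (fun t ht => by
      obtain ⟨t', ht', rfl⟩ := mem_LM ht
      exact cst_L0 3 t' ht') (fun t ht v => cl_LM hl 3 v t ht) ha hρ z x I
  have p2 : UU S a s A l - ρ ^ 3 * tE S s I l = S.Ex fun z x => (∑ e ∈ A, ∑ f ∈ A, ∑ k ∈ A,
      evL S a s (ix e f k k) (LM S l 3) z x ^ 2) + -ρ ^ 3 * S.T l (tau S s I) z ^ 2 := by
    rw [hS.Ex_add n1 (Nh.const_mul _ nT), Ex_const_mul]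
    unfold tE UU
    ring
  have p3 : ∀ t : ℝ, t = 1 ∨ t = -1 → t * (UU S a s A l - ρ ^ 3 * tE S s I l) ≤
      cM 3 ^ 2 * (9 / 2 * E) := by
    intro t ht
    rw [p2, ← Ex_const_mul]
    have q1 : S.Ex (fun z x => t * ((∑ e ∈ A, ∑ f ∈ A, ∑ k ∈ A,
        evL S a s (ix e f k k) (LM S l 3) z x ^ 2) + -ρ ^ 3 * S.T l (tau S s I) z ^ 2)) ≤
        S.Ex fun z _ => tot (LM S l 3) ^ 2 * (9 / 2) * pp S l z (fun x y =>
        |CC A φ x y - ρ| ^ 3 + ρ ^ 2 * |CC A φ x y - ρ|) := by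
      refine hS.Ex_mono (Nh.const_mul t (Nh.add n1 (Nh.const_mul _ nT)))
        (Nh.const_mul _ (Nh.fst nP)) fun z x => ?_
      have r1 := abs_le.1 (p1 z x)
      rcases ht with rfl | rfl
      · linarith [r1.2]
      · linarith [r1.1]
    refine q1.trans ?_
    rw [Ex_const_mul, ← pairEx_eq]
    have r2 := mul_le_mul_of_nonneg_left hE
      (show 0 ≤ tot (LM S l 3) ^ 2 * (9 / 2) by positivity)
    refine r2.trans ?_
    have r3 := mul_le_mul_of_nonneg_right t1 (show 0 ≤ 9 / 2 * E by positivity)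
    linarith
  rw [abs_le]
  constructor
  · have := p3 (-1) (Or.inr rfl); linarith
  · have := p3 1 (Or.inl rfl); linarith

lemma cross_bd (h : LinS S a c) (hm : Mm S) (hm0 : 0 < S.m S.K) (hm1 : S.m S.K ≤ 1)
    (hs1 : ∀ x, |s x| ≤ 1) {l : ℕ} (hl : l ≤ S.K) {B3 : ℝ} (B3n : 0 ≤ B3)
    (hB3' : ∀ i ≤ l, S.pairEx i (fun x y => |CC A a x y| ^ 3) ≤ B3) :
    |∑ e ∈ A, ∑ f ∈ A, ∑ k ∈ A, ∫ z, gk S a s l 3 (ix e f k k) z ^ 2 ∂(gI ι) - UU S a s A l| ≤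
      (cM 3 ^ 2 + 2 * cR 3 ^ 2) * (S.m S.K * B3) := by
  have hS := h.reg
  have n1 := nh_sq3 (A := A) hS (gd_LM hl 3) a s
  have n2 := nh_sq3 (A := A) hS (gd_LR hl 3) a s
  have n3 : Nh (X := X) fun z x => ∑ e ∈ A, ∑ f ∈ A, ∑ k ∈ A,
      wk S a s l 3 (ix e f k k) z x ^ 2 :=
    Nh.sum _ fun e _ => Nh.sum _ fun f _ => Nh.sum _ fun k _ =>
      Nh.pow (nh_wk hS hl 3 a s _) 2
  have x1 := ex3_le (A := A) (a := a) hS hs1 hl (gd_LM hl 3) hB3'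
  have x2 := ex3_le (A := A) (a := a) hS hs1 hl (gd_LR hl 3) hB3'
  have t1 : tot (LM S l 3) ^ 2 ≤ cM 3 ^ 2 := pow_le_pow_left₀ (tot_nonneg _) (tot_LM l 3) 2
  have t2 : tot (LR S l 3) ^ 2 ≤ (cR 3 * S.m S.K) ^ 2 :=
    pow_le_pow_left₀ (tot_nonneg _) (tot_LR hm hm1 hl 3) 2
  have y1 := x1.trans (mul_le_mul_of_nonneg_right t1 B3n)
  have y2 := x2.trans (mul_le_mul_of_nonneg_right t2 B3n)
  rw [sum3_Ex h hl]
  unfold UU
  set m := S.m S.K with hmK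
  have up : ∀ t : ℝ, t = 1 ∨ t = -1 → t * (S.Ex (fun z x => ∑ e ∈ A, ∑ f ∈ A, ∑ k ∈ A,
      wk S a s l 3 (ix e f k k) z x ^ 2) - S.Ex fun z x => ∑ e ∈ A, ∑ f ∈ A, ∑ k ∈ A,
      evL S a s (ix e f k k) (LM S l 3) z x ^ 2) ≤
      m * S.Ex (fun z x => ∑ e ∈ A, ∑ f ∈ A, ∑ k ∈ A,
        evL S a s (ix e f k k) (LM S l 3) z x ^ 2) +
      (1 / m + 1) * S.Ex fun z x => ∑ e ∈ A, ∑ f ∈ A, ∑ k ∈ A,
        evL S a s (ix e f k k) (LR S l 3) z x ^ 2 := by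
    intro t ht
    rw [← Ex_const_mul, ← Ex_const_mul, ← hS.Ex_add (Nh.const_mul _ n1) (Nh.const_mul _ n2)]
    have e2 : ∀ P Q : ℝ, P - Q = P + -1 * Q := fun P Q => by ring
    rw [e2, ← Ex_const_mul, ← hS.Ex_add n3 (Nh.const_mul _ n1), ← Ex_const_mul]
    refine hS.Ex_mono (Nh.const_mul t (Nh.add n3 (Nh.const_mul _ n1)))
      (Nh.add (Nh.const_mul _ n1) (Nh.const_mul _ n2)) fun z x => ?_
    simp only [Finset.mul_sum, ← Finset.sum_add_distrib]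
    refine Finset.sum_le_sum fun e _ => Finset.sum_le_sum fun f _ =>
      Finset.sum_le_sum fun k _ => ?_
    exact real_cross hm0 ht
  set U := S.Ex (fun z x => ∑ e ∈ A, ∑ f ∈ A, ∑ k ∈ A,
      evL S a s (ix e f k k) (LM S l 3) z x ^ 2) with hU
  set W := S.Ex (fun z x => ∑ e ∈ A, ∑ f ∈ A, ∑ k ∈ A,
      evL S a s (ix e f k k) (LR S l 3) z x ^ 2) with hW
  have b1 : m * U + (1 / m + 1) * W ≤ (cM 3 ^ 2 + 2 * cR 3 ^ 2) * (m * B3) := by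
    have f1 : m * U ≤ cM 3 ^ 2 * (m * B3) := by
      have := mul_le_mul_of_nonneg_left y1 hm0.le
      linarith
    have f2 : (1 / m + 1) * W ≤ 2 * cR 3 ^ 2 * (m * B3) := by
      have g1 : 0 ≤ 1 / m + 1 := by positivity
      have g2 := mul_le_mul_of_nonneg_left y2 g1
      refine g2.trans ?_
      have g3 : (1 / m + 1) * ((cR 3 * m) ^ 2 * B3) = (1 + m) * (cR 3 ^ 2 * (m * B3)) := by
        field_simp
      rw [g3]
      have g4 : 0 ≤ cR 3 ^ 2 * (m * B3) := by positivity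
      nlinarith
    linarith
  rw [abs_le]
  constructor
  · have := up (-1) (Or.inr rfl); linarith
  · have := up 1 (Or.inl rfl); linarith

/-- the chaos inequalities for the derivatives `gk` -/
lemma chaos_gk (h : LinS S a c) {l : ℕ} (hl : l ≤ S.K) {ε : ι → ℝ}
    (hA : Mv S.lev l A (Equiv.refl ι) ε) (hε : ∀ e ∈ A, ε e = -1) (hAl : ∀ e ∈ A, S.lev e ≤ l)
    (ho : ∀ z, S.T l (fun _ x => s x) (gz (Equiv.refl ι) ε z) = -S.T l (fun _ x => s x) z)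
    (hV : ∀ z, VL S l (gz (Equiv.refl ι) ε z) = VL S l z)
    {g1 : ι → (ι → ℝ) → ℝ} (hg1 : ∀ e ∈ A, PD e
      (fun z => Real.exp (VL S l z / 2) * S.T l (fun _ x => s x) z) (g1 e)) (I : ℕ → ι) :
    0 ≤ NL S s l A g1 ∧
    ∑ e ∈ A, ∑ f ∈ A, ∑ k ∈ A, ∫ z, gk S a s l 3 (ix e f k k) z ^ 2 ∂(gI ι) -
        ∑ e ∈ A, ∑ f ∈ A, ∑ k ∈ A, ∑ j ∈ A, ∫ z, gk S a s l 4 (ix e f k j) z ^ 2 ∂(gI ι) ≤
      6 * NL S s l A g1 ∧
    6 * NL S s l A g1 ≤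
      ∑ e ∈ A, ∑ f ∈ A, ∑ k ∈ A, ∫ z, gk S a s l 3 (ix e f k k) z ^ 2 ∂(gI ι) +
        6 * ∑ e ∈ A, ∑ f ∈ A, ∑ k ∈ A, ∑ j ∈ A,
          ∫ z, gk S a s l 4 (ix e f k j) z ^ 2 ∂(gI ι) := by
  have hS := h.reg
  set g : (ι → ℝ) → ℝ := fun z => Real.exp (VL S l z / 2) * S.T l (fun _ x => s x) z with hg
  have g0 : ∀ I, gk S a s l 0 I = g := fun I => by
    funext z; exact gk_zero l z
  set G1 : ι → (ι → ℝ) → ℝ := fun e => gk S a s l 1 (ix e e e e) with hG1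
  set G2 : ι → ι → (ι → ℝ) → ℝ := fun e f => gk S a s l 2 (ix e f f f) with hG2
  set G3 : ι → ι → ι → (ι → ℝ) → ℝ := fun e f k => gk S a s l 3 (ix e f k k) with hG3
  set G4 : ι → ι → ι → ι → (ι → ℝ) → ℝ := fun e f k j => gk S a s l 4 (ix e f k j) with hG4
  have H : D3 A g G1 G2 G3 :=
    { e0 := by rw [← g0 I]; exact gk_eg h hl 0
      e1 := fun e _ => gk_eg h hl 1
      e2 := fun e _ f _ => gk_eg h hl 2
      e3 := fun e _ f _ k _ => gk_eg h hl 3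
      d1 := fun e he => by
        have h1 := gk_pd h s (ix e e e e) hl 0 (hAl e he)
        rw [g0] at h1
        exact h1
      d2 := fun e he f hf => by
        have h1 := gk_pd h s (ix e f f f) hl 1 (hAl f hf)
        have e1 : gk S a s l 1 (ix e f f f) = G1 e :=
          gk_congr hl fun v hv => by interval_cases v; rfl
        rw [e1] at h1
        exact h1
      d3 := fun e he f hf k hk => by
        have h1 := gk_pd h s (ix e f k k) hl 2 (hAl k hk)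
        have e1 : gk S a s l 2 (ix e f k k) = G2 e f :=
          gk_congr hl fun v hv => by interval_cases v <;> rfl
        rw [e1] at h1
        exact h1 }
  have d4 : ∀ e ∈ A, ∀ f ∈ A, ∀ k ∈ A, ∀ j ∈ A, PD j (G3 e f k) (G4 e f k j) := by
    intro e he f hf k hk j hj
    have h1 := gk_pd h s (ix e f k j) hl 3 (hAl j hj)
    have e1 : gk S a s l 3 (ix e f k j) = G3 e f k :=
      gk_congr hl fun v hv => by interval_cases v <;> rfl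
    rw [e1] at h1
    exact h1
  have e4 : ∀ e ∈ A, ∀ f ∈ A, ∀ k ∈ A, ∀ j ∈ A, EG (G4 e f k j) :=
    fun e _ f _ k _ j _ => gk_eg h hl 4
  have hdep : Dep S.lev l g := by rw [← g0 I]; exact gk_dep h hl 0
  have hodd : ∀ z, g (gz (Equiv.refl ι) ε z) = -g z := fun z => by
    simp only [hg, ho, hV]
    ring
  obtain ⟨low, upp⟩ := odd_chaos3 hA hε hAl H d4 e4 hdep hodd
  have err := third_err H d4 e4
  have eG1 : ∀ e ∈ A, g1 e = G1 e := fun e he => pd_unique (hg1 e he) (H.d1 e he)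
  have eN : NL S s l A g1 = ∫ z, g z ^ 2 ∂(gI ι) -
      ∑ e ∈ A, ∫ z, J (lvA A) 0 (G1 e) z ^ 2 ∂(gI ι) := by
    unfold NL
    congr 1
    · rw [Ex_eq_VL hS hl ((hS.eg_T hl (Nh.snd s)).pow 2) (fun z w => by
        have := dep_T S l (fun _ x => s x) z w
        simp only [this])]
      congr 1
      funext z
      exact (expV_half l z _).symm
    · exact Finset.sum_congr rfl fun e he => by rw [eG1 e he]
  have jen : ∑ e ∈ A, ∑ f ∈ A, ∑ k ∈ A, ∫ z, J (lvA A) 0 (G3 e f k) z ^ 2 ∂(gI ι) ≤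
      ∑ e ∈ A, ∑ f ∈ A, ∑ k ∈ A, ∫ z, G3 e f k z ^ 2 ∂(gI ι) := by
    refine Finset.sum_le_sum fun e he => Finset.sum_le_sum fun f hf =>
      Finset.sum_le_sum fun k hk => ?_
    rw [← integral_J ((H.e3 e he f hf k hk).pow 2) (lev := lvA A) (l := 0)]
    exact integral_mono (((H.e3 e he f hf k hk).J _ _).pow 2).integrable
      (((H.e3 e he f hf k hk).pow 2).J _ _).integrable fun z => cc_sq_J_le (H.e3 e he f hf k hk) z
  have hQ : 0 ≤ ∑ e ∈ A, ∑ f ∈ A, ∑ k ∈ A, ∫ z, J (lvA A) 0 (G3 e f k) z ^ 2 ∂(gI ι) :=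
    Finset.sum_nonneg fun e _ => Finset.sum_nonneg fun f _ => Finset.sum_nonneg fun k _ =>
      integral_nonneg fun z => sq_nonneg _
  simp only [Finset.sum_sub_distrib] at err
  rw [eN]
  refine ⟨?_, ?_, ?_⟩
  · linarith
  · linarith
  · linarith

/-- **The third chaos at one level.** -/
theorem one_level (h : LinS S a c) (hm : Mm S) (hm0 : 0 < S.m S.K) (hm1 : S.m S.K ≤ 1)
    (hs : ∀ x, s x ^ 2 = 1) {l : ℕ} (hl : l ≤ S.K) {ε : ι → ℝ}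
    (hA : Mv S.lev l A (Equiv.refl ι) ε) (hε : ∀ e ∈ A, ε e = -1) (hAl : ∀ e ∈ A, S.lev e ≤ l)
    (ho : ∀ z, S.T l (fun _ x => s x) (gz (Equiv.refl ι) ε z) = -S.T l (fun _ x => s x) z)
    (hV : ∀ z, VL S l (gz (Equiv.refl ι) ε z) = VL S l z)
    {φ : X → ι → ℝ} (ha : ∀ x, ∀ e ∈ A, a x e = s x * φ x e) {ρ : ℝ} (hρ : 0 ≤ ρ)
    {g1 : ι → (ι → ℝ) → ℝ} (hg1 : ∀ e ∈ A, PD e
      (fun z => Real.exp (VL S l z / 2) * S.T l (fun _ x => s x) z) (g1 e)) {B3 B4 E : ℝ}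
    (hB : Bs S l (CC A φ) ρ B3 B4 E) (I : ℕ → ι) :
    |6 * NL S s l A g1 - ρ ^ 3 * tE S s I l| ≤
      1200000000 * (E + S.m S.K * B3 + B4) := by
  have hS := h.reg
  have hs1 : ∀ x, |s x| ≤ 1 := fun x => by
    rw [abs_le_one_iff_mul_self_le_one, ← sq, hs x]
  have hsa : ∀ x, |s x| = 1 := fun x => by
    have := hs x
    rw [← sq_abs] at this
    nlinarith [abs_nonneg (s x)]
  have c3 : ∀ x y, |CC A a x y| ^ 3 = |CC A φ x y| ^ 3 := fun x y => by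
    rw [CC_mul ha, abs_mul, abs_mul, hsa, hsa]
    ring
  have c4 : ∀ x y, CC A a x y ^ 4 = CC A φ x y ^ 4 := fun x y => by
    have e4 : s x ^ 4 = 1 := by rw [show (4 : ℕ) = 2 * 2 from rfl, pow_mul, hs]; ring
    have e5 : s y ^ 4 = 1 := by rw [show (4 : ℕ) = 2 * 2 from rfl, pow_mul, hs]; ring
    rw [CC_mul ha, mul_pow, mul_pow, e4, e5]
    ring
  have hB3' : ∀ i ≤ l, S.pairEx i (fun x y => |CC A a x y| ^ 3) ≤ B3 := fun i hi => by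
    simp only [c3]; exact hB.h3 i hi
  have hB4' : ∀ i ≤ l, S.pairEx i (fun x y => CC A a x y ^ 4) ≤ B4 := fun i hi => by
    simp only [c4]; exact hB.h4 i hi
  have B3n : 0 ≤ B3 := (hS.pairEx_nonneg hl fun x y => by positivity).trans (hB.h3 l le_rfl)
  have B4n : 0 ≤ B4 := (hS.pairEx_nonneg hl fun x y => by positivity).trans (hB.h4 l le_rfl)
  have En : 0 ≤ E := (hS.pairEx_nonneg hl fun x y => by positivity).trans hB.hE
  obtain ⟨_, low, upp⟩ := chaos_gk h hl hA hε hAl ho hV hg1 I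
  have b4 := four_bd (A := A) (s := s) h hm hm1 hs1 hl B4n hB4'
  have b3 := cross_bd (A := A) (s := s) h hm hm0 hm1 hs1 hl B3n hB3'
  have bE := UU_tE (A := A) h hs hl ha hρ En hB.hE I
  have vM3 : cM 3 = 48 := by norm_num [cM]
  have vM4 : cM 4 = 384 := by norm_num [cM]
  have vR3 : cR 3 = 537 := by norm_num [cR, cM]
  have vR4 : cR 4 = 9561 := by norm_num [cR, cM]
  rw [vM3, vR3] at b3
  rw [vM4, vR4] at b4
  rw [vM3] at bE
  have mB : 0 ≤ S.m S.K * B3 := mul_nonneg hm0.le B3n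
  obtain ⟨b3a, b3b⟩ := abs_le.1 b3
  obtain ⟨bEa, bEb⟩ := abs_le.1 bE
  rw [abs_le]
  constructor
  · linarith
  · linarith

end Vale.Agent.P146.H508
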