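import Vale.Agent.P146.H508.Der

/-!
# P146: the main list and the rest list of the derivatives of `e^{V/2} T_l s` (helper508)
-/

open MeasureTheory ProbabilityTheory

namespace Vale.Agent.P146.H508

open Vale.Agent.P157 Vale.Agent.P157.Lv Vale.Agent.P157.Lv.Sy
open Vale.Agent.P146.H425 Vale.Agent.P146.H93 Vale.Agent.P146.H985

set_option linter.unusedSectionVars false

variable {ι X : Type} [Fintype ι] [DecidableEq ι] [Fintype X] [Nonempty X]
  {S : Sy ι X} {a : X → ι → ℝ} {c : X → ℝ} {s : X → ℝ} {I : ℕ → ι}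

/-- the main part of the derivative, without the restriction on the levels -/
def mc (S : Sy ι X) (v : ℕ) : Mo → List (Tm ι)
  | Mo.sp => []
  | Mo.D _ => []
  | Mo.mul M N => (mc S v M).map (fun t => t.mp fun M' => Mo.mul M' N) ++
      (mc S v N).map (fun t => t.mp (Mo.mul M))
  | Mo.T j M => (mc S v M).map (fun t => t.mp (Mo.T j)) ++ lm S v j M

lemma evL_mc' {l v : ℕ} (hv : S.lev (I v) ≤ l) (z : ι → ℝ) (x : X) : ∀ M : Mo, Inn l M →
    ∀ f : Mo → Mo, evL S a s I ((mm S v M).map fun t => t.mp f) z x =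
      evL S a s I ((mc S v M).map fun t => t.mp f) z x
  | Mo.sp, _, f => rfl
  | Mo.D _, _, f => rfl
  | Mo.mul M N, h, f => by
    have h1 := evL_mc' hv z x M h.1 fun M' => f (Mo.mul M' N)
    have h2 := evL_mc' hv z x N h.2 fun N' => f (Mo.mul M N')
    have e1 : (fun t : Tm ι => t.mp f) ∘ (fun t : Tm ι => t.mp fun M' => Mo.mul M' N) =
      fun t : Tm ι => t.mp fun M' => f (Mo.mul M' N) := rfl
    have e2 : (fun t : Tm ι => t.mp f) ∘ (fun t : Tm ι => t.mp (Mo.mul M)) =
      fun t : Tm ι => t.mp fun N' => f (Mo.mul M N') := rfl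
    simp only [mm, mc, List.map_append, List.map_map, evL_append, e1, e2, h1, h2]
  | Mo.T j M, h, f => by
    have h1 := evL_mc' hv z x M h.2 fun M' => f (Mo.T j M')
    have e1 : (fun t : Tm ι => t.mp f) ∘ (fun t : Tm ι => Tm.cut S.lev v j t) ∘
      (fun t : Tm ι => t.mp (Mo.T j)) =
      (fun t : Tm ι => Tm.cut S.lev v j t) ∘ fun t : Tm ι => t.mp fun M' => f (Mo.T j M') := rfl
    have e2 : (fun t : Tm ι => t.mp f) ∘ (fun t : Tm ι => Tm.cut S.lev v j t) =
      (fun t : Tm ι => Tm.cut S.lev v j t) ∘ fun t : Tm ι => t.mp f := rfl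
    have e3 : (fun t : Tm ι => t.mp f) ∘ (fun t : Tm ι => t.mp (Mo.T j)) =
      fun t : Tm ι => t.mp fun M' => f (Mo.T j M') := rfl
    simp only [mm, mc, List.map_append, List.map_map, evL_append, e1, e2, e3]
    rw [← List.map_map (f := fun t : Tm ι => t.mp fun M' => f (Mo.T j M')),
      ← List.map_map (f := fun t : Tm ι => t.mp f), evL_cut, evL_cut, if_pos (hv.trans h.1),
      if_pos (hv.trans h.1), h1]

lemma evL_mc {l v : ℕ} (hv : S.lev (I v) ≤ l) (z : ι → ℝ) (x : X) {M : Mo} (h : Inn l M) :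
    evL S a s I (mm S v M) z x = evL S a s I (mc S v M) z x := by
  have h1 := evL_mc' (a := a) (s := s) hv z x M h id
  have e : ∀ L : List (Tm ι), (L.map fun t => t.mp id) = L := fun L => by
    have : (fun t : Tm ι => t.mp id) = id := rfl
    rw [this, List.map_id]
  rwa [e, e] at h1

/-- the direct terms without the outer average -/
def dr (S : Sy ι X) (v : ℕ) (M : Mo) : List (Tm ι) :=
  [Tm.cst 1 (Mo.mul M (Mo.D v)), Tm.cst (-1) (Mo.mul M (Mo.T S.K (Mo.D v)))]

/-- the main list without the outer average -/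
def L0 (S : Sy ι X) : ℕ → List (Tm ι)
  | 0 => [Tm.cst 1 Mo.sp]
  | k + 1 => bd (L0 S k) (fun M => mc S k M ++ dr S k M) snd'

/-- the main list -/
def LM (S : Sy ι X) (l k : ℕ) : List (Tm ι) := (L0 S k).map fun t => t.mp (Mo.T l)

/-- the rest list -/
noncomputable def LR (S : Sy ι X) (l : ℕ) : ℕ → List (Tm ι)
  | 0 => []
  | k + 1 => bd (LM S l k) (rr S k) snd' ++ (bd (LR S l k) (mm S k) snd' ++
      (bd (LR S l k) (rr S k) snd' ++ bd (LM S l k ++ LR S l k) (fun _ => uL S l k) Mo.mul))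

/-- the coefficients do not depend on the coordinates -/
def Cst (L : List (Tm ι)) : Prop := ∀ t ∈ L, ∀ I I' : ℕ → ι, t.c I = t.c I'

lemma cst_mc (v : ℕ) : ∀ M : Mo, Cst (mc S v M)
  | Mo.sp => fun t ht => by simp [mc] at ht
  | Mo.D _ => fun t ht => by simp [mc] at ht
  | Mo.mul M N => fun t ht => by
    simp only [mc, List.mem_append, List.mem_map] at ht
    rcases ht with ⟨t', ht', rfl⟩ | ⟨t', ht', rfl⟩
    · exact cst_mc v M t' ht'
    · exact cst_mc v N t' ht'
  | Mo.T j M => fun t ht => by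
    simp only [mc, List.mem_append, List.mem_map, lm, List.mem_cons, List.not_mem_nil,
      or_false] at ht
    rcases ht with ⟨t', ht', rfl⟩ | rfl | rfl
    · exact cst_mc v M t' ht'
    · exact fun _ _ => rfl
    · exact fun _ _ => rfl

lemma cst_dr (v : ℕ) (M : Mo) : Cst (dr S v M) := fun t ht => by
  simp only [dr, List.mem_cons, List.not_mem_nil, or_false] at ht
  rcases ht with rfl | rfl
  · exact fun _ _ => rfl
  · exact fun _ _ => rfl

lemma cst_L0 : ∀ k : ℕ, Cst (L0 S k)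
  | 0 => fun t ht => by
    simp only [L0, List.mem_cons, List.not_mem_nil, or_false] at ht
    rw [ht]; exact fun _ _ => rfl
  | k + 1 => fun u hu I I' => by
    obtain ⟨t, ht, t', ht', rfl⟩ := mem_bd.1 hu
    rw [Tm.tm_c, Tm.tm_c, cst_L0 k t ht I I']
    congr 1
    rcases List.mem_append.1 ht' with h | h
    · exact cst_mc k t.M t' h I I'
    · exact cst_dr k t.M t' h I I'

/-- the properties of the terms without the outer average -/
structure Dt0 (S : Sy ι X) (v : ℕ) (M : Mo) (t : Tm ι) : Prop where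
  lab : lab t.M = insert v (lab M)
  lin : Lin t.M
  nt : nt t.M ≤ nt M + 1
  tk : tk S.K M → tk S.K t.M
  inn : ∀ l ≤ S.K, Inn l M → Inn l t.M

lemma Dt0.mul_left {v : ℕ} {M N : Mo} (hv : v ∉ H508.lab N)
    (hd : Disjoint (H508.lab M) (H508.lab N)) (hN : Lin N) {t : Tm ι} (h : Dt0 S v M t) :
    Dt0 S v (Mo.mul M N) (t.mp fun M' => Mo.mul M' N) where
  lab := by
    show H508.lab t.M ∪ H508.lab N = _
    rw [h.lab, Finset.insert_union]
    rfl
  lin := ⟨by
    rw [h.lab, Finset.disjoint_insert_left]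
    exact ⟨hv, hd⟩, h.lin, hN⟩
  nt := by
    show H508.nt t.M + H508.nt N ≤ H508.nt M + H508.nt N + 1
    have := h.nt
    omega
  tk := fun hk => ⟨h.tk hk.1, hk.2⟩
  inn := fun l hl h' => ⟨h.inn l hl h'.1, h'.2⟩

lemma Dt0.mul_right {v : ℕ} {M N : Mo} (hv : v ∉ H508.lab M)
    (hd : Disjoint (H508.lab M) (H508.lab N)) (hM : Lin M) {t : Tm ι} (h : Dt0 S v N t) :
    Dt0 S v (Mo.mul M N) (t.mp (Mo.mul M)) where
  lab := by
    show H508.lab M ∪ H508.lab t.M = _
    rw [h.lab, Finset.union_insert]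
    rfl
  lin := ⟨by
    rw [h.lab, Finset.disjoint_insert_right]
    exact ⟨hv, hd⟩, hM, h.lin⟩
  nt := by
    show H508.nt M + H508.nt t.M ≤ H508.nt M + H508.nt N + 1
    have := h.nt
    omega
  tk := fun hk => ⟨hk.1, h.tk hk.2⟩
  inn := fun l hl h' => ⟨h'.1, h.inn l hl h'.2⟩

lemma Dt0.T {v j : ℕ} {M : Mo} {t : Tm ι} (h : Dt0 S v M t) :
    Dt0 S v (Mo.T j M) (t.mp (Mo.T j)) where
  lab := h.lab
  lin := h.lin
  nt := by
    show H508.nt t.M + 1 ≤ H508.nt M + 1 + 1
    have := h.nt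
    omega
  tk := fun hk => ⟨hk.1, h.tk hk.2⟩
  inn := fun l hl h' => ⟨h'.1, h.inn l hl h'.2⟩

lemma dt0_dr {v : ℕ} {M : Mo} (hv : v ∉ lab M) (hM : Lin M) : ∀ t ∈ dr S v M, Dt0 S v M t := by
  intro t ht
  simp only [dr, List.mem_cons, List.not_mem_nil, or_false] at ht
  rcases ht with rfl | rfl
  · exact
      { lab := by
          show H508.lab M ∪ {v} = _
          rw [Finset.union_comm]; rfl
        lin := ⟨Finset.disjoint_singleton_right.2 hv, hM, trivial⟩
        nt := by
          show H508.nt M + 0 ≤ H508.nt M + 1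
          omega
        tk := fun hk => ⟨hk, trivial⟩
        inn := fun l _ h' => ⟨h', trivial⟩ }
  · exact
      { lab := by
          show H508.lab M ∪ {v} = _
          rw [Finset.union_comm]; rfl
        lin := ⟨Finset.disjoint_singleton_right.2 hv, hM, trivial⟩
        nt := by
          show H508.nt M + (0 + 1) ≤ H508.nt M + 1
          omega
        tk := fun hk => ⟨hk, le_rfl, trivial⟩
        inn := fun l hl h' => ⟨h', hl, trivial⟩ }

lemma dt0_mc (v : ℕ) : ∀ M : Mo, v ∉ lab M → Lin M → ∀ t ∈ mc S v M, Dt0 S v M t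
  | Mo.sp, _, _, t, ht => by simp [mc] at ht
  | Mo.D _, _, _, t, ht => by simp [mc] at ht
  | Mo.mul M N, hv, hl, t, ht => by
    have hv' : v ∉ lab M ∧ v ∉ lab N := by simpa [lab] using hv
    simp only [mc, List.mem_append, List.mem_map] at ht
    rcases ht with ⟨t', ht', rfl⟩ | ⟨t', ht', rfl⟩
    · exact (dt0_mc v M hv'.1 hl.2.1 t' ht').mul_left hv'.2 hl.1 hl.2.2
    · exact (dt0_mc v N hv'.2 hl.2.2 t' ht').mul_right hv'.1 hl.1 hl.2.1
  | Mo.T j M, hv, hl, t, ht => by
    simp only [mc, List.mem_map, List.mem_append] at ht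
    rcases ht with ⟨t2, h2, rfl⟩ | h2
    · exact (dt0_mc v M hv hl t2 h2).T
    · have e : lm S v j M = (dr S v M).map fun t => t.mp (Mo.T j) := rfl
      rw [e, List.mem_map] at h2
      obtain ⟨t3, h3, rfl⟩ := h2
      exact (dt0_dr (M := M) hv hl t3 h3).T

/-- the terms of the list `L0` -/
structure G0 (S : Sy ι X) (k : ℕ) (M : Mo) : Prop where
  tk : tk S.K M
  inn : ∀ l ≤ S.K, Inn l M
  lin : Lin M
  lab : lab M = Finset.range k
  nt : nt M ≤ k

lemma g0_L0 : ∀ k : ℕ, ∀ t ∈ L0 S k, G0 S k t.M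
  | 0 => fun t ht => by
    simp only [L0, List.mem_cons, List.not_mem_nil, or_false] at ht
    rw [ht]
    exact ⟨trivial, fun _ _ => trivial, trivial, rfl, le_rfl⟩
  | k + 1 => fun u hu => by
    obtain ⟨t, ht, t', ht', rfl⟩ := mem_bd.1 hu
    have h := g0_L0 k t ht
    have hk : k ∉ H508.lab t.M := by rw [h.lab]; simp
    have h1 : Dt0 S k t.M t' := by
      rcases List.mem_append.1 ht' with h2 | h2
      · exact dt0_mc k t.M hk h.lin t' h2
      · exact dt0_dr hk h.lin t' h2
    exact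
      { tk := h1.tk h.tk
        inn := fun l hl => h1.inn l hl (h.inn l hl)
        lin := h1.lin
        lab := by
          show H508.lab t'.M = _
          rw [h1.lab, h.lab, Finset.range_add_one]
        nt := h1.nt.trans (Nat.succ_le_succ h.nt) }

lemma mem_LM {l k : ℕ} {t : Tm ι} (ht : t ∈ LM S l k) : ∃ t' ∈ L0 S k, t = t'.mp (Mo.T l) := by
  obtain ⟨t', h, rfl⟩ := List.mem_map.1 ht
  exact ⟨t', h, rfl⟩

lemma gd_LM {l : ℕ} (hl : l ≤ S.K) (k : ℕ) : Gd S l k (LM S l k) where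
  tk := fun t ht => by
    obtain ⟨t', h, rfl⟩ := mem_LM ht
    exact ⟨hl, (g0_L0 k t' h).tk⟩
  out := fun t ht => by
    obtain ⟨t', h, rfl⟩ := mem_LM ht
    exact le_refl l
  lin := fun t ht => by
    obtain ⟨t', h, rfl⟩ := mem_LM ht
    exact (g0_L0 k t' h).lin
  lab := fun t ht => by
    obtain ⟨t', h, rfl⟩ := mem_LM ht
    exact (g0_L0 k t' h).lab
  nt := fun t ht => by
    obtain ⟨t', h, rfl⟩ := mem_LM ht
    exact Nat.succ_le_succ (g0_L0 k t' h).nt
  dp := fun t ht I I' _ => by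
    obtain ⟨t', h, rfl⟩ := mem_LM ht
    exact cst_L0 k t' h I I'

lemma cl_LM {l : ℕ} (hl : l ≤ S.K) (k v : ℕ) : ∀ t ∈ LM S l k, cl t.M v = some l := by
  intro t ht
  obtain ⟨t', h, rfl⟩ := mem_LM ht
  exact ((g0_L0 k t' h).inn l hl).cl_T v

lemma inn_LM {l : ℕ} (hl : l ≤ S.K) (k : ℕ) : ∀ t ∈ LM S l k, Inn l t.M := by
  intro t ht
  obtain ⟨t', h, rfl⟩ := mem_LM ht
  exact ⟨le_rfl, (g0_L0 k t' h).inn l hl⟩

lemma gd_LR {l : ℕ} (hl : l ≤ S.K) : ∀ k : ℕ, Gd S l k (LR S l k)
  | 0 => Gd.nil S l 0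
  | k + 1 => (gd_LM hl k).rrL.append ((gd_LR hl k).mmL.append ((gd_LR hl k).rrL.append
      (((gd_LM hl k).append (gd_LR hl k)).pL hl)))

/-! ### The total coefficients -/

lemma tot_mc (v : ℕ) : ∀ M : Mo, tot (mc S v M) ≤ 2 * nt M
  | Mo.sp => by simp [mc, nt]
  | Mo.D _ => by simp [mc, nt]
  | Mo.mul M N => by
    simp only [mc, tot_append, tot_mp, nt]
    have h1 := tot_mc v M
    have h2 := tot_mc v N
    push_cast
    linarith
  | Mo.T j M => by
    simp only [mc, tot_append, tot_mp, nt, tot_lm]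
    have h1 := tot_mc v M
    push_cast
    linarith

lemma tot_dr (v : ℕ) (M : Mo) : tot (dr S v M) = 2 := by
  simp only [dr, tot_cons, tot_nil, Tm.cst_r, abs_one, abs_neg]
  norm_num

/-- the bounds of the total coefficients of the main list -/
def cM : ℕ → ℝ
  | 0 => 1
  | k + 1 => cM k * (2 * (k + 1))

/-- the bounds of the total coefficients of the rest list -/
def cR : ℕ → ℝ
  | 0 => 0
  | k + 1 => cM k * (2 * (k + 1)) + cR k * (2 * (k + 1)) + cR k * (2 * (k + 1)) + (cM k + cR k)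

lemma cM_nonneg : ∀ k, 0 ≤ cM k
  | 0 => zero_le_one
  | k + 1 => mul_nonneg (cM_nonneg k) (by positivity)

lemma cR_nonneg : ∀ k, 0 ≤ cR k
  | 0 => le_rfl
  | k + 1 => by
    have h1 := cM_nonneg k
    have h2 := cR_nonneg k
    unfold cR
    positivity

lemma tot_L0 : ∀ k : ℕ, tot (L0 S k) ≤ cM k
  | 0 => by simp [L0, cM]
  | k + 1 => by
    have h1 : tot (L0 S (k + 1)) ≤ tot (L0 S k) * (2 * (k + 1)) := by
      refine tot_bd_le _ fun t ht => ?_
      have h2 := (g0_L0 k t ht).nt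
      have h3 := tot_mc (S := S) k t.M
      rw [tot_append, tot_dr]
      have h4 : (nt t.M : ℝ) ≤ k := by exact_mod_cast h2
      linarith
    exact h1.trans (mul_le_mul_of_nonneg_right (tot_L0 k) (by positivity))

lemma tot_LM (l k : ℕ) : tot (LM S l k) ≤ cM k := by
  unfold LM
  rw [tot_mp]
  exact tot_L0 k

lemma tot_LR (h : Mm S) (h1 : S.m S.K ≤ 1) {l : ℕ} (hl : l ≤ S.K) : ∀ k : ℕ,
    tot (LR S l k) ≤ cR k * S.m S.K
  | 0 => by simp [LR, cR]
  | k + 1 => by
    have hm := h.nn (j := S.K) (by omega)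
    have ih := tot_LR h h1 hl k
    have hM := tot_LM (S := S) l k
    have n1 := tot_nonneg (LR S l k)
    have n2 := tot_nonneg (LM S l k)
    have e1 : tot (bd (LM S l k) (rr S k) snd') ≤ tot (LM S l k) * (2 * (k + 1) * S.m S.K) := by
      refine tot_bd_le _ fun t ht => ?_
      have h2 := (gd_LM hl k).nt t ht
      have h3 := tot_rr h k t.M
      have h4 : (nt t.M : ℝ) ≤ k + 1 := by exact_mod_cast h2
      refine h3.trans ?_
      have := mul_le_mul_of_nonneg_left h4 (show 0 ≤ 2 * S.m S.K by positivity)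
      linarith
    have e2 : tot (bd (LR S l k) (mm S k) snd') ≤ tot (LR S l k) * (2 * (k + 1)) := by
      refine tot_bd_le _ fun t ht => ?_
      have h2 := (gd_LR hl k).nt t ht
      have h3 := tot_mm (S := S) k t.M
      have h4 : (nt t.M : ℝ) ≤ k + 1 := by exact_mod_cast h2
      linarith
    have e3 : tot (bd (LR S l k) (rr S k) snd') ≤ tot (LR S l k) * (2 * (k + 1)) := by
      refine tot_bd_le _ fun t ht => ?_
      have h2 := (gd_LR hl k).nt t ht
      have h3 := tot_rr h k t.M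
      have h4 : (nt t.M : ℝ) ≤ k + 1 := by exact_mod_cast h2
      refine h3.trans ?_
      have h5 : (0 : ℝ) ≤ nt t.M := Nat.cast_nonneg _
      nlinarith
    have e4 : tot (bd (LM S l k ++ LR S l k) (fun _ => uL S l k) Mo.mul) ≤
        tot (LM S l k ++ LR S l k) * S.m S.K :=
      tot_bd_le _ fun t ht => tot_uL h hl k
    rw [tot_append] at e4
    simp only [LR, tot_append]
    have k0 : (0 : ℝ) ≤ 2 * (k + 1) := by positivity
    have f1 : tot (LM S l k) * (2 * (k + 1) * S.m S.K) ≤ cM k * (2 * (k + 1)) * S.m S.K := by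
      rw [mul_assoc (cM k)]
      exact mul_le_mul_of_nonneg_right hM (by positivity)
    have f2 : tot (LR S l k) * (2 * (k + 1)) ≤ cR k * (2 * (k + 1)) * S.m S.K := by
      have := mul_le_mul_of_nonneg_right ih k0
      linarith
    have f3 : (tot (LM S l k) + tot (LR S l k)) * S.m S.K ≤ (cM k + cR k) * S.m S.K := by
      refine mul_le_mul_of_nonneg_right (add_le_add hM (ih.trans ?_)) hm
      have := mul_le_mul_of_nonneg_left h1 (cR_nonneg k)
      linarith
    have e0 : cR (k + 1) = cM k * (2 * (k + 1)) + cR k * (2 * (k + 1)) + cR k * (2 * (k + 1)) +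
      (cM k + cR k) := rfl
    rw [e0]
    linarith

/-! ### The derivatives -/

lemma bd_congr_ev {F G : Mo → List (Tm ι)} (z : ι → ℝ) (x : X) {L : List (Tm ι)}
    (h : ∀ t ∈ L, evL S a s I (F t.M) z x = evL S a s I (G t.M) z x) :
    evL S a s I (bd L F snd') z x = evL S a s I (bd L G snd') z x := by
  rw [evL_bd_snd, evL_bd_snd]
  congr 1
  exact List.map_congr_left fun t ht => by rw [h t ht]

/-- the next main list -/
lemma evL_LM_succ {l : ℕ} (hl : l ≤ S.K) (k : ℕ) (hv : S.lev (I k) ≤ l) (z : ι → ℝ) (x : X) :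
    evL S a s I (bd (LM S l k) (mm S k) snd') z x = evL S a s I (LM S l (k + 1)) z x := by
  rw [bd_congr_ev z x fun t ht => evL_mc hv z x (inn_LM hl k t ht)]
  have key : ∀ L : List (Tm ι), bd (L.map fun t => t.mp (Mo.T l)) (mc S k) snd' =
      (bd L (fun M => mc S k M ++ dr S k M) snd').map fun t => t.mp (Mo.T l) := by
    intro L
    induction L with
    | nil => rfl
    | cons t L ih =>
      rw [List.map_cons, bd_cons, bd_cons, List.map_append, ih]
      congr 1
      rw [List.map_map]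
      have e : mc S k (t.mp (Mo.T l)).M = (mc S k t.M ++ dr S k t.M).map fun t => t.mp (Mo.T l) := by
        rw [List.map_append]
        rfl
      rw [e, List.map_map]
      rfl
  have h1 := key (L0 S k)
  show evL S a s I (bd ((L0 S k).map fun t => t.mp (Mo.T l)) (mc S k) snd') z x = _
  rw [h1]
  rfl

/-- the derivatives of `e^{V/2} T_l s` -/
noncomputable def gk (S : Sy ι X) (a : X → ι → ℝ) (s : X → ℝ) (l k : ℕ) (I : ℕ → ι)
    (z : ι → ℝ) : ℝ :=
  Real.exp (VL S l z / 2) * (evL S a s I (LM S l k) z (Classical.arbitrary X) +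
    evL S a s I (LR S l k) z (Classical.arbitrary X))

lemma gk_zero (l : ℕ) (z : ι → ℝ) : gk S a s l 0 I z =
    Real.exp (VL S l z / 2) * S.T l (fun _ x => s x) z := by
  unfold gk LM LR L0
  simp [ev]

lemma gk_congr {l k : ℕ} (hl : l ≤ S.K) {I I' : ℕ → ι} (h : ∀ v < k, I v = I' v) :
    gk S a s l k I = gk S a s l k I' := by
  funext z
  unfold gk
  rw [(gd_LM hl k).congr h, (gd_LR hl k).congr h]

lemma gk_eg (h : LinS S a c) {l : ℕ} (hl : l ≤ S.K) (k : ℕ) : EG (gk S a s l k I) := by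
  have hS := h.reg
  have h1 : EG fun z => Real.exp (VL S l z / 2) := by
    have := (VL_lip hS hl).exp_eg (1 / 2)
    refine this.mono (by
      have := this.meas
      have e : (fun z => Real.exp (VL S l z / 2)) = fun z => Real.exp (1 / 2 * VL S l z) := by
        funext z; ring_nf
      rw [e]; exact this) fun y => le_of_eq (by ring_nf)
  exact h1.mul (((gd_LM hl k).eg hS _).add ((gd_LR hl k).eg hS _))

lemma gk_dep (h : LinS S a c) {l : ℕ} (hl : l ≤ S.K) (k : ℕ) : Dep S.lev l (gk S a s l k I) := by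
  intro z w
  unfold gk
  rw [VL_dep h.reg hl z w]
  have h1 := (gd_LM (S := S) hl k).dep (a := a) (s := s) (I := I) (Classical.arbitrary X) z w
  have h2 := (gd_LR (S := S) hl k).dep (a := a) (s := s) (I := I) (Classical.arbitrary X) z w
  simp only at h1 h2
  rw [h1, h2]

theorem gk_pd (h : LinS S a c) (s : X → ℝ) (I : ℕ → ι) {l : ℕ} (hl : l ≤ S.K) (k : ℕ)
    (hv : S.lev (I k) ≤ l) : PD (I k) (gk S a s l k I) (gk S a s l (k + 1) I) := by
  have h1 := pd_exp h s I hl k hv (Classical.arbitrary X) (LM S l k ++ LR S l k)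
    fun t ht => ((gd_LM hl k).append (gd_LR hl k)).tk t ht
  have e0 : gk S a s l k I = fun z => Real.exp (VL S l z / 2) *
      evL S a s I (LM S l k ++ LR S l k) z (Classical.arbitrary X) := by
    funext z
    unfold gk
    rw [evL_append]
  rw [e0]
  refine h1.congr fun z => ?_
  unfold gk
  have b1 : ∀ (L L' : List (Tm ι)) (F : Mo → List (Tm ι)) (f : Mo → Mo → Mo),
      bd (L ++ L') F f = bd L F f ++ bd L' F f := fun L L' F f => by
    simp [bd]
  rw [← evL_LM_succ hl k hv]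
  have e1 : LR S l (k + 1) = bd (LM S l k) (rr S k) snd' ++ (bd (LR S l k) (mm S k) snd' ++
      (bd (LR S l k) (rr S k) snd' ++ bd (LM S l k ++ LR S l k) (fun _ => uL S l k) Mo.mul)) := rfl
  rw [e1]
  simp only [b1, evL_append]
  ring

end Vale.Agent.P146.H508
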