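import Vale.Agent.P146.H93.Tl0
import Vale.Agent.P146.H985.OddP

/-!
# P146: monomials of nested averages and their derivatives (helper508)

`Mo` = expressions built from the spin `s x`, the coefficients `a x (I v)` (`v` a label, `I v` the
coordinate), products and the averages `S.T j`.  The derivative in the coordinate `I v` is a list
of monomials: the main list `mm` (coefficients `±1`) and the rest `rr` (coefficients bounded by the
exponents).
-/

open MeasureTheory ProbabilityTheory

namespace Vale.Agent.P146.H508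

open Vale.Agent.P157 Vale.Agent.P157.Lv Vale.Agent.P157.Lv.Sy
open Vale.Agent.P146.H425 Vale.Agent.P146.H93 Vale.Agent.P146.H985

set_option linter.unusedSectionVars false

variable {ι X : Type} [Fintype ι] [DecidableEq ι] [Fintype X] [Nonempty X]
  {S : Sy ι X} {a : X → ι → ℝ} {c : X → ℝ} {s : X → ℝ} {I : ℕ → ι}

/-- the monomials -/
inductive Mo : Type
  | sp : Mo
  | D : ℕ → Mo
  | mul : Mo → Mo → Mo
  | T : ℕ → Mo → Mo

/-- the value of a monomial -/
noncomputable def ev (S : Sy ι X) (a : X → ι → ℝ) (s : X → ℝ) (I : ℕ → ι) :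
    Mo → (ι → ℝ) → X → ℝ
  | Mo.sp => fun _ x => s x
  | Mo.D v => fun _ x => a x (I v)
  | Mo.mul M N => fun z x => ev S a s I M z x * ev S a s I N z x
  | Mo.T j M => fun z _ => S.T j (ev S a s I M) z

/-- all averages have an index at most `K` -/
def tk (K : ℕ) : Mo → Prop
  | Mo.sp => True
  | Mo.D _ => True
  | Mo.mul M N => tk K M ∧ tk K N
  | Mo.T j M => j ≤ K ∧ tk K M

lemma nh_ev (hS : S.Reg) (a : X → ι → ℝ) (s : X → ℝ) (I : ℕ → ι) :
    ∀ M : Mo, tk S.K M → Nh (ev S a s I M)
  | Mo.sp, _ => Nh.snd s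
  | Mo.D v, _ => Nh.snd fun x => a x (I v)
  | Mo.mul M N, h => Nh.mul (nh_ev hS a s I M h.1) (nh_ev hS a s I N h.2)
  | Mo.T _ M, h => Nh.fst (hS.eg_T h.1 (nh_ev hS a s I M h.2))

/-- a term: a coefficient (which may depend on the coordinates) and a monomial -/
structure Tm (ι : Type) where
  c : (ℕ → ι) → ℝ
  r : ℝ
  hr : 0 ≤ r
  hc : ∀ I, |c I| ≤ r
  M : Mo

namespace Tm

/-- change the monomial -/
def mp (t : Tm ι) (f : Mo → Mo) : Tm ι := { t with M := f t.M }

/-- a constant coefficient -/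
def cst (k : ℝ) (M : Mo) : Tm ι := ⟨fun _ => k, |k|, abs_nonneg k, fun _ => le_rfl, M⟩

/-- only the coordinates of level at most `j` -/
def cut (lev : ι → ℕ) (v j : ℕ) (t : Tm ι) : Tm ι where
  c := fun I => if lev (I v) ≤ j then t.c I else 0
  r := t.r
  hr := t.hr
  hc := fun I => by
    by_cases h : lev (I v) ≤ j
    · simp only [h, if_true]; exact t.hc I
    · simp only [h, if_false, abs_zero]
      exact (abs_nonneg _).trans (t.hc I)
  M := t.M

/-- multiply the coefficients, keep the second monomial combined by `f` -/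
def tm (t t' : Tm ι) (f : Mo → Mo → Mo) : Tm ι where
  c := fun I => t.c I * t'.c I
  r := t.r * t'.r
  hr := mul_nonneg t.hr t'.hr
  hc := fun I => by
    rw [abs_mul]
    exact mul_le_mul (t.hc I) (t'.hc I) (abs_nonneg _) t.hr
  M := f t.M t'.M

@[simp] lemma mp_c (t : Tm ι) (f : Mo → Mo) : (t.mp f).c = t.c := rfl
@[simp] lemma mp_r (t : Tm ι) (f : Mo → Mo) : (t.mp f).r = t.r := rfl
@[simp] lemma mp_M (t : Tm ι) (f : Mo → Mo) : (t.mp f).M = f t.M := rfl
@[simp] lemma cst_c (k : ℝ) (M : Mo) (I : ℕ → ι) : (cst k M : Tm ι).c I = k := rfl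
@[simp] lemma cst_r (k : ℝ) (M : Mo) : (cst k M : Tm ι).r = |k| := rfl
@[simp] lemma cst_M (k : ℝ) (M : Mo) : (cst k M : Tm ι).M = M := rfl
@[simp] lemma cut_r (lev : ι → ℕ) (v j : ℕ) (t : Tm ι) : (cut lev v j t).r = t.r := rfl
@[simp] lemma cut_M (lev : ι → ℕ) (v j : ℕ) (t : Tm ι) : (cut lev v j t).M = t.M := rfl
lemma cut_c (lev : ι → ℕ) (v j : ℕ) (t : Tm ι) (I : ℕ → ι) :
    (cut lev v j t).c I = if lev (I v) ≤ j then t.c I else 0 := rfl
@[simp] lemma tm_c (t t' : Tm ι) (f : Mo → Mo → Mo) (I : ℕ → ι) :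
    (tm t t' f).c I = t.c I * t'.c I := rfl
@[simp] lemma tm_r (t t' : Tm ι) (f : Mo → Mo → Mo) : (tm t t' f).r = t.r * t'.r := rfl
@[simp] lemma tm_M (t t' : Tm ι) (f : Mo → Mo → Mo) : (tm t t' f).M = f t.M t'.M := rfl

end Tm

/-- the value of a list -/
noncomputable def evL (S : Sy ι X) (a : X → ι → ℝ) (s : X → ℝ) (I : ℕ → ι) (L : List (Tm ι))
    (z : ι → ℝ) (x : X) : ℝ := (L.map fun t => t.c I * ev S a s I t.M z x).sum

/-- the total coefficient -/
noncomputable def tot (L : List (Tm ι)) : ℝ := (L.map fun t => t.r).sum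

@[simp] lemma evL_nil (z : ι → ℝ) (x : X) : evL S a s I [] z x = 0 := rfl

@[simp] lemma evL_cons (t : Tm ι) (L : List (Tm ι)) (z : ι → ℝ) (x : X) :
    evL S a s I (t :: L) z x = t.c I * ev S a s I t.M z x + evL S a s I L z x := by
  simp [evL]

@[simp] lemma evL_append (L L' : List (Tm ι)) (z : ι → ℝ) (x : X) :
    evL S a s I (L ++ L') z x = evL S a s I L z x + evL S a s I L' z x := by
  simp [evL]

@[simp] lemma tot_nil : tot ([] : List (Tm ι)) = 0 := rfl
@[simp] lemma tot_cons (t : Tm ι) (L : List (Tm ι)) : tot (t :: L) = t.r + tot L := by simp [tot]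
@[simp] lemma tot_append (L L' : List (Tm ι)) : tot (L ++ L') = tot L + tot L' := by simp [tot]

/-- all monomials of the list have averages with an index at most `K` -/
def tkL (K : ℕ) (L : List (Tm ι)) : Prop := ∀ t ∈ L, tk K t.M

lemma nh_evL (hS : S.Reg) (a : X → ι → ℝ) (s : X → ℝ) (I : ℕ → ι) :
    ∀ L : List (Tm ι), tkL S.K L → Nh (evL S a s I L)
  | [], _ => Nh.snd fun _ => 0
  | t :: L, h => by
    have h1 := Nh.const_mul (t.c I) (nh_ev hS a s I t.M (h t List.mem_cons_self))
    have h2 := nh_evL hS a s I L fun t' ht' => h t' (List.mem_cons_of_mem _ ht')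
    have h3 := Nh.add h1 h2
    intro x
    have h4 := h3 x
    simpa only [evL_cons] using h4

/-- the average of a list -/
lemma T_evL (hS : S.Reg) {j : ℕ} (hj : j ≤ S.K) (a : X → ι → ℝ) (s : X → ℝ) (I : ℕ → ι)
    (z : ι → ℝ) (x : X) : ∀ L : List (Tm ι), tkL S.K L →
    S.T j (evL S a s I L) z = evL S a s I (L.map fun t => t.mp (Mo.T j)) z x
  | [], _ => by
    have : evL S a s I ([] : List (Tm ι)) = fun _ _ => (0 : ℝ) := rfl
    rw [this, hS.T_const hj]
    rfl
  | t :: L, h => by
    have h1 := Nh.const_mul (t.c I) (nh_ev hS a s I t.M (h t List.mem_cons_self))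
    have h2 := nh_evL hS a s I L fun t' ht' => h t' (List.mem_cons_of_mem _ ht')
    have e : evL S a s I (t :: L) = fun z x => t.c I * ev S a s I t.M z x + evL S a s I L z x := by
      funext z x; exact evL_cons t L z x
    rw [e, hS.T_add hj h1 h2, T_const_mul, List.map_cons, evL_cons,
      T_evL hS hj a s I z x L fun t' ht' => h t' (List.mem_cons_of_mem _ ht')]
    rfl

lemma evL_mul_left (M : Mo) (z : ι → ℝ) (x : X) : ∀ L : List (Tm ι),
    evL S a s I (L.map fun t => t.mp (Mo.mul M)) z x = ev S a s I M z x * evL S a s I L z x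
  | [] => by simp
  | t :: L => by
    rw [List.map_cons, evL_cons, evL_cons, evL_mul_left M z x L]
    simp only [Tm.mp_c, Tm.mp_M, ev]
    ring

lemma evL_mul_right (M : Mo) (z : ι → ℝ) (x : X) : ∀ L : List (Tm ι),
    evL S a s I (L.map fun t => t.mp fun N => Mo.mul N M) z x =
      evL S a s I L z x * ev S a s I M z x
  | [] => by simp
  | t :: L => by
    rw [List.map_cons, evL_cons, evL_cons, evL_mul_right M z x L]
    simp only [Tm.mp_c, Tm.mp_M, ev]
    ring

lemma evL_cut (v j : ℕ) (z : ι → ℝ) (x : X) : ∀ L : List (Tm ι),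
    evL S a s I (L.map fun t => Tm.cut S.lev v j t) z x =
      if S.lev (I v) ≤ j then evL S a s I L z x else 0
  | [] => by simp
  | t :: L => by
    rw [List.map_cons, evL_cons, evL_cons, evL_cut v j z x L]
    simp only [Tm.cut_c, Tm.cut_M]
    split_ifs <;> ring

lemma tot_map (f : Tm ι → Tm ι) (hf : ∀ t, (f t).r = t.r) : ∀ L : List (Tm ι),
    tot (L.map f) = tot L
  | [] => rfl
  | t :: L => by
    rw [List.map_cons, tot_cons, tot_cons, tot_map f hf L, hf]

/-- the list of the direct terms of the derivative of an average -/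
def lm (S : Sy ι X) (v j : ℕ) (M : Mo) : List (Tm ι) :=
  [Tm.cst 1 (Mo.T j (Mo.mul M (Mo.D v))),
    Tm.cst (-1) (Mo.T j (Mo.mul M (Mo.T S.K (Mo.D v))))]

/-- the list of the terms with a small coefficient -/
noncomputable def lr (S : Sy ι X) (v j : ℕ) (M : Mo) : List (Tm ι) :=
  if j < S.K then
    Tm.cst (S.m S.K) (Mo.T j (Mo.mul M (Mo.T S.K (Mo.D v)))) ::
      Tm.cst (-S.m (j + 1)) (Mo.T j (Mo.mul M (Mo.T j (Mo.D v)))) ::
        (Finset.Ico (j + 1) S.K).toList.map fun i =>
          Tm.cst (-S.p i) (Mo.T j (Mo.mul M (Mo.T i (Mo.D v))))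
  else []

/-- the main part of the derivative -/
def mm (S : Sy ι X) (v : ℕ) : Mo → List (Tm ι)
  | Mo.sp => []
  | Mo.D _ => []
  | Mo.mul M N => (mm S v M).map (fun t => t.mp fun M' => Mo.mul M' N) ++
      (mm S v N).map (fun t => t.mp (Mo.mul M))
  | Mo.T j M => ((mm S v M).map (fun t => t.mp (Mo.T j)) ++ lm S v j M).map
      (fun t => Tm.cut S.lev v j t)

/-- the rest of the derivative -/
noncomputable def rr (S : Sy ι X) (v : ℕ) : Mo → List (Tm ι)
  | Mo.sp => []
  | Mo.D _ => []
  | Mo.mul M N => (rr S v M).map (fun t => t.mp fun M' => Mo.mul M' N) ++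
      (rr S v N).map (fun t => t.mp (Mo.mul M))
  | Mo.T j M => ((rr S v M).map (fun t => t.mp (Mo.T j)) ++ lr S v j M).map
      (fun t => Tm.cut S.lev v j t)

/-- the number of averages -/
def nt : Mo → ℕ
  | Mo.sp => 0
  | Mo.D _ => 0
  | Mo.mul M N => nt M + nt N
  | Mo.T _ M => nt M + 1

lemma tkL_map {K : ℕ} {f : Tm ι → Tm ι} (hf : ∀ t : Tm ι, tk K t.M → tk K (f t).M)
    {L : List (Tm ι)} (h : tkL K L) : tkL K (L.map f) := by
  intro t ht
  obtain ⟨t', ht', rfl⟩ := List.mem_map.1 ht
  exact hf t' (h t' ht')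

lemma tkL_append {K : ℕ} {L L' : List (Tm ι)} (h : tkL K L) (h' : tkL K L') :
    tkL K (L ++ L') := by
  intro t ht
  rcases List.mem_append.1 ht with h1 | h1
  · exact h t h1
  · exact h' t h1

lemma tkL_lm {v j : ℕ} {M : Mo} (hj : j ≤ S.K) (hM : tk S.K M) : tkL S.K (lm S v j M) := by
  intro t ht
  simp only [lm, List.mem_cons, List.not_mem_nil, or_false] at ht
  rcases ht with rfl | rfl
  · exact ⟨hj, hM, trivial⟩
  · exact ⟨hj, hM, le_rfl, trivial⟩

lemma tkL_lr {v j : ℕ} {M : Mo} (hj : j ≤ S.K) (hM : tk S.K M) : tkL S.K (lr S v j M) := by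
  intro t ht
  unfold lr at ht
  split_ifs at ht with h
  · simp only [List.mem_cons, List.mem_map, Finset.mem_toList, Finset.mem_Ico] at ht
    rcases ht with rfl | rfl | ⟨i, hi, rfl⟩
    · exact ⟨hj, hM, le_rfl, trivial⟩
    · exact ⟨hj, hM, hj, trivial⟩
    · exact ⟨hj, hM, hi.2.le, trivial⟩
  · simp at ht

lemma tkL_mp {K : ℕ} {f : Mo → Mo} (hf : ∀ M : Mo, tk K M → tk K (f M))
    {L : List (Tm ι)} (h : tkL K L) : tkL K (L.map fun t => t.mp f) :=
  tkL_map (fun t ht => hf t.M ht) h

lemma tkL_cut {K : ℕ} {lev : ι → ℕ} {v j : ℕ} {L : List (Tm ι)} (h : tkL K L) :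
    tkL K (L.map fun t => Tm.cut lev v j t) :=
  tkL_map (f := fun t => Tm.cut lev v j t) (fun _ ht => ht) h

lemma tkL_mm (v : ℕ) : ∀ M : Mo, tk S.K M → tkL S.K (mm S v M)
  | Mo.sp, _ => fun t ht => by simp [mm] at ht
  | Mo.D _, _ => fun t ht => by simp [mm] at ht
  | Mo.mul M N, h => tkL_append
      (tkL_mp (f := fun M' => Mo.mul M' N) (fun _ hM => ⟨hM, h.2⟩) (tkL_mm v M h.1))
      (tkL_mp (f := Mo.mul M) (fun _ hM => ⟨h.1, hM⟩) (tkL_mm v N h.2))
  | Mo.T j M, h => tkL_cut (tkL_append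
      (tkL_mp (f := Mo.T j) (fun _ hM => ⟨h.1, hM⟩) (tkL_mm v M h.2)) (tkL_lm h.1 h.2))

lemma tkL_rr (v : ℕ) : ∀ M : Mo, tk S.K M → tkL S.K (rr S v M)
  | Mo.sp, _ => fun t ht => by simp [rr] at ht
  | Mo.D _, _ => fun t ht => by simp [rr] at ht
  | Mo.mul M N, h => tkL_append
      (tkL_mp (f := fun M' => Mo.mul M' N) (fun _ hM => ⟨hM, h.2⟩) (tkL_rr v M h.1))
      (tkL_mp (f := Mo.mul M) (fun _ hM => ⟨h.1, hM⟩) (tkL_rr v N h.2))
  | Mo.T j M, h => tkL_cut (tkL_append
      (tkL_mp (f := Mo.T j) (fun _ hM => ⟨h.1, hM⟩) (tkL_rr v M h.2)) (tkL_lr h.1 h.2))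

/-- **The derivative of a monomial.** -/
theorem pd_ev (h : LinS S a c) (s : X → ℝ) (I : ℕ → ι) (v : ℕ) : ∀ M : Mo, tk S.K M → ∀ x,
    PD (I v) (fun z => ev S a s I M z x)
      (fun z => evL S a s I (mm S v M) z x + evL S a s I (rr S v M) z x)
  | Mo.sp, _, x => by
    simpa [mm, rr, ev] using PD.const (e := I v) (s x)
  | Mo.D w, _, x => by
    simpa [mm, rr, ev] using PD.const (e := I v) (a x (I w))
  | Mo.mul M N, hM, x => by
    refine ((pd_ev h s I v M hM.1 x).mul (pd_ev h s I v N hM.2 x)).congr fun z => ?_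
    simp only [mm, rr, evL_append, evL_mul_left, evL_mul_right]
    ring
  | Mo.T j M, hM, x => by
    have hS := h.reg
    have hD := regD h
    obtain ⟨hj, hM'⟩ := hM
    simp only [mm, rr, evL_cut]
    by_cases hl : S.lev (I v) ≤ j
    · simp only [hl, if_true]
      have nM := nh_ev hS a s I M hM'
      have nm := nh_evL hS a s I _ (tkL_mm v M hM')
      have nr := nh_evL hS a s I _ (tkL_rr v M hM')
      have h1 := hD.pd_T (l := j) hj hl (h := ev S a s I M)
        (h' := fun z x => evL S a s I (mm S v M) z x + evL S a s I (rr S v M) z x)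
        (fun x => pd_ev h s I v M hM' x) nM (Nh.add nm nr)
      refine h1.congr fun z => ?_
      simp only [evL_append]
      rw [← T_evL hS hj a s I z x _ (tkL_mm v M hM'), ← T_evL hS hj a s I z x _ (tkL_rr v M hM')]
      have nD : Nh (X := X) fun (_ : ι → ℝ) x => a x (I v) := Nh.snd _
      have nT : ∀ i ≤ S.K, Nh (X := X) fun z _ => S.T i (fun _ x => a x (I v)) z :=
        fun i hi => Nh.fst (hS.eg_T hi nD)
      by_cases hjK : j < S.K
      · have e0 : ∑ i ∈ Finset.Ico (j + 1) (S.K + 1), (fun z : ι → ℝ => S.p i *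
            S.T i (fun _ x => a x (I v)) z) = fun z => ∑ i ∈ Finset.Ico (j + 1) S.K, S.p i *
            S.T i (fun _ x => a x (I v)) z + S.p S.K * S.T S.K (fun _ x => a x (I v)) z := by
          rw [Finset.sum_Ico_succ_top (by omega)]
          funext z
          simp only [Pi.add_apply, Finset.sum_apply]
        have e0' : ∀ z : ι → ℝ, ∑ i ∈ Finset.Ico (j + 1) (S.K + 1), S.p i *
            S.T i (fun _ x => a x (I v)) z = ∑ i ∈ Finset.Ico (j + 1) S.K, S.p i *
            S.T i (fun _ x => a x (I v)) z + S.p S.K * S.T S.K (fun _ x => a x (I v)) z := by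
          intro z
          rw [Finset.sum_Ico_succ_top (by omega)]
        have hpK : S.p S.K = 1 - S.m S.K := by unfold p; rw [hS.mK]
        simp only [e0', hpK]
        have nS : Nh (X := X) fun (z : ι → ℝ) x => ∑ i ∈ Finset.Ico (j + 1) S.K,
            -S.p i * (ev S a s I M z x * S.T i (fun _ x => a x (I v)) z) :=
          Nh.sum _ fun i hi => Nh.const_mul _ (Nh.mul nM (nT i (Finset.mem_Ico.1 hi).2.le))
        have e1 : (fun (z : ι → ℝ) (x : X) => evL S a s I (mm S v M) z x +
            evL S a s I (rr S v M) z x + ev S a s I M z x * (a x (I v) -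
            (∑ i ∈ Finset.Ico (j + 1) S.K, S.p i * S.T i (fun _ x => a x (I v)) z +
              (1 - S.m S.K) * S.T S.K (fun _ x => a x (I v)) z) -
            S.m (j + 1) * S.T j (fun _ x => a x (I v)) z)) =
            fun z x => ((((evL S a s I (mm S v M) z x + evL S a s I (rr S v M) z x) +
              ev S a s I M z x * a x (I v)) +
              (S.m S.K - 1) * (ev S a s I M z x * S.T S.K (fun _ x => a x (I v)) z)) +
              (∑ i ∈ Finset.Ico (j + 1) S.K,
                -S.p i * (ev S a s I M z x * S.T i (fun _ x => a x (I v)) z))) +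
              (-S.m (j + 1)) * (ev S a s I M z x * S.T j (fun _ x => a x (I v)) z) := by
          funext z x
          have e2 : ∑ i ∈ Finset.Ico (j + 1) S.K,
              -S.p i * (ev S a s I M z x * S.T i (fun _ x => a x (I v)) z) =
              -(ev S a s I M z x * ∑ i ∈ Finset.Ico (j + 1) S.K, S.p i *
                S.T i (fun _ x => a x (I v)) z) := by
            rw [Finset.mul_sum, ← Finset.sum_neg_distrib]
            exact Finset.sum_congr rfl fun i _ => by ring
          rw [e2]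
          ring
        rw [e1]
        have n1 := Nh.add nm nr
        have n2 := Nh.add n1 (Nh.mul nM nD)
        have n3 := Nh.add n2 (Nh.const_mul (S.m S.K - 1) (Nh.mul nM (nT S.K le_rfl)))
        have n4 := Nh.add n3 nS
        have n5 := Nh.const_mul (-S.m (j + 1)) (Nh.mul nM (nT j hj))
        rw [hS.T_add hj n4 n5, hS.T_add hj n3 nS, hS.T_add hj n2
          (Nh.const_mul (S.m S.K - 1) (Nh.mul nM (nT S.K le_rfl))), hS.T_add hj n1 (Nh.mul nM nD),
          hS.T_add hj nm nr, T_const_mul, T_const_mul,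
          hS.T_sum hj (Finset.Ico (j + 1) S.K) (f := fun i z x =>
            -S.p i * (ev S a s I M z x * S.T i (fun _ x => a x (I v)) z))
            (fun i hi => Nh.const_mul _ (Nh.mul nM (nT i (Finset.mem_Ico.1 hi).2.le)))]
        simp only [T_const_mul]
        simp only [lm, lr, hjK, if_true, evL_cons, evL_nil, Tm.cst_c, Tm.cst_M, ev]
        have e3 : evL S a s I ((Finset.Ico (j + 1) S.K).toList.map fun i =>
            (Tm.cst (-S.p i) (Mo.T j (Mo.mul M (Mo.T i (Mo.D v)))) : Tm ι)) z x =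
            ∑ i ∈ Finset.Ico (j + 1) S.K, -S.p i *
              S.T j (fun z x => ev S a s I M z x * S.T i (fun _ x => a x (I v)) z) z := by
          unfold evL
          rw [List.map_map]
          exact Finset.sum_map_toList _ _
        rw [e3]
        ring
      · have hjK' : j = S.K := le_antisymm hj (not_lt.1 hjK)
        subst hjK'
        simp only [Finset.Ico_self, Finset.sum_empty, hS.mK, sub_zero, one_mul]
        have e1 : (fun (z : ι → ℝ) (x : X) => evL S a s I (mm S v M) z x +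
            evL S a s I (rr S v M) z x + ev S a s I M z x * (a x (I v) -
            S.T S.K (fun _ x => a x (I v)) z)) =
            fun z x => ((evL S a s I (mm S v M) z x + evL S a s I (rr S v M) z x) +
              ev S a s I M z x * a x (I v)) +
              (-1) * (ev S a s I M z x * S.T S.K (fun _ x => a x (I v)) z) := by
          funext z x
          ring
        rw [e1]
        have n1 := Nh.add nm nr
        have n2 := Nh.add n1 (Nh.mul nM nD)
        have n3 := Nh.const_mul (-1) (Nh.mul nM (nT S.K le_rfl))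
        rw [hS.T_add hj n2 n3, hS.T_add hj n1 (Nh.mul nM nD), hS.T_add hj nm nr, T_const_mul]
        simp only [lm, lr, lt_irrefl, if_false, evL_cons, evL_nil, Tm.cst_c, Tm.cst_M, ev]
        ring
    · simp only [hl, if_false, add_zero]
      have h1 : PD (I v) (S.T j (ev S a s I M)) (fun _ => 0) :=
        (dep_T S j _).pd (not_le.1 hl)
      exact h1

end Vale.Agent.P146.H508
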