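import Vale.Agent.P146.H393.InD

/-!
# P146: `RowF` (helper508), the supergradients in the fields of the bundled law

The whole main field is on the level `2`; it is moved to the level `2 N + 4`.
-/

open MeasureTheory ProbabilityTheory Set

namespace Vale.Agent.P146.H508.RF

open Vale.Agent.P157 Vale.Agent.P157.Lv Vale.Agent.P157.Lv.Sy
open Vale.Agent.P146.H425 Vale.Agent.P146.H325 Vale.Agent.P146.H985 Vale.Agent.P146.U
open Vale.Agent.P146.H93 (Cd skS Em linS_sk)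
open Vale.Agent.P146.H186 (amp amp_mem wc cSK)
open Vale.Agent.P146.H295 (gg spn zs zs_eq Th)
open Vale.Agent.P146.H758 (tv Ex2 Ap Pu)
open Vale.Agent.P146.H479 (chiB gv Na QB Tq Rq thU alU ag_unit)
open Vale.Agent.P146.H437 (psiN RowU RowF)
open Vale.Agent.P146.H393.In

set_option linter.unusedSectionVars false

variable {n N : ℕ} {β κ u y a v z q S T T' T1 e wa w w' Y A E V1 R d d1 d2 r C C0 τ : ℝ}
  {V : {p // p ∈ PI N} → ℝ}

lemma mv_num {n u β P s wa wb w wc f1 f2 c2 c4 : ℝ} (hn : 0 < n) (hu : 0 < u) (hβ : 0 < β)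
    (h : f2 ≤ f1 + 1 / 2 * ((wb - wa) * u ^ 3 * c2 + (wc - w) * u ^ 3 * c4)) :
    (f2 - P - n * ((wb + wc) * u ^ 3 + s) / (2 * β)) / (n * u ^ 5) ≤
      (f1 - P - n * ((wa + w) * u ^ 3 + s) / (2 * β)) / (n * u ^ 5) +
      (2 * (β * c2 / n - 1) / u ^ 2 / (4 * β) * (wb - wa) +
        2 * (β * c4 / n - 1) / u ^ 2 / (4 * β) * (wc - w)) := by
  have e : (f1 - P - n * ((wa + w) * u ^ 3 + s) / (2 * β)) / (n * u ^ 5) +
      (2 * (β * c2 / n - 1) / u ^ 2 / (4 * β) * (wb - wa) +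
        2 * (β * c4 / n - 1) / u ^ 2 / (4 * β) * (wc - w)) =
      (f1 + 1 / 2 * ((wb - wa) * u ^ 3 * c2 + (wc - w) * u ^ 3 * c4) - P -
        n * ((wb + wc) * u ^ 3 + s) / (2 * β)) / (n * u ^ 5) := by
    field_simp
    ring
  rw [e]
  refine div_le_div_of_nonneg_right ?_ (by positivity)
  linarith

/-- **the supergradient in the two main fields** -/
theorem mv_psiB {wb wc : ℝ} (hn : 0 < n) (hβ : 0 < β) (H : Adm N u y a v z q) (ha : 0 ≤ wa)
    (hw : 0 ≤ w) (hb : 0 ≤ wb) (hc : 0 ≤ wc) :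
    psiB n N β u y a v z q S T1 e V T wb wc ≤ psiB n N β u y a v z q S T1 e V T wa w +
      (alB n N β u y a v z q S T1 e V T wa w 2 / (4 * β) * (wb - wa) +
        alB n N β u y a v z q S T1 e V T wa w (2 * N + 4) / (4 * β) * (wc - w)) :=
  mv_num (Nat.cast_pos.2 hn) H.u0 hβ (ag_field hβ.le H ha hw hb hc)

/-- **The two supergradient parts of `RowF`** -/
theorem rowF_ag {W : Set ℝ} (hn : 0 < n) (hβ : 0 < β) (hW : W ⊆ Icc 0 1)
    (H : Adm N u y a v z q) (hS3 : S3H n N β u y a v z q S T1 e τ d V W) (hτ : τ ≤ S)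
    (hwW : w ∈ W) :
    (∀ w' ∈ W, psiN n β T1 u S a v z τ w' 0 ≤ psiN n β T1 u S a v z τ w 0 +
      1 / (4 * β) * alB n N β u y a v z q S T1 e V τ w 0 2 * (w' - w) + 2 * d) ∧
    psiN n β T1 u S a v z τ 0 w ≤ psiN n β T1 u S a v z τ w 0 +
      w / (4 * β) * (alB n N β u y a v z q S T1 e V τ w 0 (2 * N + 4) -
        alB n N β u y a v z q S T1 e V τ w 0 2) + 2 * d := by
  have hw0 := (hW hwW).1
  have hτS : τ ∈ Icc τ S := ⟨le_rfl, hτ⟩
  have h0 := (abs_le.1 (hS3 τ hτS w hwW).2)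
  constructor
  · intro w' hw'
    have h1 := mv_psiB (V := V) (S := S) (T := τ) (T1 := T1) (e := e) (wa := w) (w := 0)
      (wb := w') (wc := 0) hn hβ H hw0 le_rfl (hW hw').1 le_rfl
    have h2 := (abs_le.1 (hS3 τ hτS w' hw').2)
    rw [sub_self, mul_zero, add_zero] at h1
    have e1 : 1 / (4 * β) * alB n N β u y a v z q S T1 e V τ w 0 2 * (w' - w) =
        alB n N β u y a v z q S T1 e V τ w 0 2 / (4 * β) * (w' - w) := by ring
    rw [e1]
    linarith [h2.1, h0.2]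
  · have h1 := mv_psiB (V := V) (S := S) (T := τ) (T1 := T1) (e := e) (wa := w) (w := 0)
      (wb := 0) (wc := w) hn hβ H hw0 le_rfl le_rfl hw0
    have h2 := (abs_le.1 (hS3 τ hτS w hwW).1)
    have e1 : alB n N β u y a v z q S T1 e V τ w 0 2 / (4 * β) * (0 - w) +
        alB n N β u y a v z q S T1 e V τ w 0 (2 * N + 4) / (4 * β) * (w - 0) =
        w / (4 * β) * (alB n N β u y a v z q S T1 e V τ w 0 (2 * N + 4) -
          alB n N β u y a v z q S T1 e V τ w 0 2) := by ring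
    rw [e1] at h1
    linarith [h2.1, h0.2]

/-- **lower bound of the response of the level `2`** -/
lemma alB_two_ge (hn : 0 < n) (hβ : 0 < β) (H : Adm N u y a v z q) (h : Shr u S T T1 e)
    (ha : 0 ≤ wa) (hw : 0 ≤ w) (hV : ∀ p, 0 ≤ V p) (hA : Ap n β (y * u) Y V1 A E)
    (hY : z * u ≤ Y) (hY1 : Y ≤ 1) (hV1 : ∑ p, V p + ((wa + 1) + w) * u ^ 3 ≤ V1) :
    -(8 * β * (E / (n * u ^ 5))) ≤ alB n N β u y a v z q S T1 e V T wa w 2 := by
  have hu := H.u0
  have hn' : (0 : ℝ) < n := Nat.cast_pos.2 hn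
  have hX := H.exY hY hY1
  have h1 := mv_psiB (V := V) (S := S) (T := T) (T1 := T1) (e := e) (wa := wa) (w := w)
    (wb := wa + 1) (wc := w) hn hβ H ha hw (by linarith) hw
  have t1 := tv_aI (N := N) (u := u) (wa := wa) (w := w) (V := V) hu.le ha hw hV
  have t2 := tv_aI (N := N) (u := u) (wa := wa + 1) (w := w) (V := V) hu.le (by linarith) hw hV
  have u3 : 0 < u ^ 3 := by positivity
  have n1 := H758.near hA hX hβ.le (tv_bI hn h) (w := aI N u wa w V) (by rw [t1]; linarith)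
  have n2 := H758.near hA hX hβ.le (tv_bI hn h) (w := aI N u (wa + 1) w V)
    (by rw [t2]; linarith)
  rw [t1] at n1
  rw [t2] at n2
  have m1 := (abs_le.1 n1).2
  have m2 := (abs_le.1 n2).1
  have hD : 0 < (n : ℝ) * u ^ 5 := by positivity
  unfold psiB at h1
  rw [sub_self w, mul_zero, add_zero] at h1
  generalize (skS n (2 * N + 5) (mI N u y a v z q) (bI n N β u S T T1 e)
    (aI N u (wa + 1) w V)).fe = f2 at *
  generalize (skS n (2 * N + 5) (mI N u y a v z q) (bI n N β u S T T1 e)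
    (aI N u wa w V)).fe = f1 at *
  generalize alB n N β u y a v z q S T1 e V T wa w 2 = α at *
  have e1 : (f1 - P1 n β (51 / 100 * u) - n * ((wa + w) * u ^ 3 + ∑ p, V p) / (2 * β)) /
      (n * u ^ 5) + α / (4 * β) * (wa + 1 - wa) =
      (f1 - P1 n β (51 / 100 * u) - n * ((wa + w) * u ^ 3 + ∑ p, V p) / (2 * β) +
        α / (4 * β) * (n * u ^ 5)) / (n * u ^ 5) := by
    field_simp
    ring
  rw [e1] at h1
  have h2 := (div_le_div_iff_of_pos_right hD).1 h1
  have h3 : -(2 * E) ≤ α / (4 * β) * (n * u ^ 5) := by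
    have e2 : n * (((wa + 1) + w) * u ^ 3 + ∑ p, V p) / (2 * β) =
        n * ((wa + w) * u ^ 3 + ∑ p, V p) / (2 * β) + n / β / 2 * u ^ 3 := by
      field_simp
      ring
    rw [e2] at h2
    have e3 : A + n / β / 2 * (∑ p, V p + ((wa + 1) * u ^ 3 + w * u ^ 3)) =
        A + n / β / 2 * (∑ p, V p + (wa * u ^ 3 + w * u ^ 3)) + n / β / 2 * u ^ 3 := by ring
    rw [e3] at m2
    linarith
  have h4 : -(8 * β * E) ≤ α * (n * u ^ 5) := by
    have := mul_le_mul_of_nonneg_left h3 (by positivity : (0 : ℝ) ≤ 4 * β)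
    have e4 : 4 * β * (α / (4 * β) * (n * u ^ 5)) = α * (n * u ^ 5) := by
      field_simp
    rw [e4] at this
    linarith
  have h5 : -(8 * β * E) / (n * u ^ 5) ≤ α := by
    rw [le_div_iff₀ hD] at *
    rw [div_le_iff₀ hD]
    exact h4
  refine le_trans (le_of_eq ?_) h5
  ring

lemma rq_nn {K l : ℕ} {m b ω : ℕ → ℝ} (hn : 0 < n) (hK : 0 < K) (hm : Em K m) (hl : l ≤ K) :
    0 ≤ Rq n K m b ω l :=
  (H295.fldP_sk hn hK hm b ω (P := fun _ => False) (fun _ h => h.elim)).Rl_nonneg hl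

lemma rq_mono {K k l : ℕ} {m b ω : ℕ → ℝ} (hn : 0 < n) (hK : 0 < K) (hm : Em K m) (hkl : k ≤ l)
    (hl : l ≤ K) : Rq n K m b ω k ≤ Rq n K m b ω l :=
  H607.Rl_mono (H295.fldP_sk hn hK hm b ω (P := fun _ => False) (fun _ h => h.elim)) hkl hl

/-- the difference of the two responses -/
lemma alB_sub (hn : 0 < n) (hβ : 0 < β) (H : Adm N u y a v z q) {l1 : ℕ} (h1 : 2 ≤ l1)
    (h2 : l1 ≤ 2 * N + 3) {c : ℝ} (hc : 0 ≤ c)
    (hC : Rq n (2 * N + 5) (mI N u y a v z q) (bI n N β u S T T1 e) (aI N u wa w V)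
      (2 * N + 3) ≤ c * u) :
    0 ≤ alB n N β u y a v z q S T1 e V T wa w (2 * N + 4) -
        alB n N β u y a v z q S T1 e V T wa w 2 ∧
      alB n N β u y a v z q S T1 e V T wa w (2 * N + 4) -
        alB n N β u y a v z q S T1 e V T wa w 2 ≤
      2 * β * ((v - a) * (Rq n (2 * N + 5) (mI N u y a v z q) (bI n N β u S T T1 e)
        (aI N u wa w V) l1 / u) + v * q * c) := by
  have hu := H.u0
  have hn' : (0 : ℝ) < n := Nat.cast_pos.2 hn
  have hs := cSK_sub (K := 2 * N + 5) (m := mI N u y a v z q) (b := bI n N β u S T T1 e) hn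
    (i := 2) (j := 2 * N + 4) (by omega) (by omega) (aI N u wa w V)
  have hR0 : ∀ l ≤ 2 * N + 5, 0 ≤ Rq n (2 * N + 5) (mI N u y a v z q) (bI n N β u S T T1 e)
      (aI N u wa w V) l := fun l hl => rq_nn hn (by omega) H.em hl
  have hg := sum_gap (C := c * u) H (f := Rq n (2 * N + 5) (mI N u y a v z q)
    (bI n N β u S T T1 e) (aI N u wa w V)) (fun l hl1 hl2 =>
      (rq_mono hn (by omega) H.em (by omega) (by omega)).trans hC) (by positivity)
    (hR0 2 (by omega))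
  have hp : 0 ≤ ∑ l ∈ Finset.Ico 2 (2 * N + 4), (mI N u y a v z q (l + 1) - mI N u y a v z q l) *
      Rq n (2 * N + 5) (mI N u y a v z q) (bI n N β u S T T1 e) (aI N u wa w V) l :=
    Finset.sum_nonneg fun l hl => by
      rw [Finset.mem_Ico] at hl
      exact mul_nonneg (sub_nonneg.2 (H.em.mono l (by omega))) (hR0 l (by omega))
  have hm2 : Rq n (2 * N + 5) (mI N u y a v z q) (bI n N β u S T T1 e) (aI N u wa w V) 2 ≤
      Rq n (2 * N + 5) (mI N u y a v z q) (bI n N β u S T T1 e) (aI N u wa w V) l1 :=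
    rq_mono hn (by omega) H.em h1 (by omega)
  have hva : 0 ≤ v - a := by
    have h3 := H.av
    have h4 := H.q0
    have h5 := H.v0
    nlinarith
  unfold alB alU
  obtain ⟨s, hs0⟩ : ∃ s, s = ∑ l ∈ Finset.Ico 2 (2 * N + 4),
      (mI N u y a v z q (l + 1) - mI N u y a v z q l) *
      Rq n (2 * N + 5) (mI N u y a v z q) (bI n N β u S T T1 e) (aI N u wa w V) l := ⟨_, rfl⟩
  rw [← hs0] at hs hg hp
  generalize cSK n (2 * N + 5) (mI N u y a v z q) (bI n N β u S T T1 e) (aI N u wa w V)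
    (2 * N + 4) = c4 at *
  generalize cSK n (2 * N + 5) (mI N u y a v z q) (bI n N β u S T T1 e) (aI N u wa w V) 2 = c2
    at *
  have e1 : 2 * (β * c4 / n - 1) / u ^ 2 - 2 * (β * c2 / n - 1) / u ^ 2 =
      2 * β * (s / u ^ 2) := by
    have : c4 = c2 + n * s := by linarith
    rw [this]
    field_simp
    ring
  rw [e1]
  refine ⟨by positivity, mul_le_mul_of_nonneg_left ?_ (by positivity)⟩
  rw [div_le_iff₀ (by positivity)]
  refine hg.trans ?_
  have h6 := mul_le_mul_of_nonneg_left hm2 (mul_nonneg hva hu.le)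
  refine (add_le_add_left h6 _).trans (le_of_eq ?_)
  field_simp

end Vale.Agent.P146.H508.RF
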