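import Vale.Agent.P146.H508.RF1
import Vale.Agent.P146.H877x.RowX
import Vale.Agent.P146.H93.Pnum

/-!
# P146: `RowF` (helper508), the overlap at a good level of the first bundle
-/

open MeasureTheory ProbabilityTheory Set

namespace Vale.Agent.P146.H508.RF

open Vale.Agent.P157 Vale.Agent.P157.Lv Vale.Agent.P157.Lv.Sy
open Vale.Agent.P146.H425 Vale.Agent.P146.H325 Vale.Agent.P146.H985 Vale.Agent.P146.U
open Vale.Agent.P146.H93 (Cd skS Em linS_sk)
open Vale.Agent.P146.H186 (amp amp_mem wc cSK)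
open Vale.Agent.P146.H295 (gg spn zs zs_eq Th)
open Vale.Agent.P146.H758 (tv Ex2 Ap Pu)
open Vale.Agent.P146.H479 (chiB gv Na QB Tq Rq thU alU ag_unit)
open Vale.Agent.P146.H437 (psiN RowU RowF)
open Vale.Agent.P146.H877x (Hz SB Gs eT ur_sk)
open Vale.Agent.P146.H379.Row (bt2 ch FdA FdA_le)
open Vale.Agent.P146.H393.In

set_option linter.unusedSectionVars false

variable {n N : ℕ} {β κ u y a v z q S T T' T1 e wa w w' Y A E V1 R d d1 d2 r C C0 τ : ℝ}
  {V : {p // p ∈ PI N} → ℝ}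

/-- the response of a level in the two notations -/
lemma ch_cSK {K l : ℕ} {m b ω : ℕ → ℝ} (hn : 0 < n) :
    ch n K m b ω l = cSK n K m b ω (l + 1) / n := by
  have hn' : (n : ℝ) ≠ 0 := by exact_mod_cast hn.ne'
  rw [H479.cSK_Rq hn, mul_div_cancel_left₀ _ hn']
  rfl

/-- the moments of the overlap -/
theorem rqI {D0 : ℝ} {w' : ℕ → ℝ} (hn : 2 ≤ n) (hβ : 0 < β) (H : Adm N u y a v z q)
    (h : Shr u S T T1 e) (hT1 : 0 < T1) (hY : 2 * (z * u) ≤ Y) (hY1 : Y ≤ 1)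
    (hD : Pu n β Y (tv (2 * N + 5) w') ≤
      (skS n (2 * N + 5) (mI N u y a v z q) (bI n N β u S T T1 e) w').fe + D0 * n * u ^ 5)
    (hD0 : 1 ≤ y * D0 * (n * u ^ 6)) (hn2 : 1 ≤ n * u ^ 2) {l : ℕ} (hl : l < 2 * N + 5) :
    Tq n (2 * N + 5) (mI N u y a v z q) (bI n N β u S T T1 e) w' l ≤ (C4 β y T1 D0 * u) ^ 2 ∧
    Rq n (2 * N + 5) (mI N u y a v z q) (bI n N β u S T T1 e) w' l ≤ C4 β y T1 D0 * u := by
  have hu := H.u0
  have h4 := fourI (l := l) hn hβ H h hT1 hY hY1 hD hD0 hn2 hl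
  have hC2 := C4_two (β := β) (y := y) (T1 := T1) (E := D0)
  have hS : (skS n (2 * N + 5) (mI N u y a v z q) (bI n N β u S T T1 e) w').Reg :=
    (linS_sk H.em _ _).reg
  have F := H295.fldP_sk (show 0 < n by omega) (show 0 < 2 * N + 5 by omega) H.em
    (bI n N β u S T T1 e) w' (P := fun _ => False) (fun _ h => h.elim)
  obtain ⟨Q, hQ⟩ : ∃ Q, Q = skS n (2 * N + 5) (mI N u y a v z q) (bI n N β u S T T1 e) w' :=
    ⟨_, rfl⟩
  obtain ⟨C, hC⟩ : ∃ C, C = C4 β y T1 D0 := ⟨_, rfl⟩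
  rw [← hC] at h4 hC2 ⊢
  unfold Tq Rq
  rw [← hQ] at h4 hS F ⊢
  have hQK : l ≤ Q.K := by
    rw [hQ]
    show l ≤ 2 * N + 5
    omega
  have h1 := H295.pair_sq_le hS hQK (fun x x' => Rov (fun x i => sp x i) x x' ^ 2)
  have e4 : (fun x x' : Fin n → ℤˣ => (Rov (fun x i => sp x i) x x' ^ 2) ^ 2) =
      fun x x' => Rov (fun x i => sp x i) x x' ^ 4 := by
    funext x x'
    ring
  rw [e4] at h1
  have hT : Q.pairEx l (fun x x' => Rov (fun x i => sp x i) x x' ^ 2) ≤ (C * u) ^ 2 := by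
    have hC44 : C ≤ C ^ 4 := by
      calc C = C ^ 1 := (pow_one C).symm
        _ ≤ C ^ 4 := pow_le_pow_right₀ (by linarith) (by norm_num)
    have h3 : (Q.pairEx l (fun x x' => Rov (fun x i => sp x i) x x' ^ 2)) ^ 2 ≤
        ((C * u) ^ 2) ^ 2 := by
      refine (h1.trans h4).trans ?_
      have e5 : ((C * u) ^ 2) ^ 2 = C ^ 4 * u ^ 4 := by ring
      rw [e5]
      exact mul_le_mul_of_nonneg_right hC44 (by positivity)
    exact le_of_sq_le_sq h3 (by positivity)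
  refine ⟨hT, ?_⟩
  have h5 := H295.pair_sq_le hS hQK (Rov (fun (x : Fin n → ℤˣ) i => sp x i))
  rw [F.Rl_eq_pairEx hQK]
  exact abs_le_of_sq_le_sq' (h5.trans hT) (by positivity) |>.2

/-- a level of the bundles as a good level of helper877 -/
lemma gd_of {l : ℕ} {θ D κ B0 g : ℝ} (H : Adm N u y a v z q) (hR : 0 < R)
    (hV : ∀ p, 2 * R ≤ V p) (h3 : 3 ≤ l) (hl : l + 1 ≤ 2 * N + 3) (h5 : l ≠ N + 3)
    (h6 : l + 1 ≠ N + 3)
    (G : Gl n (2 * N + 5) K0 (mI N u y a v z q) (bI n N β u S T T1 e) (aI N u wa w V) l θ D κ B0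
      g) :
    H877x.Gd n (2 * N + 5) (mI N u y a v z q) (bI n N β u S T T1 e) (aI N u wa w V) l g
      (st N u v q) R := by
  have hVp : ∀ p, 0 < V p := fun p => by have := hV p; linarith
  have hm1 : l ∈ PI N := by
    rw [mem_PI]
    omega
  have hm2 : l + 1 ∈ PI N := by
    rw [mem_PI]
    omega
  refine ⟨by omega, by omega, aI_pos hVp hm1, aI_pos hVp hm2, H.st0, ?_, hR, ?_,
    G.g0, G.g1⟩
  · rw [mI_step h3 (by omega)]
  · have e1 : aI N u wa w V (l + 1) = √(V ⟨l + 1, hm2⟩) := aI_mem (u := u) (V := V) ⟨l + 1, hm2⟩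
    rw [e1, Real.sq_sqrt (hVp _).le]
    have := hV ⟨l + 1, hm2⟩
    linarith

/-- **The overlap at a good level of the first bundle**: `ρ ≤ 2 (α - T)₊ / (β v) + √(field) + ..` -/
theorem rF {c δ g B0 κ κ0 t ρs ε Aα : ℝ} {l1 l0 : ℕ} (hn : 2 ≤ n) (hβ : 1 ≤ β)
    (H : Adm N u y a v z q) (h : Shr u S T T1 e) (he : 0 < e) (hR : 0 < R)
    (hV : ∀ p, 2 * R ≤ V p) (h1 : 3 ≤ l1 ∧ l1 < N + 1) (h0 : N + 4 ≤ l0 ∧ l0 < 2 * N + 2)
    (G1 : Gl n (2 * N + 5) K0 (mI N u y a v z q) (bI n N β u S T T1 e) (aI N u wa w V) l1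
      (c * u) (δ * u) κ B0 g)
    (G0 : Gl n (2 * N + 5) K0 (mI N u y a v z q) (bI n N β u S T T1 e) (aI N u wa w V) l0
      (c * u) (δ * u) κ B0 g)
    (hRq : Rq n (2 * N + 5) (mI N u y a v z q) (bI n N β u S T T1 e) (aI N u wa w V)
      (2 * N + 3) ≤ c * u)
    (hz : z ≤ 2) (hv1 : 1 ≤ v) (hc : 2 ≤ c) (ht : 0 < t) (ht1 : t ≤ 1) (hκ : κ + B0 / n ≤ c * u)
    (hα : -Aα ≤ alB n N β u y a v z q S T1 e V T wa w (2 * N + 4)) (hAu : Aα * u ^ 2 ≤ 1)
    (hTu : T * u ^ 2 ≤ 1 / 2) (hρs : 0 < ρs)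
    (hE : eT n (c * u) (δ * u) κ B0 g (st N u v q) R t (v * u * q) ≤ ε * u ^ 3)
    (hε0 : 0 ≤ ε) (hc2 : 200 * (c ^ 2 * β ^ 2 * u ^ 2) ≤ 1) (hε : 200 * ε ≤ ρs * e)
    (hκ0 : κ ≤ κ0 * u ^ 3) :
    Rq n (2 * N + 5) (mI N u y a v z q) (bI n N β u S T T1 e) (aI N u wa w V) l1 / u ≤
      2 * max (alB n N β u y a v z q S T1 e V T wa w (2 * N + 4) - T) 0 /
        (β * (1 - T * u ^ 2) * v) +
      (8 * (6 * (c ^ 2 * β ^ 2 * e * u ^ 2 + 2 * ε / ρs)) + √(8 * (48 * κ0)) + ρs) := by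
  have hu := H.u0
  have hβ0 : 0 < β := by linarith
  have hn' : (0 : ℝ) < n := by
    have : (2 : ℝ) ≤ n := by exact_mod_cast hn
    linarith
  have hn0 : 0 < n := by omega
  have hT0 : 0 ≤ T := by
    have := h.eT
    have := h.e0
    have := h.T10
    linarith
  have g1 := gd_of H hR hV h1.1 (by omega) (by omega) (by omega) G1
  have g0 := gd_of H hR hV (by omega) (by omega) (by omega) (by omega) G0
  have b1 : bt2 n (bI n N β u S T T1 e) l1 = β ^ 2 * (1 - T * u ^ 2) :=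
    bt2_C hn0 h (by omega) (by omega)
  have b0 : bt2 n (bI n N β u S T T1 e) l0 = β ^ 2 * (1 - (T - e) * u ^ 2) :=
    bt2_D hn0 h (by omega) (by omega)
  have hbd : bt2 n (bI n N β u S T T1 e) l0 - bt2 n (bI n N β u S T T1 e) l1 =
      β ^ 2 * e * u ^ 2 := by
    rw [b1, b0]
    ring
  -- the response
  obtain ⟨χ, hχ⟩ : ∃ χ, χ = ch n (2 * N + 5) (mI N u y a v z q) (bI n N β u S T T1 e)
    (aI N u wa w V) (2 * N + 4 - 1) := ⟨_, rfl⟩
  obtain ⟨α, hα'⟩ : ∃ α, α = alB n N β u y a v z q S T1 e V T wa w (2 * N + 4) := ⟨_, rfl⟩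
  have hχα : β * χ = 1 + α * u ^ 2 / 2 := by
    rw [hχ, show 2 * N + 4 - 1 = 2 * N + 3 by omega, ch_cSK hn0, hα']
    unfold alB alU
    field_simp
    ring
  have hh : -(1 / 2 : ℝ) ≤ α * u ^ 2 / 2 := by
    rw [← hα'] at hα
    have := mul_le_mul_of_nonneg_right hα (sq_nonneg u)
    linarith
  have hχl : 1 / (2 * β) ≤ χ := by
    rw [div_le_iff₀ (by positivity)]
    linarith
  have hχ0 : 0 < χ := lt_of_lt_of_le (by positivity) hχl
  have hmv : mI N u y a v z q (2 * N + 4) = v * u := mI_v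
  -- helper877
  have hδ' : mI N u y a v z q (2 * N + 4) - mI N u y a v z q 3 ≤ v * u * q := by
    rw [hmv]
    have := (H.mid (l := 3) le_rfl (by omega)).1
    linarith
  have hvz := H.vz
  have hv0 := H.v0
  have hEρ : eT n (c * u) (δ * u) κ B0 g (st N u v q) R t (v * u * q) / (ρs * u) ≤
      ε / ρs * u ^ 2 := by
    rw [div_le_iff₀ (by positivity)]
    refine hE.trans (le_of_eq ?_)
    field_simp
  have hu2 : 0 < u ^ 2 := by positivity
  have h12 : 12 * ((c * u) ^ 2 * (bt2 n (bI n N β u S T T1 e) l0 -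
      bt2 n (bI n N β u S T T1 e) l1) + 2 * eT n (c * u) (δ * u) κ B0 g (st N u v q) R t
        (v * u * q) / (ρs * u)) <
      (bt2 n (bI n N β u S T T1 e) l0 - bt2 n (bI n N β u S T T1 e) l1) *
        ch n (2 * N + 5) (mI N u y a v z q) (bI n N β u S T T1 e) (aI N u wa w V)
          (2 * N + 4 - 1) ^ 2 := by
    rw [← hχ, hbd]
    have s1 : 1 / 4 ≤ β ^ 2 * χ ^ 2 := by
      have h5 : (1 / 2 : ℝ) ≤ β * χ := by
        rw [hχα]
        linarith
      calc (1 / 4 : ℝ) = (1 / 2) ^ 2 := by norm_num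
        _ ≤ (β * χ) ^ 2 := pow_le_pow_left₀ (by norm_num) h5 2
        _ = _ := by ring
    have s2 : e * u ^ 2 / 4 ≤ β ^ 2 * e * u ^ 2 * χ ^ 2 := by
      have := mul_le_mul_of_nonneg_left s1 (by positivity : 0 ≤ e * u ^ 2)
      calc e * u ^ 2 / 4 = e * u ^ 2 * (1 / 4) := by ring
        _ ≤ _ := this
        _ = _ := by ring
    have s3 : (c * u) ^ 2 * (β ^ 2 * e * u ^ 2) ≤ e * u ^ 2 / 200 := by
      have := mul_le_mul_of_nonneg_left hc2 (by positivity : 0 ≤ e * u ^ 2)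
      have e6 : (c * u) ^ 2 * (β ^ 2 * e * u ^ 2) = e * u ^ 2 * (200 * (c ^ 2 * β ^ 2 * u ^ 2)) /
          200 := by ring
      rw [e6]
      linarith
    have s4 : ε / ρs * u ^ 2 ≤ e * u ^ 2 / 200 := by
      have h6 : ε / ρs ≤ e / 200 := by
        rw [div_le_iff₀ hρs]
        linarith
      have := mul_le_mul_of_nonneg_right h6 hu2.le
      linarith
    have s5 : 2 * eT n (c * u) (δ * u) κ B0 g (st N u v q) R t (v * u * q) / (ρs * u) ≤
        2 * (e * u ^ 2 / 200) := by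
      rw [mul_div_assoc]
      exact mul_le_mul_of_nonneg_left (hEρ.trans s4) zero_le_two
    have s6 : 0 < e * u ^ 2 := by positivity
    linarith
  have hur := ur_sk (a := 3) (q := 2 * N + 4) H.em hn0 (by omega) h1.1 (by omega : l1 < l0)
    (by omega) (by omega) g1 g0 ht ht1 hδ' (by
      rw [hmv]
      exact mul_le_mul_of_nonneg_right (by linarith) hu.le) (by
      rw [mI_z]
      have : z * u ≤ 2 * (c * u) := by
        have := mul_le_mul_of_nonneg_right (show z ≤ 2 * c by linarith) hu.le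
        linarith
      exact this) (by
      rw [show 2 * N + 4 - 1 = 2 * N + 3 by omega]
      exact hRq) G1.hz G0.hz hκ (by
      rw [b1]
      have : 0 < 1 - T * u ^ 2 := by linarith
      positivity) (rs := ρs * u) (by positivity) h12
  rw [← hχ, hbd, hmv] at hur
  -- the unit form
  have hG0 : 0 ≤ Gs n (2 * N + 5) (mI N u y a v z q) (bI n N β u S T T1 e) (aI N u wa w V) 3 := by
    unfold Gs
    refine Finset.sum_nonneg fun j hj => ?_
    rw [Finset.mem_Ico] at hj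
    refine mul_nonneg (mul_nonneg (sub_nonneg.2 (H.em.mono j (by omega)))
      (H877x.bt2_nonneg _ _ _)) ?_
    exact Tt_nonneg (linS_sk H.em _ _).reg (show j ≤ 2 * N + 5 by omega)
  have hSB : SB (aI N u wa w V) l1 ≤ κ := G1.hz.κw
  have hFd : FdA n (2 * N + 5) (mI N u y a v z q) (bI n N β u S T T1 e) (aI N u wa w V) l1 ≤
      16 * κ := by
    refine (FdA_le H.em _ _ hn0 (by omega)).trans ?_
    rw [Fin.sum_univ_eq_sum_range (fun k => aI N u wa w V (k + 1) ^ 2)]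
    exact mul_le_mul_of_nonneg_left hSB (by norm_num)
  have hE4 : 3 * max (FdA n (2 * N + 5) (mI N u y a v z q) (bI n N β u S T T1 e)
      (aI N u wa w V) l1 - χ * Gs n (2 * N + 5) (mI N u y a v z q) (bI n N β u S T T1 e)
        (aI N u wa w V) 3) 0 ≤ 48 * κ0 * u ^ 3 := by
    have h7 : max (FdA n (2 * N + 5) (mI N u y a v z q) (bI n N β u S T T1 e)
      (aI N u wa w V) l1 - χ * Gs n (2 * N + 5) (mI N u y a v z q) (bI n N β u S T T1 e)
        (aI N u wa w V) 3) 0 ≤ 16 * κ := by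
      refine max_le ?_ ?_
      · have := mul_nonneg hχ0.le hG0
        linarith
      · have := G1.hz.κ0
        linarith
    linarith
  have hκ00 : 0 ≤ κ0 := by
    have h8 := G1.hz.κ0.trans hκ0
    exact nonneg_of_mul_nonneg_left h8 (by positivity)
  have hr0 : 0 ≤ Rq n (2 * N + 5) (mI N u y a v z q) (bI n N β u S T T1 e) (aI N u wa w V) l1 :=
    rq_nn hn0 (by omega) H.em (by omega)
  have key := H93.Pnum.r_unit (β := β) (u := u) (s := T) (h := α * u ^ 2 / 2) (χ := χ)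
    (B := bt2 n (bI n N β u S T T1 e) l1) (v := v)
    (r := Rq n (2 * N + 5) (mI N u y a v z q) (bI n N β u S T T1 e) (aI N u wa w V) l1)
    (E3 := 6 * ((c * u) ^ 2 * (β ^ 2 * e * u ^ 2) + 2 * eT n (c * u) (δ * u) κ B0 g
      (st N u v q) R t (v * u * q) / (ρs * u)))
    (E4 := 3 * max (FdA n (2 * N + 5) (mI N u y a v z q) (bI n N β u S T T1 e)
      (aI N u wa w V) l1 - χ * Gs n (2 * N + 5) (mI N u y a v z q) (bI n N β u S T T1 e)
        (aI N u wa w V) 3) 0) (rs := ρs * u)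
    (e3 := 6 * (c ^ 2 * β ^ 2 * e * u ^ 2 + 2 * ε / ρs)) (e4 := 48 * κ0) (ρ := ρs)
    hβ hu hT0 hTu hh hχα b1 (by linarith) hr0 (by positivity) (by positivity) hρs.le le_rfl ?_ hE4
    ?_
  · rw [show 2 * (α * u ^ 2 / 2) / u ^ 2 = α by field_simp] at key
    rw [← hα']
    exact key
  · have e7 : 6 * (c ^ 2 * β ^ 2 * e * u ^ 2 + 2 * ε / ρs) * u ^ 2 =
        6 * ((c * u) ^ 2 * (β ^ 2 * e * u ^ 2) + 2 * (ε / ρs * u ^ 2)) := by ring
    rw [e7, mul_div_assoc]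
    linarith
  · rcases hur with h9 | h9
    · exact Or.inl h9
    · right
      refine le_trans (le_of_eq ?_) h9
      show χ * (v * u * _ * Rq _ _ _ _ _ _ ^ 2) = χ * (v * u) * _ * Rq _ _ _ _ _ _ ^ 2
      ring

end Vale.Agent.P146.H508.RF
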