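import Vale.Agent.P146.H508.RF2

/-!
# P146: `RowF` at one field, all numbers as letters (helper508)
-/

open MeasureTheory ProbabilityTheory Set

namespace Vale.Agent.P146.H508.RF

open Vale.Agent.P157 Vale.Agent.P157.Lv Vale.Agent.P157.Lv.Sy
open Vale.Agent.P146.H425 Vale.Agent.P146.H325 Vale.Agent.P146.H985 Vale.Agent.P146.U
open Vale.Agent.P146.H93 (Cd skS Em linS_sk)
open Vale.Agent.P146.H186 (amp amp_mem wc cSK)
open Vale.Agent.P146.H295 (gg spn zs zs_eq Th)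
open Vale.Agent.P146.H758 (tv Ex2 Ap Pu)
open Vale.Agent.P146.H479 (chiB gv Na QB Tq Rq thU alU ag_unit)
open Vale.Agent.P146.H437 (psiN RowU RowF)
open Vale.Agent.P146.H877x (Hz SB Gs eT ur_sk)
open Vale.Agent.P146.H379.Row (bt2 ch FdA FdA_le)
open Vale.Agent.P146.H393.In

set_option linter.unusedSectionVars false

variable {n N : ℕ} {β κ u y a v z q S T T' T1 e wa w w' Y A E V1 R d d1 d2 r C C0 τ : ℝ}
  {V : {p // p ∈ PI N} → ℝ}

/-- the real-number part of `RowF` -/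
lemma rowF_num {β r w q c v α2 αq ρ1 τ Q X X1 d2 : ℝ} (hβ : 1 ≤ β) (hr : 0 < r) (hw0 : 0 ≤ w)
    (hw1 : w ≤ 1) (hq : 0 ≤ q) (hc : 0 ≤ c) (hv1 : 1 ≤ v) (hv2 : v ≤ 2) (hτ : 0 ≤ τ)
    (hQ : Q ≤ 1 / 2) (hα : αq - α2 ≤ 2 * β * (r * ρ1 + v * q * c))
    (hρc : ρ1 ≤ c)
    (hρ : ρ1 ≤ 2 * max (αq - τ) 0 / (β * (1 - Q) * v) + (X + √(8 * (48 * (w + X1)))))
    (hX : 0 ≤ X) (hX1 : 0 ≤ X1)
    (hd : 4 * (r * c + 2 * q * c) + X / 2 + 10 * √X1 + q * c / r ≤ d2) :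
    w / (4 * β) * (αq - α2) ≤ r * (10 * w * (max α2 0 + √w) + d2) := by
  have hβ0 : 0 < β := by linarith
  have hv0 : 0 < v := by linarith
  have m0 : 0 ≤ max α2 0 := le_max_right _ _
  -- the response of the last level
  have h1 : max (αq - τ) 0 ≤ max α2 0 + 2 * β * (r * c + 2 * q * c) := by
    have s1 : r * ρ1 ≤ r * c := mul_le_mul_of_nonneg_left hρc hr.le
    have s2 : v * q * c ≤ 2 * q * c := by
      have := mul_le_mul_of_nonneg_right hv2 (mul_nonneg hq hc)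
      linarith
    have s3 : 0 ≤ 2 * β * (r * c + 2 * q * c) := by positivity
    have s4 : 2 * β * (r * ρ1 + v * q * c) ≤ 2 * β * (r * c + 2 * q * c) :=
      mul_le_mul_of_nonneg_left (by linarith) (by positivity)
    refine max_le ?_ (by linarith)
    have := le_max_left α2 0
    linarith
  have h2 : 2 * max (αq - τ) 0 / (β * (1 - Q) * v) ≤
      4 * max α2 0 + 8 * (r * c + 2 * q * c) := by
    have hp : 0 < β * (1 - Q) * v := mul_pos (mul_pos hβ0 (by linarith)) hv0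
    have hp2 : β / 2 ≤ β * (1 - Q) * v := by
      calc β / 2 = β * (1 / 2) * 1 := by ring
        _ ≤ β * (1 - Q) * v := by
          refine mul_le_mul ?_ hv1 zero_le_one (mul_nonneg hβ0.le (by linarith))
          exact mul_le_mul_of_nonneg_left (by linarith) hβ0.le
    rw [div_le_iff₀ hp]
    have s5 : 0 ≤ 4 * max α2 0 + 8 * (r * c + 2 * q * c) := by positivity
    refine le_trans ?_ (mul_le_mul_of_nonneg_left hp2 s5)
    have s6 : max α2 0 ≤ β * max α2 0 := by nlinarith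
    have e1 : (4 * max α2 0 + 8 * (r * c + 2 * q * c)) * (β / 2) =
        2 * (β * max α2 0) + 2 * (2 * β * (r * c + 2 * q * c)) := by ring
    rw [e1]
    linarith
  have h3 : √(8 * (48 * (w + X1))) ≤ 20 * √w + 20 * √X1 := by
    rw [Real.sqrt_le_left (by positivity)]
    have s7 := Real.sq_sqrt hw0
    have s8 := Real.sq_sqrt hX1
    have s9 : 0 ≤ √w * √X1 := by positivity
    nlinarith
  have h4 : ρ1 ≤ 4 * max α2 0 + 8 * (r * c + 2 * q * c) + X + 20 * √w + 20 * √X1 := by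
    linarith
  have h5 : w / (4 * β) * (αq - α2) ≤ w / 2 * (r * ρ1 + v * q * c) := by
    have s10 : 0 ≤ w / (4 * β) := by positivity
    refine (mul_le_mul_of_nonneg_left hα s10).trans (le_of_eq ?_)
    field_simp
    ring
  refine h5.trans ?_
  have h6 : w / 2 * (v * q * c) ≤ q * c := by
    have s11 : v * q * c ≤ 2 * (q * c) := by
      have := mul_le_mul_of_nonneg_right hv2 (mul_nonneg hq hc)
      linarith
    have s12 : 0 ≤ v * q * c := by positivity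
    calc w / 2 * (v * q * c) ≤ 1 / 2 * (v * q * c) :=
          mul_le_mul_of_nonneg_right (by linarith) s12
      _ ≤ _ := by linarith
  have h7 : w / 2 * (r * ρ1) ≤ r * (w / 2 *
      (4 * max α2 0 + 8 * (r * c + 2 * q * c) + X + 20 * √w + 20 * √X1)) := by
    calc w / 2 * (r * ρ1) = r * (w / 2 * ρ1) := by ring
      _ ≤ _ := mul_le_mul_of_nonneg_left (mul_le_mul_of_nonneg_left h4 (by linarith)) hr.le
  have h8 : w / 2 * (4 * max α2 0 + 8 * (r * c + 2 * q * c) + X + 20 * √w + 20 * √X1) ≤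
      10 * w * (max α2 0 + √w) + (4 * (r * c + 2 * q * c) + X / 2 + 10 * √X1) := by
    have s14 : 0 ≤ w * max α2 0 := mul_nonneg hw0 m0
    have hX' : 0 ≤ 8 * (r * c + 2 * q * c) + X + 20 * √X1 := by positivity
    have s15 : w / 2 * (8 * (r * c + 2 * q * c) + X + 20 * √X1) ≤
        1 / 2 * (8 * (r * c + 2 * q * c) + X + 20 * √X1) :=
      mul_le_mul_of_nonneg_right (by linarith) hX'
    have e2 : w / 2 * (4 * max α2 0 + 8 * (r * c + 2 * q * c) + X + 20 * √w + 20 * √X1) =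
        w / 2 * (8 * (r * c + 2 * q * c) + X + 20 * √X1) + 2 * (w * max α2 0) +
          10 * (w * √w) := by ring
    rw [e2]
    linarith
  have h9 : q * c = r * (q * c / r) := by field_simp
  have h10 : r * (4 * (r * c + 2 * q * c) + X / 2 + 10 * √X1 + q * c / r) ≤ r * d2 :=
    mul_le_mul_of_nonneg_left hd hr.le
  have h11 := mul_le_mul_of_nonneg_left h8 hr.le
  have e3 : w / 2 * (r * ρ1 + v * q * c) = w / 2 * (r * ρ1) + w / 2 * (v * q * c) := by ring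
  rw [e3]
  have e4 : r * (4 * (r * c + 2 * q * c) + X / 2 + 10 * √X1 + q * c / r) =
      r * (4 * (r * c + 2 * q * c) + X / 2 + 10 * √X1) + r * (q * c / r) := by ring
  rw [e4] at h10
  have e5 : r * (10 * w * (max α2 0 + √w) + d2) = r * (10 * w * (max α2 0 + √w)) + r * d2 := by
    ring
  rw [e5]
  have e6 : r * (10 * w * (max α2 0 + √w) + (4 * (r * c + 2 * q * c) + X / 2 + 10 * √X1)) =
      r * (10 * w * (max α2 0 + √w)) + r * (4 * (r * c + 2 * q * c) + X / 2 + 10 * √X1) := by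
    ring
  rw [e6] at h11
  linarith

/-- **`RowF` from the numbers.** -/
theorem rowF_fix {W : Set ℝ} {c δ g B0 t ρs ε E0 D0 ε1 : ℝ} (hn : 2 ≤ n) (hβ : 1 ≤ β)
    (hκ0 : 0 < κ) (hκ1 : κ ≤ 1 / 200) (hr : 0 < r)
    (H : Adm N u (51 / 100) (1 + κ - r) (1 + κ) (1 + κ) q) (hτ : 0 < τ) (hτS : τ ≤ S)
    (hSu : S * u ^ 2 ≤ 1 / 2) (hu4 : 4 * u ≤ 1)
    (hA : Ap n β (51 / 100 * u) (4 * u) (8 * u ^ 3) A (E0 * (n * u ^ 5))) (hE0 : 0 < E0)
    (hR : 0 < R) (hNR : 10 * N * R ≤ ε1 * u ^ 3) (hε1 : 0 ≤ ε1) (hε1' : ε1 ≤ 1)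
    (hW : W ⊆ Icc 0 1)
    (hS3 : ∀ V : {p // p ∈ PI N} → ℝ, (∀ p, 0 < V p) → ∑ p, V p ≤ 10 * N * R →
      S3H n N β u (51 / 100) (1 + κ - r) (1 + κ) (1 + κ) q S (τ / 2) (τ / 2) τ d V W)
    (hDl : ∀ V : {p // p ∈ PI N} → ℝ, (∀ p, 0 < V p) → ∑ p, V p ≤ 10 * N * R → ∀ w ∈ W,
      Pu n β (4 * u) (tv (2 * N + 5) (aI N u w 0 V)) ≤
        (skS n (2 * N + 5) (mI N u (51 / 100) (1 + κ - r) (1 + κ) (1 + κ) q)
          (bI n N β u S τ (τ / 2) (τ / 2)) (aI N u w 0 V)).fe + D0 * n * u ^ 5)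
    (hc : c = C4 β (51 / 100) (τ / 2) D0)
    (hD0 : 1 ≤ 51 / 100 * D0 * (n * u ^ 6)) (hn2 : 1 ≤ n * u ^ 2) (hδ : 0 < δ) (hδ1 : δ ≤ 1)
    (hg : 64 * (E0 * (n * u ^ 5)) / (51 / 100 * u * n ^ 2 * R ^ 2) = g)
    (hδ2 : 5 * (c * u) ^ 2 / (N - 2) + 20 * g / st N u (1 + κ) q ^ 2 ≤ (δ * u) ^ 2)
    (hB0 : 1 ≤ B0) (hBβ : β ^ 2 ≤ B0) (hcu : c * u ≤ 1)
    (hsm : 4 * (c * u) ^ 2 * (B0 + 3 * u ^ 3) ≤ 1 / 4) (ht : 0 < t) (ht1 : t ≤ 1)
    (hE : ∀ κ' : ℝ, κ' ≤ 3 * u ^ 3 → eT n (c * u) (δ * u) κ' B0 g (st N u (1 + κ) q) R t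
      ((1 + κ) * u * q) ≤ ε * u ^ 3)
    (hκB : 3 * u ^ 3 + B0 / n ≤ c * u) (hAu : 8 * β * E0 * u ^ 2 ≤ 1) (hρs : 0 < ρs)
    (hε0 : 0 ≤ ε) (hc2 : 200 * (c ^ 2 * β ^ 2 * u ^ 2) ≤ 1) (hε : 200 * ε ≤ ρs * (τ / 2))
    (hd : 4 * (r * c + 2 * q * c) +
      (8 * (6 * (c ^ 2 * β ^ 2 * (τ / 2) * u ^ 2 + 2 * ε / ρs)) + ρs) / 2 + 10 * √ε1 +
        q * c / r ≤ d2) (hd1 : 2 * d ≤ d1) :
    RowF n β κ u S τ (τ / 2) r (8 * β * E0) 10 d1 d2 W := by
  intro w hwW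
  have hw0 := (hW hwW).1
  have hw1 := (hW hwW).2
  have hu := H.u0
  have hβ0 : 0 < β := by linarith
  have hn0 : 0 < n := by omega
  have hn' : (0 : ℝ) < n := Nat.cast_pos.2 hn0
  have hu3 : 0 < u ^ 3 := by positivity
  have hEp : 0 < E0 * (n * u ^ 5) := by positivity
  have hu2 : 0 < u ^ 2 := by positivity
  have hsh : Shr u S τ (τ / 2) (τ / 2) :=
    ⟨by linarith, hτS, by linarith, by linarith, by linarith⟩
  have hτu : τ * u ^ 2 ≤ 1 / 2 := (mul_le_mul_of_nonneg_right hτS hu2.le).trans hSu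
  have hc2' := C4_two (β := β) (y := 51 / 100) (T1 := τ / 2) (E := D0)
  rw [← hc] at hc2'
  have hε1u : ε1 * u ^ 3 ≤ u ^ 3 := by
    have := mul_le_mul_of_nonneg_right hε1' hu3.le
    linarith
  have hwu : w * u ^ 3 ≤ u ^ 3 := by
    have := mul_le_mul_of_nonneg_right hw1 hu3.le
    linarith
  have hz2u : (1 + κ) * u ≤ 2 * u := mul_le_mul_of_nonneg_right (by linarith) hu.le
  -- the selection
  obtain ⟨V, hV, hgg⟩ := selI (n := n) hn0 hβ0.le H hsh hw0 le_rfl hEp hA (by linarith) hu4 hR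
    (by linarith)
  rw [hg] at hgg
  have hVp : ∀ p, 0 < V p := fun p => by have := (hV p).1; linarith
  have hV0 : ∀ p, 0 ≤ V p := fun p => (hVp p).le
  have hVs' : ∑ p, V p ≤ 10 * N * R := by
    have h1 : ∑ p, V p ≤ ∑ _p : {p // p ∈ PI N}, 4 * R :=
      Finset.sum_le_sum fun p _ => (hV p).2.le
    rw [Finset.sum_const, Finset.card_univ, Fintype.card_coe, card_PI, nsmul_eq_mul] at h1
    push_cast at h1
    have h2 : 0 ≤ N * R := by positivity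
    linarith
  have hVs : ∑ p, V p ≤ ε1 * u ^ 3 := hVs'.trans hNR
  have hVs0 : 0 ≤ ∑ p, V p := Finset.sum_nonneg fun p _ => hV0 p
  have hS3' := hS3 V hVp hVs'
  have hD := hDl V hVp hVs' w hwW
  -- the good levels
  have hκ3 : (w + ε1) * u ^ 3 ≤ 3 * u ^ 3 := mul_le_mul_of_nonneg_right (by linarith) hu3.le
  obtain ⟨l1, l0, h1, h0, G1, G0⟩ := goodI (D0 := D0) (δ := δ) (g := g) (B0 := B0)
    (κ := (w + ε1) * u ^ 3) (V := V) hn hβ0 H hsh hw0 le_rfl (by linarith) (by linarith) hu4 hVp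
    hgg hD hD0 hn2 hδ hδ1 (by rw [← hc]; exact hδ2) hB0 hBβ (by linarith) (by linarith)
    (by rw [← hc]; exact hcu) (by
      rw [← hc]
      refine le_trans ?_ hsm
      exact mul_le_mul_of_nonneg_left (by linarith) (by positivity)) (by linarith)
  have hq := fun {l : ℕ} (hl : l < 2 * N + 5) => rqI (D0 := D0) (l := l) hn hβ0 H hsh
    (by linarith) (by linarith) hu4 hD hD0 hn2 hl
  rw [← hc] at G1 G0 hq
  -- the responses
  have hEE : E0 * (n * u ^ 5) / (n * u ^ 5) = E0 := by field_simp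
  have aq := alB_ge (V := V) (T := τ) (wa := w) (w := 0) hn0 hβ0 H hsh hw0 le_rfl hV0 hA
    (by linarith) hu4 (by linarith)
  have a2 := alB_two_ge (V := V) (T := τ) (wa := w) (w := 0) hn0 hβ0 H hsh hw0 le_rfl hV0 hA
    (by linarith) hu4 (by linarith)
  rw [hEE] at aq a2
  have hsub := alB_sub (V := V) (S := S) (T := τ) (T1 := τ / 2) (e := τ / 2) (wa := w) (w := 0)
    hn0 hβ0 H (l1 := l1) (by omega) (by omega) (c := c) (by linarith)
    (hq (l := 2 * N + 3) (by omega)).2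
  -- the overlap
  have hr1 := rF (c := c) (δ := δ) (g := g) (B0 := B0) (κ := (w + ε1) * u ^ 3)
    (κ0 := w + ε1) (t := t) (ρs := ρs) (ε := ε) (Aα := 8 * β * E0) hn hβ H hsh (by linarith) hR
    (fun p => (hV p).1.le) h1 h0 G1 G0 (hq (l := 2 * N + 3) (by omega)).2 (by linarith)
    (by linarith) hc2' ht ht1 (by linarith) aq hAu hτu hρs (hE _ hκ3) hε0 hc2 hε le_rfl
  have hρc : Rq n (2 * N + 5) (mI N u (51 / 100) (1 + κ - r) (1 + κ) (1 + κ) q)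
      (bI n N β u S τ (τ / 2) (τ / 2)) (aI N u w 0 V) l1 / u ≤ c := by
    rw [div_le_iff₀ hu]
    exact (hq (l := l1) (by omega)).2
  obtain ⟨f1, f2⟩ := rowF_ag hn0 hβ0 hW H hS3' hτS hwW
  obtain ⟨α2, hα2⟩ : ∃ x, x = alB n N β u (51 / 100) (1 + κ - r) (1 + κ) (1 + κ) q S (τ / 2)
    (τ / 2) V τ w 0 2 := ⟨_, rfl⟩
  obtain ⟨αq, hαq⟩ : ∃ x, x = alB n N β u (51 / 100) (1 + κ - r) (1 + κ) (1 + κ) q S (τ / 2)
    (τ / 2) V τ w 0 (2 * N + 4) := ⟨_, rfl⟩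
  obtain ⟨ρ1, hρ1⟩ : ∃ x, x = Rq n (2 * N + 5) (mI N u (51 / 100) (1 + κ - r) (1 + κ) (1 + κ) q)
      (bI n N β u S τ (τ / 2) (τ / 2)) (aI N u w 0 V) l1 / u := ⟨_, rfl⟩
  rw [← hα2, ← hαq] at f2 hsub
  rw [← hα2] at f1 a2
  rw [← hαq] at hr1 aq
  rw [← hρ1] at hr1 hρc hsub
  refine ⟨w / (4 * β) * (αq - α2), α2, a2, fun w' hw' => ?_, ?_, ?_⟩
  · have := f1 w' hw'
    linarith
  · linarith
  · have e1 : (1 + κ : ℝ) - (1 + κ - r) = r := by ring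
    rw [e1] at hsub
    refine rowF_num (c := c) (q := q) (v := 1 + κ) (ρ1 := ρ1) (τ := τ) (Q := τ * u ^ 2)
      (X := 8 * (6 * (c ^ 2 * β ^ 2 * (τ / 2) * u ^ 2 + 2 * ε / ρs)) + ρs) (X1 := ε1)
      hβ hr hw0 hw1 H.q0.le (by linarith) (by linarith) (by linarith) hτ.le hτu hsub.2 hρc ?_
      (by positivity) hε1 hd
    linarith

end Vale.Agent.P146.H508.RF
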