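import Vale.Agent.P146.H508.RF3
import Vale.Agent.P146.H985.S3I
import Vale.Agent.P146.H985.S3g
import Vale.Agent.P146.H437.UpE
import Vale.Agent.P146.H437.Dloc
import Vale.Agent.P146.H437.DlocN
import Vale.Agent.P146.H645x.BoxB
import Vale.Agent.P146.H645x.CstE
import Vale.Agent.P146.H444.GlueU

/-!
# P146: `RowFBox` (helper508)
-/

open MeasureTheory ProbabilityTheory Set

namespace Vale.Agent.P146.H508.RF

open Vale.Agent.P157 Vale.Agent.P157.Lv Vale.Agent.P157.Lv.Sy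
open Vale.Agent.P146.H425 Vale.Agent.P146.H325 Vale.Agent.P146.H985 Vale.Agent.P146.U
open Vale.Agent.P146.H93 (Cd skS Em linS_sk)
open Vale.Agent.P146.H295 (gg spn zs zs_eq Th)
open Vale.Agent.P146.H758 (tv Ex2 Ap Pu)
open Vale.Agent.P146.H437 (psiN RowU RowF PuUp puUp ApE apE_of psiN_ge rayN dlocI upE_box)
open Vale.Agent.P146.H393.In
open Vale.Agent.P146.H444 (Bx RowFBox small_u)
open Vale.Agent.P146.H560 (psiU)
open Vale.Agent.P146.H985.S3 (Gc gc_ev)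

set_option linter.unusedSectionVars false

variable {n N : ℕ} {β κ u y a v z q S T T' T1 e wa w w' Y A E V1 R d d1 d2 r C C0 τ : ℝ}
  {V : {p // p ∈ PI N} → ℝ} {W : Set ℝ}

lemma ap_mono {E' : ℝ} (h : Ap n β y Y V1 A E) (hE : E ≤ E') : Ap n β y Y V1 A E' where
  lo := fun V h0 h1 => by
    have := h.lo V h0 h1
    linarith
  up := fun V h0 h1 => by
    have := h.up V h0 h1
    linarith

lemma s3H_mono {d' : ℝ} (h : S3H n N β u y a v z q S T1 e τ d V W) (hd : d ≤ d') :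
    S3H n N β u y a v z q S T1 e τ d' V W :=
  fun T hT w hw => ⟨(h T hT w hw).1.trans hd, (h T hT w hw).2.trans hd⟩

/-- the a priori box at two windows -/
theorem apTwo (hβ : 0 < β) (h2 : Ex2Out β) (hL : LStar β) : ∃ CE : ℝ, ∃ n0 : ℕ, 1 ≤ CE ∧
    1 ≤ n0 ∧ ∀ n : ℕ, n0 ≤ n → ∀ u B : ℝ, 2 * (n : ℝ) ^ (-(1 / 6) : ℝ) ≤ u →
      u ≤ (n : ℝ) ^ (-(11 / 100) : ℝ) → 0 ≤ B → Bx n β B u →
      Ap n β (51 / 100 * u) (4 * u) (8 * u ^ 3) (P1 n β (51 / 100 * u))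
        (CE * (B + 1) * (n * u ^ 5)) ∧
      Ap n β (1 / 2 * u) (4 * u) (8 * u ^ 3) (P1 n β (1 / 2 * u))
        (CE * (B + 1) * (n * u ^ 5)) := by
  obtain ⟨C, n1, hC, hn1, hinc⟩ := H758.hinc hβ.le h2 hL
  obtain ⟨n2, hn2, h4⟩ := H437.ev_pow 4
  refine ⟨1 + 1024 * C, max n1 n2, by linarith, by omega, ?_⟩
  intro n hn u B hu1 hu2 hB hbox
  have hn1' : n1 ≤ n := (le_max_left _ _).trans hn
  have hn2' : n2 ≤ n := (le_max_right _ _).trans hn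
  have hnn : 1 ≤ n := by omega
  have hnR : (1 : ℝ) ≤ n := by exact_mod_cast hnn
  have hn0 : (0 : ℝ) < n := by linarith
  have hx0 : 0 < (n : ℝ) ^ (-(1 / 6) : ℝ) := Real.rpow_pos_of_pos hn0 _
  have hu : 0 < u := by linarith
  have hinc' : ∀ x y, u / 2 ≤ x → x ≤ y → y ≤ 4 * u →
      P1 n β y ≤ P1 n β x + C * (n * y ^ 5) := by
    intro x y hx hxy hy
    refine hinc n hn1' x y (by linarith) hxy (hy.trans ?_)
    have h5 := h4 n hn2'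
    have h6 : (n : ℝ) ^ (-(21 / 200) : ℝ) ≤ (n : ℝ) ^ (-(1 / 10) : ℝ) :=
      Real.rpow_le_rpow_of_exponent_le hnR (by norm_num)
    linarith
  have hE : (B + 1024 * C) * (n * u ^ 5) ≤ (1 + 1024 * C) * (B + 1) * (n * u ^ 5) := by
    refine mul_le_mul_of_nonneg_right ?_ (by positivity)
    nlinarith
  refine ⟨ap_mono (H645x.ap_of_box hβ hu hC.le hbox hinc' (by linarith) (by linarith)
    (by linarith)) hE, ap_mono (H645x.ap_of_box hβ hu hC.le hbox hinc' (by linarith)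
    (by linarith) (by linarith)) hE⟩

/-- the scale condition with a factor -/
lemma k_le {K B γ : ℝ} (hn : 0 < n) (hu : 0 < u) (hB : 0 ≤ B)
    (hγ : γ * K ^ 6 ≤ 1) (hγ0 : 0 < γ) (h : (B + 1) ^ 8 ≤ γ * (n * u ^ 6)) :
    K * (n : ℝ) ^ (-(1 / 6) : ℝ) ≤ u := by
  have hn' : (0 : ℝ) < n := Nat.cast_pos.2 hn
  have h1 : (1 : ℝ) ≤ (B + 1) ^ 8 := one_le_pow₀ (by linarith)
  have hnu : (0 : ℝ) < n * u ^ 6 := by positivity
  have h3 : K ^ 6 ≤ n * u ^ 6 := by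
    have h5 : γ * K ^ 6 ≤ γ * (n * u ^ 6) := hγ.trans (h1.trans h)
    exact le_of_mul_le_mul_left h5 hγ0
  have h4 : ((n : ℝ) ^ (-(1 / 6) : ℝ)) ^ 6 = (n : ℝ)⁻¹ := by
    rw [← Real.rpow_natCast, ← Real.rpow_mul hn'.le]
    norm_num
    exact Real.rpow_neg_one _
  have h5 : (K * (n : ℝ) ^ (-(1 / 6) : ℝ)) ^ 6 ≤ u ^ 6 := by
    rw [mul_pow, h4, ← div_eq_mul_inv, div_le_iff₀ hn']
    linarith
  exact le_of_pow_le_pow_left₀ (by norm_num) hu.le h5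

/-- `n u²²` is small -/
lemma n_u22 (hn : 0 < n) (hu : 0 < u) (h : u ≤ (n : ℝ) ^ (-(11 / 100) : ℝ)) :
    n * u ^ 22 ≤ 1 := by
  have hn' : (0 : ℝ) < n := Nat.cast_pos.2 hn
  have hn1 : (1 : ℝ) ≤ n := by exact_mod_cast hn
  have h1 := pow_le_pow_left₀ hu.le h 22
  have h2 : ((n : ℝ) ^ (-(11 / 100) : ℝ)) ^ 22 = (n : ℝ) ^ (-(242 / 100) : ℝ) := by
    rw [← Real.rpow_natCast, ← Real.rpow_mul hn'.le]
    norm_num
  have h3 : (n : ℝ) ^ (-(242 / 100) : ℝ) ≤ (n : ℝ) ^ (-1 : ℝ) :=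
    Real.rpow_le_rpow_of_exponent_le hn1 (by norm_num)
  rw [Real.rpow_neg_one] at h3
  rw [h2] at h1
  calc n * u ^ 22 ≤ n * (n : ℝ)⁻¹ := mul_le_mul_of_nonneg_left (h1.trans h3) hn'.le
    _ = 1 := mul_inv_cancel₀ hn'.ne'

/-- `A (B + 1) u²` is small -/
lemma ab_le {A B γ : ℝ} (hn : 0 < n) (hu : 0 < u) (h : u ≤ (n : ℝ) ^ (-(11 / 100) : ℝ))
    (hγ : γ * A ^ 8 ≤ 1) (h8 : (B + 1) ^ 8 ≤ γ * (n * u ^ 6)) : A * (B + 1) * u ^ 2 ≤ 1 := by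
  have h1 := n_u22 hn hu h
  have h2 : (A * (B + 1) * u ^ 2) ^ 8 ≤ 1 ^ 8 := by
    have e1 : (A * (B + 1) * u ^ 2) ^ 8 = A ^ 8 * u ^ 16 * (B + 1) ^ 8 := by ring
    rw [e1]
    calc A ^ 8 * u ^ 16 * (B + 1) ^ 8 ≤ A ^ 8 * u ^ 16 * (γ * (n * u ^ 6)) :=
          mul_le_mul_of_nonneg_left h8 (by positivity)
      _ = (γ * A ^ 8) * (n * u ^ 22) := by ring
      _ ≤ 1 * 1 := mul_le_mul hγ h1 (by positivity) zero_le_one
      _ = 1 ^ 8 := by norm_num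
  exact le_of_pow_le_pow_left₀ (by norm_num) zero_le_one h2

/-- the a priori data at one scale -/
structure Scl (n : ℕ) (β κ u S τ r B CE CP E0 C1 : ℝ) (W : Set ℝ) : Prop where
  n2 : 2 ≤ n
  κ0 : 0 < κ
  κ1 : κ ≤ 1 / 200
  r0 : 0 < r
  rκ : r ≤ κ
  u0 : 0 < u
  u8 : 8 * u ≤ 1
  τ0 : 0 < τ
  τS : τ ≤ S
  Su : S * u ^ 2 ≤ 1 / 2
  B0 : 0 ≤ B
  CE1 : 1 ≤ CE
  E00 : 0 ≤ E0
  C10 : 0 ≤ C1
  nu2 : 1 ≤ n * u ^ 2
  nu6 : 1 ≤ n * u ^ 6
  W01 : W ⊆ Icc 0 1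
  lo : ∀ w ∈ W, -C1 ≤ psiU n β κ τ u S (1 + κ) w
  ap : ApE n β κ τ u S (E0 + C1) W
  pu : PuUp n β CP u
  a1 : Ap n β (51 / 100 * u) (4 * u) (8 * u ^ 3) (P1 n β (51 / 100 * u))
    (CE * (B + 1) * (n * u ^ 5))
  a2 : Ap n β (1 / 2 * u) (4 * u) (8 * u ^ 3) (P1 n β (1 / 2 * u)) (CE * (B + 1) * (n * u ^ 5))

section scl

variable {B CE CP E0 C1 ε1 εG D D0 : ℝ}

lemma Scl.adm (h : Scl n β κ u S τ r B CE CP E0 C1 W) (hN : 3 ≤ N) (hq : 0 < q)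
    (hqr : q ≤ r / 2) : Adm N u (51 / 100) (1 + κ - r) (1 + κ) (1 + κ) q := by
  have h1 := h.κ0
  have h2 := h.κ1
  have h3 := h.rκ
  have h4 := h.u0
  have h5 := h.u8
  have h6 := h.r0
  exact
    { N3 := hN
      u0 := h4
      y0 := by norm_num
      ya := by linarith
      av := by nlinarith
      vz := le_rfl
      zu := by nlinarith
      q0 := hq
      q1 := by linarith }

/-- the energy of the plain laws -/
lemma Scl.ray (hβ0 : 0 < β) (h : Scl n β κ u S τ r B CE CP E0 C1 W)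
    (hD : CP + (C1 + (E0 + C1)) ≤ D) {T w : ℝ} (hT : T ∈ Icc τ S) (hw : w ∈ W) :
    (skS n 4 (S3.ray 4 (1 + 1) (H437.mN u (1 + κ - r) (1 + κ) (1 + κ)))
        (H437.bN n β (τ / 2) u S T) (H437.wN u 0 w)).fe -
      (skS n 4 (H437.mN u (1 + κ - r) (1 + κ) (1 + κ)) (H437.bN n β (τ / 2) u S T)
        (H437.wN u 0 w)).fe ≤ D * (n * u ^ 5) ∧
    (skS n 4 (S3.ray 4 (1 + 1) (H437.mN u (1 + κ - r) (1 + κ) (1 + κ)))
        (H437.bN n β (τ / 2) u S T) (H437.wN u w 0)).fe -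
      (skS n 4 (H437.mN u (1 + κ - r) (1 + κ) (1 + κ)) (H437.bN n β (τ / 2) u S T)
        (H437.wN u w 0)).fe ≤ D * (n * u ^ 5) := by
  have hκ := h.κ0
  have hκ1 := h.κ1
  have hrκ := h.rκ
  have hu := h.u0
  have t2 := h.u8
  have hr := h.r0
  have hτ := h.τ0
  have hSu := h.Su
  have hn6' := h.n2
  have hE0 := h.E00
  have hC1 := h.C10
  have hwI := h.W01 hw
  have hnp : 0 < n := by omega
  have h2u : (1 + (1 + κ)) * u ≤ 1 := by nlinarith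
  obtain ⟨m1, m2⟩ := psiN_ge (n := n) (β := β) (κ := κ) (τ := τ) (T1 := τ / 2) (u := u)
    (S := S) (r := r) (E := E0 + C1) (C1 := C1) (T := T) (w := w) hnp hβ0 hu hκ h2u
    (by positivity) (by linarith) hr.le hrκ hT hwI.1 (h.ap w hw) (h.lo w hw)
  have hrE : r * (E0 + C1) ≤ E0 + C1 := by
    have := mul_le_mul_of_nonneg_right (show r ≤ 1 by linarith) (by positivity : 0 ≤ E0 + C1)
    linarith
  have hDD : (CP + (C1 + r * (E0 + C1))) * (n * u ^ 5) ≤ D * (n * u ^ 5) :=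
    mul_le_mul_of_nonneg_right (by linarith) (by positivity)
  exact ⟨(rayN hnp hβ0 hu (by linarith) (by positivity) (by linarith [hT.1]) hT.2
      (by linarith) (by linarith) le_rfl (by linarith) zero_le_one (by linarith) t2 le_rfl
      hwI.1 (by linarith [hwI.2]) h.pu m1).trans hDD,
    (rayN hnp hβ0 hu (by linarith) (by positivity) (by linarith [hT.1]) hT.2
      (by linarith) (by linarith) le_rfl (by linarith) zero_le_one (by linarith) t2 hwI.1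
      le_rfl (by linarith [hwI.2]) h.pu m2).trans hDD⟩

/-- bundled against plain -/
lemma Scl.s3 (hβ0 : 0 < β) (h : Scl n β κ u S τ r B CE CP E0 C1 W) (hN : 3 ≤ N) (hq : 0 < q)
    (hqr : q ≤ r / 2) (hd0 : 0 < d) (hD : CP + (C1 + (E0 + C1)) ≤ D) (hqD : q * D ≤ d / 3)
    (hG : Gc n β (4 * S) εG (d / 3) (51 / 100 * u)) (hε10 : 0 < ε1) (hε1a : ε1 ≤ 1)
    (hε1c : ε1 * (5 + 640 * CE / (β ^ 2 * τ) + 2 * CE) ≤ d / 3) (hε1d : 8 * ε1 ≤ εG)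
    (hV : ∀ p, 0 < V p) (hVs : ∑ p, V p ≤ ε1 / (B + 1) * u ^ 3) :
    S3H n N β u (51 / 100) (1 + κ - r) (1 + κ) (1 + κ) q S (τ / 2) (τ / 2) τ d V W := by
  have hB := h.B0
  have hCE := h.CE1
  have hτ := h.τ0
  have hκ1 := h.κ1
  have hu := h.u0
  have hn6 := h.nu6
  have hSu := h.Su
  have t2 := h.u8
  have hB1 : 0 < B + 1 := by linarith
  have hu3 : 0 < u ^ 3 := by positivity
  have hκ0a : ε1 / (B + 1) ≤ ε1 := div_le_self hε10.le (by linarith)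
  have h1 := S3.s3H (n := n) (N := N) (β := β) (u := u) (a := 1 + κ - r) (v := 1 + κ)
    (z := 1 + κ) (q := q) (S := S) (T1 := τ / 2) (e := τ / 2) (τ := τ) (E0 := CE * (B + 1))
    (c1 := d / 3) (ε := εG) (κ0 := ε1 / (B + 1)) (D := D) (V := V) (W := W)
    h.n2 hβ0 (h.adm hN hq hqr) (by linarith) (by positivity) (by positivity) (by linarith)
    (by linarith) h.a2 (by positivity) le_rfl le_rfl (by linarith) (by positivity) (by
      have : 1 ≤ CE * (B + 1) := by nlinarith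
      nlinarith) h.nu2 hG (by positivity)
    (fun p => (hV p).le) hVs (by linarith) (by linarith) (by linarith)
    h.W01 (fun T hT w hw => h.ray hβ0 hD hT hw)
  refine s3H_mono h1 ?_
  have e1 : ε1 / (B + 1) * (5 + 320 * (CE * (B + 1)) / (β ^ 2 * (τ / 2)) +
      2 * (CE * (B + 1))) = ε1 * (5 / (B + 1) + 640 * CE / (β ^ 2 * τ) + 2 * CE) := by
    field_simp
    ring
  have e2 : 5 / (B + 1) ≤ 5 := div_le_self (by norm_num) (by linarith)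
  have e3 : ε1 * (5 / (B + 1) + 640 * CE / (β ^ 2 * τ) + 2 * CE) ≤
      ε1 * (5 + 640 * CE / (β ^ 2 * τ) + 2 * CE) :=
    mul_le_mul_of_nonneg_left (by linarith) hε10.le
  rw [e1]
  linarith

/-- the local energy -/
lemma Scl.dl (hβ0 : 0 < β) (h : Scl n β κ u S τ r B CE CP E0 C1 W)
    (hD0 : CP + (C1 + (E0 + C1) + 1) ≤ D0) (hd1 : d ≤ 1) (hV : ∀ p, 0 < V p)
    (hVs : ∑ p, V p ≤ u ^ 3)
    (hS3 : S3H n N β u (51 / 100) (1 + κ - r) (1 + κ) (1 + κ) q S (τ / 2) (τ / 2) τ d V W)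
    (hw : w ∈ W) :
    Pu n β (4 * u) (tv (2 * N + 5) (aI N u w 0 V)) ≤
      (skS n (2 * N + 5) (mI N u (51 / 100) (1 + κ - r) (1 + κ) (1 + κ) q)
        (bI n N β u S τ (τ / 2) (τ / 2)) (aI N u w 0 V)).fe + D0 * n * u ^ 5 := by
  have hκ := h.κ0
  have hκ1 := h.κ1
  have hrκ := h.rκ
  have hu := h.u0
  have t2 := h.u8
  have hr := h.r0
  have hτ := h.τ0
  have hn6' := h.n2
  have hE0 := h.E00
  have hC1 := h.C10
  have hnp : 0 < n := by omega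
  have h2u : (1 + (1 + κ)) * u ≤ 1 := by nlinarith
  have hu3 : 0 < u ^ 3 := by positivity
  have h1 := (dlocI (C1 := C1) (C := CP) (E := E0 + C1) (d := d) (c := 4) (T := τ)
    (T1 := τ / 2) (e := τ / 2) hnp hβ0 hu hκ h2u (by positivity) (by linarith) hr.le hrκ
    ⟨le_rfl, h.τS⟩ h.W01 hw h.ap h.lo h.pu (by norm_num) (by norm_num) (fun p => (hV p).le)
    (by linarith) hS3).2
  refine h1.trans ?_
  have hrE : r * (E0 + C1) ≤ E0 + C1 := by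
    have := mul_le_mul_of_nonneg_right (show r ≤ 1 by linarith) (by positivity : 0 ≤ E0 + C1)
    linarith
  have e1 : (CP + (C1 + r * (E0 + C1) + d)) * n * u ^ 5 ≤ D0 * n * u ^ 5 := by
    rw [mul_assoc, mul_assoc]
    exact mul_le_mul_of_nonneg_right (by linarith) (by positivity)
  linarith

/-- **`RowF` at one scale** -/
theorem Scl.rowF {c δ t ρs ε : ℝ} (hβ : 1 ≤ β) (h : Scl n β κ u S τ r B CE CP E0 C1 W)
    (hN : 3 ≤ N) (hq : 0 < q) (hqr : q ≤ r / 2) (hd0 : 0 < d) (hd1 : d ≤ 1)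
    (hD : CP + (C1 + (E0 + C1)) ≤ D) (hqD : q * D ≤ d / 3)
    (hG : Gc n β (4 * S) εG (d / 3) (51 / 100 * u)) (hε10 : 0 < ε1) (hε1a : ε1 ≤ 1)
    (hε1c : ε1 * (5 + 640 * CE / (β ^ 2 * τ) + 2 * CE) ≤ d / 3) (hε1d : 8 * ε1 ≤ εG)
    (hD0 : CP + (C1 + (E0 + C1) + 2) = D0) (hCP : 0 < CP)
    (hc : c = C4 β (51 / 100) (τ / 2) D0)
    (hR : 0 < R) (hRe : 10 * N * R * (B + 1) = ε1 * u ^ 3) (hδ : 0 < δ) (hδ1 : δ ≤ 1)
    (hδ2 : 5 * (c * u) ^ 2 / (N - 2) +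
      20 * (64 * (CE * (B + 1) * (n * u ^ 5)) / (51 / 100 * u * n ^ 2 * R ^ 2)) /
        ((1 + κ) * u * q / (2 * N + 2)) ^ 2 ≤ (δ * u) ^ 2)
    (hcu : c * u ≤ 1) (hsm : 4 * (c * u) ^ 2 * (β ^ 2 + 3 * u ^ 3) ≤ 1 / 4) (ht : 0 < t)
    (ht1 : t ≤ 1)
    (hE : ∀ κ' : ℝ, κ' ≤ 3 * u ^ 3 → H877x.eT n (c * u) (δ * u) κ' (β ^ 2)
      (64 * (CE * (B + 1) * (n * u ^ 5)) / (51 / 100 * u * n ^ 2 * R ^ 2))
      ((1 + κ) * u * q / (2 * N + 2)) R t ((1 + κ) * u * q) ≤ ε * u ^ 3)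
    (hβu : β ^ 2 * u ≤ 1) (hAu : 8 * β * CE * (B + 1) * u ^ 2 ≤ 1) (hρs : 0 < ρs)
    (hε0 : 0 ≤ ε) (hc2 : 200 * (c ^ 2 * β ^ 2 * u ^ 2) ≤ 1) (hε : 200 * ε ≤ ρs * (τ / 2))
    (hdd : 4 * (r * c + 2 * q * c) +
      (8 * (6 * (c ^ 2 * β ^ 2 * (τ / 2) * u ^ 2 + 2 * ε / ρs)) + ρs) / 2 + 10 * √ε1 +
        q * c / r ≤ d2) (hdd1 : 2 * d ≤ d1) :
    RowF n β κ u S τ (τ / 2) r (8 * β * (CE * (B + 1))) 10 d1 d2 W := by
  have hβ0 : 0 < β := by linarith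
  have hB := h.B0
  have hCE := h.CE1
  have hτ := h.τ0
  have hu := h.u0
  have hn6 := h.nu6
  have hn2 := h.nu2
  have t2 := h.u8
  have hn6' := h.n2
  have hnp : 0 < n := by omega
  have hnR : (0 : ℝ) < n := Nat.cast_pos.2 hnp
  have hB1 : 0 < B + 1 := by linarith
  have hu3 : 0 < u ^ 3 := by positivity
  have hc2' : 2 ≤ c := by
    rw [hc]
    exact C4_two
  have hNRe : 10 * N * R = ε1 / (B + 1) * u ^ 3 := by
    field_simp
    linarith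
  have hκ0a : ε1 / (B + 1) ≤ ε1 := div_le_self hε10.le (by linarith)
  have hNR : 10 * N * R ≤ ε1 * u ^ 3 := by
    rw [hNRe]
    exact mul_le_mul_of_nonneg_right hκ0a hu3.le
  have hNR1 : 10 * N * R ≤ u ^ 3 := by
    have := mul_le_mul_of_nonneg_right hε1a hu3.le
    linarith
  have hS3 : ∀ V : {p // p ∈ PI N} → ℝ, (∀ p, 0 < V p) → ∑ p, V p ≤ 10 * N * R →
      S3H n N β u (51 / 100) (1 + κ - r) (1 + κ) (1 + κ) q S (τ / 2) (τ / 2) τ d V W :=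
    fun V hV hVs => h.s3 hβ0 hN hq hqr hd0 hD hqD hG hε10 hε1a hε1c hε1d hV
      (by rw [← hNRe]; exact hVs)
  have hβ2 : 1 ≤ β ^ 2 := one_le_pow₀ hβ
  refine rowF_fix (n := n) (N := N) (β := β) (κ := κ) (u := u) (q := q) (S := S) (τ := τ)
    (r := r) (d := d) (d1 := d1) (d2 := d2) (W := W) (c := c) (δ := δ)
    (g := 64 * (CE * (B + 1) * (n * u ^ 5)) / (51 / 100 * u * n ^ 2 * R ^ 2)) (B0 := β ^ 2)
    (t := t) (ρs := ρs) (ε := ε) (E0 := CE * (B + 1)) (D0 := D0) (ε1 := ε1) hn6' hβ h.κ0 h.κ1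
    h.r0 (h.adm hN hq hqr) hτ h.τS h.Su (by linarith) h.a1 (by positivity) hR hNR hε10.le hε1a
    h.W01 hS3 (fun V hV hVs w hw => h.dl hβ0 (by linarith) hd1 hV (by linarith)
      (hS3 V hV hVs) hw) hc (by
      have h1 := h.E00
      have h2 := h.C10
      have h3 : (1 : ℝ) ≤ 51 / 100 * D0 := by linarith
      exact one_le_mul_of_one_le_of_one_le h3 hn6) hn2 hδ hδ1 rfl hδ2 hβ2 le_rfl hcu hsm ht ht1 hE ?_ (by linarith) hρs hε0 hc2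
    hε hdd hdd1
  -- `3 u³ + β² / n ≤ c u`
  have e1 : β ^ 2 / n ≤ β ^ 2 * u ^ 2 := by
    rw [div_le_iff₀ hnR]
    have e0 := mul_le_mul_of_nonneg_left hn2 (sq_nonneg β)
    linarith
  have e2 : β ^ 2 * u ^ 2 ≤ u := by
    calc β ^ 2 * u ^ 2 = β ^ 2 * u * u := by ring
      _ ≤ 1 * u := mul_le_mul_of_nonneg_right hβu hu.le
      _ = u := one_mul u
  have e3 : 3 * u ^ 3 ≤ u := by
    have e5 : (8 * u) ^ 2 ≤ 1 := pow_le_one₀ (by positivity) t2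
    have e4 : u ^ 2 ≤ 1 / 64 := by linarith
    calc 3 * u ^ 3 = 3 * u ^ 2 * u := by ring
      _ ≤ 1 * u := mul_le_mul_of_nonneg_right (by linarith) hu.le
      _ = u := one_mul u
  have e4 : 2 * u ≤ c * u := mul_le_mul_of_nonneg_right hc2' hu.le
  linarith

end scl

end Vale.Agent.P146.H508.RF
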