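import Vale.Agent.P146.H508.RF4

/-!
# P146: `RowFBox` (helper508), the constants
-/

open MeasureTheory ProbabilityTheory Set

namespace Vale.Agent.P146.H508.RF

open Vale.Agent.P146.H332 Vale.Agent.P146.U
open Vale.Agent.P146.H437 (RowF PuUp puUp ApE apE_of upE_box)

open Vale.Agent.P146.H444 (Bx RowFBox small_u)
open Vale.Agent.P146.H560 (psiU)
open Vale.Agent.P146.H985.S3 (Gc gc_ev)

/-- the width of the bundle -/
lemma q_choice {q0 r d2 c d D : ℝ} (hq0 : 0 < q0) (hr : 0 < r) (hd2 : 0 < d2) (hc : 0 < c)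
    (hd : 0 < d) (hD : 0 ≤ D) : ∃ q : ℝ, 0 < q ∧ q ≤ q0 ∧ q ≤ r / 2 ∧ 80 * (q * c) ≤ d2 ∧
      q * c / r ≤ d2 / 10 ∧ q * D ≤ d / 3 := by
  obtain ⟨q, hq⟩ : ∃ q, q = min q0 (min (r / 2) (min (d2 / (80 * c))
    (min (r * d2 / (10 * c)) (d / (3 * (D + 1)))))) := ⟨_, rfl⟩
  have hq00 : 0 < q := by rw [hq]; positivity
  have hqa : q ≤ q0 := by rw [hq]; exact min_le_left _ _
  have hqb : q ≤ r / 2 := by
    rw [hq]; exact (min_le_right _ _).trans (min_le_left _ _)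
  have hqc : q ≤ d2 / (80 * c) := by
    rw [hq]; exact (min_le_right _ _).trans ((min_le_right _ _).trans (min_le_left _ _))
  have hqd : q ≤ r * d2 / (10 * c) := by
    rw [hq]
    exact (min_le_right _ _).trans ((min_le_right _ _).trans ((min_le_right _ _).trans
      (min_le_left _ _)))
  have hqe : q ≤ d / (3 * (D + 1)) := by
    rw [hq]
    exact (min_le_right _ _).trans ((min_le_right _ _).trans ((min_le_right _ _).trans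
      (min_le_right _ _)))
  refine ⟨q, hq00, hqa, hqb, ?_, ?_, ?_⟩
  · rw [le_div_iff₀ (by positivity)] at hqc
    linarith
  · rw [le_div_iff₀ (by positivity)] at hqd
    rw [div_le_iff₀ hr]
    linarith
  · rw [le_div_iff₀ (by positivity)] at hqe
    linarith

/-- the sum of the fields of the bundles -/
lemma ε_choice {d2 d M εG : ℝ} (hd2 : 0 < d2) (hd : 0 < d) (hM : 0 < M) (hG : 0 < εG) :
    ∃ ε1 : ℝ, 0 < ε1 ∧ ε1 ≤ 1 ∧ 10 * √ε1 ≤ d2 / 10 ∧ ε1 * M ≤ d / 3 ∧ 8 * ε1 ≤ εG := by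
  obtain ⟨ε1, hε1⟩ : ∃ ε1, ε1 = min 1 (min ((d2 / 100) ^ 2) (min (d / (3 * M)) (εG / 8))) :=
    ⟨_, rfl⟩
  have hε10 : 0 < ε1 := by rw [hε1]; positivity
  have hε1a : ε1 ≤ 1 := by rw [hε1]; exact min_le_left _ _
  have hε1b : ε1 ≤ (d2 / 100) ^ 2 := by
    rw [hε1]; exact (min_le_right _ _).trans (min_le_left _ _)
  have h1 : ε1 ≤ d / (3 * M) := by
    rw [hε1]; exact (min_le_right _ _).trans ((min_le_right _ _).trans (min_le_left _ _))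
  have h2 : ε1 ≤ εG / 8 := by
    rw [hε1]; exact (min_le_right _ _).trans ((min_le_right _ _).trans (min_le_right _ _))
  refine ⟨ε1, hε10, hε1a, ?_, ?_, by linarith⟩
  · have h : √ε1 ≤ d2 / 100 := by
      rw [Real.sqrt_le_left (by positivity)]
      exact hε1b
    linarith
  · rw [le_div_iff₀ (by positivity)] at h1
    linarith

/-- the scales -/
lemma u_choice {u0 S β c τ d2 : ℝ} (hu0 : 0 < u0) (hS : 0 ≤ S) (hτ : 0 ≤ τ) (hd2 : 0 < d2) :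
    ∃ n0 : ℕ, 1 ≤ n0 ∧ ∀ n : ℕ, n0 ≤ n → ∀ u : ℝ, u ≤ (n : ℝ) ^ (-(11 / 100) : ℝ) → 0 < u →
      u ≤ u0 ∧ 8 * u ≤ 1 ∧ S * u ^ 2 ≤ 1 / 2 ∧ β ^ 2 * u ≤ 1 ∧
      200 * (c ^ 2 * β ^ 2 * u ^ 2) ≤ 1 ∧ 240 * (c ^ 2 * β ^ 2 * τ) * u ^ 2 ≤ d2 := by
  obtain ⟨M5, hM5⟩ : ∃ M5, M5 = 1 / u0 + 8 + 2 * S + β ^ 2 + 200 * (c ^ 2 * β ^ 2) +
    240 * (c ^ 2 * β ^ 2 * τ) / d2 := ⟨_, rfl⟩
  obtain ⟨n5, hn5, h5⟩ := small_u M5
  have hu0' : 0 ≤ 1 / u0 := by positivity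
  have p1 : 0 ≤ β ^ 2 := by positivity
  have p2 : 0 ≤ 200 * (c ^ 2 * β ^ 2) := by positivity
  have p3 : 0 ≤ 240 * (c ^ 2 * β ^ 2 * τ) / d2 := by positivity
  refine ⟨n5, hn5, fun n hn u huu hu => ?_⟩
  obtain ⟨s1, s2⟩ := h5 n hn u huu hu
  have hu2 : 0 < u ^ 2 := by positivity
  have sub1 : ∀ x : ℝ, x ≤ M5 → x * u ≤ 1 := fun x hx =>
    (mul_le_mul_of_nonneg_right hx hu.le).trans s1
  have sub2 : ∀ x : ℝ, x ≤ M5 → x * u ^ 2 ≤ 1 := fun x hx =>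
    (mul_le_mul_of_nonneg_right hx hu2.le).trans s2
  refine ⟨?_, sub1 8 (by linarith), ?_, sub1 _ (by linarith), ?_, ?_⟩
  · have := sub1 (1 / u0) (by linarith)
    rw [one_div_mul_eq_div, div_le_one hu0] at this
    exact this
  · have := sub2 (2 * S) (by linarith)
    linarith
  · have := sub2 (200 * (c ^ 2 * β ^ 2)) (by linarith)
    linarith
  · have := sub2 (240 * (c ^ 2 * β ^ 2 * τ) / d2) (by linarith)
    rw [div_mul_eq_mul_div, div_le_one hd2] at this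
    exact this

/-- the condition on `B` -/
lemma γ_choice {γ K A : ℝ} (hγ : 0 < γ) (hA : 0 < A) : ∃ γ' Kc : ℝ, 0 < γ' ∧ γ' ≤ γ ∧ K ≤ Kc ∧
    2 ≤ Kc ∧ γ' * Kc ^ 6 ≤ 1 ∧ γ' * A ^ 8 ≤ 1 := by
  obtain ⟨Kc, hKc⟩ : ∃ Kc, Kc = max K 2 := ⟨_, rfl⟩
  have hK1 : K ≤ Kc := by rw [hKc]; exact le_max_left _ _
  have hK2 : 2 ≤ Kc := by rw [hKc]; exact le_max_right _ _
  have hKc0 : 0 < Kc := by linarith
  obtain ⟨γ', hγ'⟩ : ∃ γ', γ' = min γ (min (1 / Kc ^ 6) (1 / A ^ 8)) := ⟨_, rfl⟩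
  have hγ0 : 0 < γ' := by rw [hγ']; positivity
  refine ⟨γ', Kc, hγ0, by rw [hγ']; exact min_le_left _ _, hK1, hK2, ?_, ?_⟩
  · have h : γ' ≤ 1 / Kc ^ 6 := by
      rw [hγ']; exact (min_le_right _ _).trans (min_le_left _ _)
    rwa [le_div_iff₀ (by positivity)] at h
  · have h : γ' ≤ 1 / A ^ 8 := by
      rw [hγ']; exact (min_le_right _ _).trans (min_le_right _ _)
    rwa [le_div_iff₀ (by positivity)] at h

/-- the sum of the errors -/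
lemma err_sum {r c q β τ u ε ρs d2 x y : ℝ} (hρ : ρs = d2 / 10) (hρ0 : 0 < ρs)
    (hrc : 40 * (r * c) ≤ d2) (hqc : 80 * (q * c) ≤ d2) (hε : ε ≤ ρs * d2 / 480)
    (hu : 240 * (c ^ 2 * β ^ 2 * τ) * u ^ 2 ≤ d2) (hx : x ≤ d2 / 10) (hy : y ≤ d2 / 10) :
    4 * (r * c + 2 * q * c) +
      (8 * (6 * (c ^ 2 * β ^ 2 * (τ / 2) * u ^ 2 + 2 * ε / ρs)) + ρs) / 2 + x + y ≤ d2 := by
  have e1 : 48 * (2 * ε / ρs) ≤ d2 / 5 := by
    have e2 : ε / ρs ≤ d2 / 480 := by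
      rw [div_le_iff₀ hρ0]
      linarith
    have e3 : 2 * ε / ρs = 2 * (ε / ρs) := by ring
    rw [e3]
    linarith
  have e4 : (8 * (6 * (c ^ 2 * β ^ 2 * (τ / 2) * u ^ 2 + 2 * ε / ρs)) + ρs) / 2 =
      12 * (c ^ 2 * β ^ 2 * τ) * u ^ 2 + 48 * (2 * ε / ρs) / 2 + ρs / 2 := by ring
  have e5 : 4 * (r * c + 2 * q * c) = 4 * (r * c) + 8 * (q * c) := by ring
  rw [e4, e5]
  linarith

/-- **`RowFBox`** -/
theorem rowFBox {β : ℝ} (hβ : 1 < β) (h2 : Ex2Out β) (hL : LStar β) : RowFBox β := by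
  have hβ0 : 0 < β := by linarith
  have hCG := H97.cg hβ0 h2 hL
  obtain ⟨CE, n1, hCE, hn1, hAp⟩ := apTwo hβ0 h2 hL
  obtain ⟨CP, n2, hCP, hn2, hPu⟩ := puUp hβ0 h2 hL hCG
  obtain ⟨E0, hE0, hUp⟩ := upE_box hβ0 h2 hL
  refine ⟨max 10 (8 * β * CE), le_trans (by norm_num) (le_max_left _ _), fun κ hκ hκ1 =>
    ⟨1, fun S hS => ⟨1, one_pos, fun τ hτ hτ1 C1 d2 hC1 hd2 => ?_⟩⟩⟩
  obtain ⟨n3, hUp'⟩ := hUp S
  have hτS : τ ≤ S := hτ1.trans hS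
  have hCE0 : 0 < CE := by linarith
  obtain ⟨D0, hD0⟩ : ∃ D0, CP + (C1 + (E0 + C1) + 2) = D0 := ⟨_, rfl⟩
  obtain ⟨c, hc⟩ : ∃ c : ℝ, c = H393.In.C4 β (51 / 100) (τ / 2) D0 := ⟨_, rfl⟩
  have hc2 : 2 ≤ c := by
    rw [hc]
    exact H393.In.C4_two
  have hc0 : 0 < c := by linarith
  refine ⟨d2 / (40 * c), by positivity, fun r hr hr0 hrκ d1 hd1 => ?_⟩
  have hrc : 40 * (r * c) ≤ d2 := by
    rw [le_div_iff₀ (by positivity)] at hr0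
    linarith
  -- the errors
  obtain ⟨d, hd⟩ : ∃ d, d = min (d1 / 2) 1 := ⟨_, rfl⟩
  have hd0 : 0 < d := by rw [hd]; positivity
  have hdd1 : 2 * d ≤ d1 := by
    have : d ≤ d1 / 2 := by rw [hd]; exact min_le_left _ _
    linarith
  have hd11 : d ≤ 1 := by rw [hd]; exact min_le_right _ _
  obtain ⟨ρs, hρs⟩ : ∃ ρs, ρs = d2 / 10 := ⟨_, rfl⟩
  have hρs0 : 0 < ρs := by rw [hρs]; positivity
  obtain ⟨ε, hε⟩ : ∃ ε, ε = min (ρs * τ / 400) (ρs * d2 / 480) := ⟨_, rfl⟩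
  have hε0 : 0 < ε := by rw [hε]; positivity
  have hεa : ε ≤ ρs * τ / 400 := by rw [hε]; exact min_le_left _ _
  have hεb : ε ≤ ρs * d2 / 480 := by rw [hε]; exact min_le_right _ _
  obtain ⟨t, δ, q0, ⟨ht, ht1⟩, ⟨hδ, hδ1, -⟩, hq0, hcst⟩ := H645x.constsT (C4 := c) (CE := CE)
    (B0 := β ^ 2) (y := 51 / 100) (v := 1 + κ) (ε := ε) hc0.le hCE0.le (by positivity)
    (by norm_num) (by linarith) hε0
  obtain ⟨D, hD⟩ : ∃ D, D = CP + (C1 + (E0 + C1)) := ⟨_, rfl⟩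
  have hD1 : 0 ≤ D := by rw [hD]; positivity
  obtain ⟨q, hq, hqa, hqb, hqc, hqd, hqD⟩ := q_choice hq0 hr hd2 hc0 hd0 hD1
  obtain ⟨εG, K0, n4, hεG, hK0, hn4, hGc⟩ := gc_ev hβ0 hCG (4 * S) (c1 := d / 3) (by positivity)
  obtain ⟨ε1, hε10, hε1a, hsε1, hε1c, hε1d⟩ := ε_choice (d2 := d2) (d := d)
    (M := 5 + 640 * CE / (β ^ 2 * τ) + 2 * CE) (εG := εG) hd2 hd0 (by positivity) hεG
  obtain ⟨N, hN, γ, hγ, u0, hu0, hfin⟩ := hcst q hq hqa ε1 hε10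
  obtain ⟨n5, hn5, h5⟩ := u_choice (β := β) (c := c) hu0 (show 0 ≤ S by linarith) hτ.le hd2
  obtain ⟨γ', Kc, hγ0, hγa, hKa, hKb, hγb, hγc⟩ := γ_choice (K := K0) (A := 8 * β * CE) hγ
    (by positivity)
  refine ⟨γ', hγ0, n1 + n2 + n3 + n4 + n5 + 2, ?_⟩
  intro n hn u B hu huu hB hB8 hbox W hW hlo
  have hnp : 0 < n := by omega
  have hnR : (0 : ℝ) < n := Nat.cast_pos.2 hnp
  have hx0 : 0 < (n : ℝ) ^ (-(1 / 6) : ℝ) := Real.rpow_pos_of_pos hnR _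
  have hKu : Kc * (n : ℝ) ^ (-(1 / 6) : ℝ) ≤ u := k_le hnp hu hB hγb hγ0 hB8
  have hKu1 : K0 * (n : ℝ) ^ (-(1 / 6) : ℝ) ≤ u :=
    (mul_le_mul_of_nonneg_right hKa hx0.le).trans hKu
  have hKu2 : 2 * (n : ℝ) ^ (-(1 / 6) : ℝ) ≤ u :=
    (mul_le_mul_of_nonneg_right hKb hx0.le).trans hKu
  have hKu3 : (n : ℝ) ^ (-(1 / 6) : ℝ) ≤ u := by linarith
  obtain ⟨t1, t2, t3, t4, t5, t6⟩ := h5 n (by omega) u huu hu
  obtain ⟨R, hR, hR1, k1, k2, -, -, k5, k6, k7⟩ := hfin n u B hnp hu t1 hB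
    (hB8.trans (mul_le_mul_of_nonneg_right hγa (by positivity)))
  obtain ⟨k8, k9, k10⟩ := k7 (CE * (B + 1) * (n * u ^ 5)) (by positivity) le_rfl
  have hn2 : 1 ≤ n * u ^ 2 := by
    have h : ε1 * (n * u ^ 2) ≤ 1 * (n * u ^ 2) :=
      mul_le_mul_of_nonneg_right hε1a (by positivity)
    linarith
  have hn6 : 1 ≤ n * u ^ 6 := by
    have h : ε1 * (n * u ^ 6) ≤ 1 * (n * u ^ 6) :=
      mul_le_mul_of_nonneg_right hε1a (by positivity)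
    linarith
  obtain ⟨a1, a2⟩ := hAp n (by omega) u B hKu2 huu hB hbox
  have hscl : Scl n β κ u S τ r B CE CP E0 C1 W :=
    { n2 := by omega
      κ0 := hκ
      κ1 := hκ1
      r0 := hr
      rκ := hrκ
      u0 := hu
      u8 := t2
      τ0 := hτ
      τS := hτS
      Su := t3
      B0 := hB
      CE1 := hCE
      E00 := hE0
      C10 := hC1
      nu2 := hn2
      nu6 := hn6
      W01 := hW
      lo := hlo
      ap := apE_of (fun w hw => hUp' n (by omega) κ τ u w hκ hκ1 hτ hτS hKu3 huu (hW hw)) hlo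
      pu := hPu n (by omega) u hKu3 huu
      a1 := a1
      a2 := a2 }
  have h := hscl.rowF (d := d) (d1 := d1) (d2 := d2) (c := c) (δ := δ) (t := t) (ρs := ρs)
    (ε := ε) (εG := εG) (ε1 := ε1) (D := D) (D0 := D0) (q := q) (R := R) (N := N) hβ.le hN hq
    hqb hd0 hd11 hD.ge hqD (hGc n (by omega) u hKu1 huu _ (by linarith) (by linarith)) hε10
    hε1a hε1c hε1d hD0 hCP hc hR hR1 hδ hδ1 k9 k5 k6 ht ht1 k10 t4
    (ab_le (A := 8 * β * CE) hnp hu huu hγc hB8) hρs0 hε0.le t5 (by linarith)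
    (err_sum hρs hρs0 hrc hqc hεb t6 hsε1 hqd) hdd1
  refine H444.RowF.mono hr.le hW ?_ (le_max_left _ _) h
  have e1 : 8 * β * CE * (B + 1) ≤ max 10 (8 * β * CE) * (B + 1) :=
    mul_le_mul_of_nonneg_right (le_max_right _ _) (by linarith)
  linarith

end Vale.Agent.P146.H508.RF
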