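import Vale.Agent.P146.H508.Mo

/-!
# P146: the monomials as averages over finitely many replicas (helper508)
-/

open MeasureTheory ProbabilityTheory

namespace Vale.Agent.P146.H508

open Vale.Agent.P157 Vale.Agent.P157.Lv Vale.Agent.P157.Lv.Sy
open Vale.Agent.P146.H425 Vale.Agent.P146.H93 Vale.Agent.P146.H985

set_option linter.unusedSectionVars false

variable {ι X : Type} [Fintype ι] [DecidableEq ι] [Fintype X] [Nonempty X]
  {S : Sy ι X} {a : X → ι → ℝ} {c : X → ℝ} {s : X → ℝ} {I : ℕ → ι}

/-- the labels of a monomial -/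
def lab : Mo → Finset ℕ
  | Mo.sp => ∅
  | Mo.D v => {v}
  | Mo.mul M N => lab M ∪ lab N
  | Mo.T _ M => lab M

/-- every label occurs once -/
def Lin : Mo → Prop
  | Mo.sp => True
  | Mo.D _ => True
  | Mo.mul M N => Disjoint (lab M) (lab N) ∧ Lin M ∧ Lin N
  | Mo.T _ M => Lin M

/-- the minimum of a level and an optional level -/
def mn (j : ℕ) : Option ℕ → ℕ
  | none => j
  | some i => min j i

/-- the level at which the replica of a label is averaged (`none`: not averaged) -/
def cl : Mo → ℕ → Option ℕ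
  | Mo.sp, _ => none
  | Mo.D _, _ => none
  | Mo.mul M N, v => if v ∈ lab M then cl M v else cl N v
  | Mo.T j M, v => some (mn j (cl M v))

/-- the average at the level `i` -/
noncomputable def mar (S : Sy ι X) (i : Option ℕ) (g : X → ℝ) (z : ι → ℝ) (x : X) : ℝ :=
  match i with
  | none => g x
  | some j => S.T j (fun _ y => g y) z

lemma mar_none (g : X → ℝ) (z : ι → ℝ) (x : X) : mar S none g z x = g x := rfl
lemma mar_some (j : ℕ) (g : X → ℝ) (z : ι → ℝ) (x : X) :
    mar S (some j) g z x = S.T j (fun _ y => g y) z := rfl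

/-- the optional level is at most `K` -/
def leK (K : ℕ) (i : Option ℕ) : Prop := ∀ j, i = some j → j ≤ K

lemma mn_le (j : ℕ) (i : Option ℕ) : mn j i ≤ j := by
  cases i with
  | none => exact le_rfl
  | some i => exact min_le_left _ _

lemma cl_leK {K : ℕ} (v : ℕ) : ∀ M : Mo, tk K M → leK K (cl M v)
  | Mo.sp, _ => fun j hj => by simp [cl] at hj
  | Mo.D _, _ => fun j hj => by simp [cl] at hj
  | Mo.mul M N, h => by
    unfold cl
    split_ifs
    · exact cl_leK v M h.1
    · exact cl_leK v N h.2
  | Mo.T j M, h => by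
    intro i hi
    simp only [cl, Option.some.injEq] at hi
    rw [← hi]
    exact (mn_le _ _).trans h.1

lemma nh_mar (hS : S.Reg) {i : Option ℕ} (hi : leK S.K i) (g : X → ℝ) : Nh (mar S i g) := by
  cases i with
  | none => exact Nh.snd g
  | some j => exact Nh.fst (hS.eg_T (hi j rfl) (Nh.snd g))

lemma T_mar (hS : S.Reg) {j : ℕ} (hj : j ≤ S.K) {i : Option ℕ} (hi : leK S.K i) (g : X → ℝ)
    (z : ι → ℝ) (x : X) : S.T j (mar S i g) z = mar S (some (mn j i)) g z x := by
  cases i with
  | none => rfl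
  | some i =>
    have hi' : i ≤ S.K := hi i rfl
    have e : mar S (some i) g = fun z (_ : X) => S.T i (fun _ y => g y) z := rfl
    rw [e]
    rcases le_total j i with h | h
    · have e2 : mn j (some i) = j := min_eq_left h
      rw [e2, mar_some]
      exact (hS.T_T h hi' (Nh.snd g) z)
    · have e2 : mn j (some i) = i := min_eq_right h
      rw [e2, mar_some]
      exact hS.T_fst hj ((dep_T S i _).mono h) z

/-- a representation of the monomial by finitely many replicas -/
structure RpD (S : Sy ι X) (s : X → ℝ) (M : Mo) (Ω : Type) [Fintype Ω]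
    (P : Ω → (ι → ℝ) → X → ℝ) (A : Ω → X → ℕ → X) (q : Ω → X → ℝ) : Prop where
  nh : ∀ ω, Nh (P ω)
  nn : ∀ ω z x, 0 ≤ P ω z x
  one : ∀ z x, ∑ ω, P ω z x = 1
  q1 : ∀ ω x, |q ω x| ≤ 1
  ev_eq : ∀ (a : X → ι → ℝ) (I : ℕ → ι) z x, ev S a s I M z x =
    ∑ ω, P ω z x * (q ω x * ∏ v ∈ lab M, a (A ω x v) (I v))
  marg : ∀ v ∈ lab M, ∀ (g : X → ℝ) z x, ∑ ω, P ω z x * g (A ω x v) = mar S (cl M v) g z x

theorem rep (hS : S.Reg) (hs : ∀ x, |s x| ≤ 1) : ∀ M : Mo, tk S.K M → Lin M →
    ∃ (Ω : Type) (_ : Fintype Ω) (P : Ω → (ι → ℝ) → X → ℝ) (A : Ω → X → ℕ → X) (q : Ω → X → ℝ),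
      RpD S s M Ω P A q
  | Mo.sp, _, _ => ⟨Unit, inferInstance, fun _ _ _ => 1, fun _ x _ => x, fun _ x => s x,
      { nh := fun _ => Nh.snd fun _ => 1
        nn := fun _ _ _ => zero_le_one
        one := fun _ _ => by simp
        q1 := fun _ x => hs x
        ev_eq := fun a I z x => by simp [ev, lab]
        marg := fun v hv => by simp [lab] at hv }⟩
  | Mo.D w, _, _ => ⟨Unit, inferInstance, fun _ _ _ => 1, fun _ x _ => x, fun _ _ => 1,
      { nh := fun _ => Nh.snd fun _ => 1
        nn := fun _ _ _ => zero_le_one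
        one := fun _ _ => by simp
        q1 := fun _ x => by simp
        ev_eq := fun a I z x => by simp [ev, lab]
        marg := fun v _ g z x => by simp [cl, mar_none] }⟩
  | Mo.mul M N, hk, hl => by
    classical
    obtain ⟨Ω1, _, P1, A1, q1, h1⟩ := rep hS hs M hk.1 hl.2.1
    obtain ⟨Ω2, _, P2, A2, q2, h2⟩ := rep hS hs N hk.2 hl.2.2
    refine ⟨Ω1 × Ω2, inferInstance, fun ω z x => P1 ω.1 z x * P2 ω.2 z x,
      fun ω x v => if v ∈ lab M then A1 ω.1 x v else A2 ω.2 x v,
      fun ω x => q1 ω.1 x * q2 ω.2 x,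
      { nh := fun ω => Nh.mul (h1.nh ω.1) (h2.nh ω.2)
        nn := fun ω z x => mul_nonneg (h1.nn ω.1 z x) (h2.nn ω.2 z x)
        one := fun z x => ?_
        q1 := fun ω x => ?_
        ev_eq := fun a I z x => ?_
        marg := fun v hv g z x => ?_ }⟩
    · rw [Fintype.sum_prod_type]
      simp only [← Finset.mul_sum, h2.one, mul_one, h1.one]
    · rw [abs_mul]
      exact mul_le_one₀ (h1.q1 _ _) (abs_nonneg _) (h2.q1 _ _)
    · have e1 : ∀ ω : Ω1 × Ω2, ∏ v ∈ lab (Mo.mul M N),
          a (if v ∈ lab M then A1 ω.1 x v else A2 ω.2 x v) (I v) =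
          (∏ v ∈ lab M, a (A1 ω.1 x v) (I v)) * ∏ v ∈ lab N, a (A2 ω.2 x v) (I v) := by
        intro ω
        show ∏ v ∈ lab M ∪ lab N, _ = _
        rw [Finset.prod_union hl.1]
        congr 1
        · exact Finset.prod_congr rfl fun v hv => by rw [if_pos hv]
        · refine Finset.prod_congr rfl fun v hv => ?_
          rw [if_neg fun h => (Finset.disjoint_left.1 hl.1) h hv]
      simp only [ev, e1, h1.ev_eq a I z x, h2.ev_eq a I z x]
      rw [Finset.sum_mul_sum, Fintype.sum_prod_type]
      exact Finset.sum_congr rfl fun ω _ => Finset.sum_congr rfl fun ω' _ => by ring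
    · rw [Fintype.sum_prod_type]
      by_cases h : v ∈ lab M
      · simp only [h, if_true, cl]
        have e1 : ∀ ω, ∑ ω', P1 ω z x * P2 ω' z x * g (A1 ω x v) = P1 ω z x * g (A1 ω x v) := by
          intro ω
          have : ∀ ω', P1 ω z x * P2 ω' z x * g (A1 ω x v) =
            P1 ω z x * g (A1 ω x v) * P2 ω' z x := fun ω' => by ring
          simp only [this, ← Finset.mul_sum, h2.one, mul_one]
        simp only [e1]
        exact h1.marg v h g z x
      · have h' : v ∈ lab N := by
          rcases Finset.mem_union.1 hv with h3 | h3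
          · exact absurd h3 h
          · exact h3
        simp only [h, if_false, cl]
        rw [Finset.sum_comm]
        have e1 : ∀ ω', ∑ ω, P1 ω z x * P2 ω' z x * g (A2 ω' x v) = P2 ω' z x * g (A2 ω' x v) := by
          intro ω'
          have : ∀ ω, P1 ω z x * P2 ω' z x * g (A2 ω' x v) =
            P2 ω' z x * g (A2 ω' x v) * P1 ω z x := fun ω => by ring
          simp only [this, ← Finset.mul_sum, h1.one, mul_one]
        simp only [e1]
        exact h2.marg v h' g z x
  | Mo.T j M, hk, hl => by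
    classical
    obtain ⟨Ω, _, P, A, q, h⟩ := rep hS hs M hk.2 hl
    have hj := hk.1
    -- the average of a function of `x` and `ω`
    have nhi : ∀ (x' : X) (ω : Ω), Nh (fun (z : ι → ℝ) (y : X) => if y = x' then P ω z y else 0) := by
      intro x' ω y
      by_cases hy : y = x'
      · simp only [hy, if_true]; exact h.nh ω x'
      · simp only [hy, if_false]; exact EG.const 0
    have key : ∀ (f : Ω → X → ℝ) (z : ι → ℝ), S.T j (fun z y => ∑ ω, P ω z y * f ω y) z =
        ∑ ω' : X × Ω, S.T j (fun z y => if y = ω'.1 then P ω'.2 z y else 0) z * f ω'.2 ω'.1 := by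
      intro f z
      have e1 : (fun (z : ι → ℝ) (y : X) => ∑ ω, P ω z y * f ω y) =
          fun z y => ∑ ω' : X × Ω, f ω'.2 ω'.1 * (if y = ω'.1 then P ω'.2 z y else 0) := by
        funext z y
        rw [Fintype.sum_prod_type, Finset.sum_comm]
        refine Finset.sum_congr rfl fun ω _ => ?_
        rw [Finset.sum_eq_single y]
        · simp only [if_true]; ring
        · intro x' _ hx'
          rw [if_neg (Ne.symm hx'), mul_zero]
        · intro hy; exact absurd (Finset.mem_univ y) hy
      rw [e1, hS.T_sum hj Finset.univ (f := fun (ω' : X × Ω) z y => f ω'.2 ω'.1 *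
        (if y = ω'.1 then P ω'.2 z y else 0)) (fun ω' _ => Nh.const_mul _ (nhi ω'.1 ω'.2))]
      refine Finset.sum_congr rfl fun ω' _ => ?_
      rw [T_const_mul]
      ring
    refine ⟨X × Ω, inferInstance,
      fun ω' z _ => S.T j (fun z y => if y = ω'.1 then P ω'.2 z y else 0) z,
      fun ω' _ v => A ω'.2 ω'.1 v, fun ω' _ => q ω'.2 ω'.1,
      { nh := fun ω' => Nh.fst (hS.eg_T hj (nhi ω'.1 ω'.2))
        nn := fun ω' z x => ?_
        one := fun z x => ?_
        q1 := fun ω' x => h.q1 _ _
        ev_eq := fun a I z x => ?_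
        marg := fun v hv g z x => ?_ }⟩
    · have h1 := hS.T_mono hj (f := fun _ _ => (0 : ℝ)) (Nh.snd fun _ => 0) (nhi ω'.1 ω'.2)
        (fun z y => by
          by_cases hy : y = ω'.1
          · simp only [hy, if_true]; exact h.nn _ _ _
          · simp only [hy, if_false]; exact le_rfl) z
      rw [hS.T_const hj] at h1
      exact h1
    · have h1 := key (fun _ _ => 1) z
      simp only [mul_one, h.one] at h1
      rw [hS.T_const hj] at h1
      exact h1.symm
    · have h1 := key (fun ω y => q ω y * ∏ v ∈ lab M, a (A ω y v) (I v)) z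
      refine Eq.trans ?_ h1
      show S.T j (ev S a s I M) z = _
      congr 1
      funext z y
      exact h.ev_eq a I z y
    · have h1 := key (fun ω y => g (A ω y v)) z
      refine h1.symm.trans ?_
      have e1 : (fun (z : ι → ℝ) (y : X) => ∑ ω, P ω z y * g (A ω y v)) = mar S (cl M v) g := by
        funext z y
        exact h.marg v hv g z y
      rw [e1]
      exact T_mar hS hj (cl_leK v M hk.2) g z x

end Vale.Agent.P146.H508
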