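import Vale.Agent.P146.H508.Bnd

/-!
# P146: the squares of a list: bounds and symbols (helper508)
-/

open MeasureTheory ProbabilityTheory

namespace Vale.Agent.P146.H508

open Vale.Agent.P157 Vale.Agent.P157.Lv Vale.Agent.P157.Lv.Sy
open Vale.Agent.P146.H425 Vale.Agent.P146.H93 Vale.Agent.P146.H985

set_option linter.unusedSectionVars false

variable {ι X : Type} [Fintype ι] [DecidableEq ι] [Fintype X] [Nonempty X] [DecidableEq X]
  {S : Sy ι X} {a : X → ι → ℝ} {c : X → ℝ} {s : X → ℝ} {I : ℕ → ι} {A : Finset ι}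

lemma evL_get (L : List (Tm ι)) (z : ι → ℝ) (x : X) :
    evL S a s I L z x = ∑ i : Fin L.length, L[i.1].c I * ev S a s I L[i.1].M z x :=
  (Fin.sum_univ_fun_getElem L fun t => t.c I * ev S a s I t.M z x).symm

lemma tot_get (L : List (Tm ι)) : tot L = ∑ i : Fin L.length, L[i.1].r :=
  (Fin.sum_univ_fun_getElem L fun t => t.r).symm

lemma evL_sq_le (L : List (Tm ι)) (z : ι → ℝ) (x : X) :
    evL S a s I L z x ^ 2 ≤ tot L * ∑ i : Fin L.length, L[i.1].r *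
      ev S a s I L[i.1].M z x ^ 2 := by
  have h1 : |evL S a s I L z x| ≤ ∑ i : Fin L.length, L[i.1].r * |ev S a s I L[i.1].M z x| := by
    rw [evL_get]
    refine (Finset.abs_sum_le_sum_abs _ _).trans (Finset.sum_le_sum fun i _ => ?_)
    rw [abs_mul]
    exact mul_le_mul_of_nonneg_right (L[i.1].hc I) (abs_nonneg _)
  have h2 : (∑ i : Fin L.length, L[i.1].r * |ev S a s I L[i.1].M z x|) ^ 2 ≤
      (∑ i : Fin L.length, L[i.1].r) * ∑ i : Fin L.length, L[i.1].r *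
        ev S a s I L[i.1].M z x ^ 2 := by
    refine Finset.sum_sq_le_sum_mul_sum_of_sq_le_mul _ (fun i _ => L[i.1].hr)
      (fun i _ => mul_nonneg L[i.1].hr (sq_nonneg _)) fun i _ => le_of_eq ?_
    rw [mul_pow, sq_abs]
    ring
  rw [tot_get]
  refine le_trans ?_ h2
  rw [← sq_abs (evL S a s I L z x)]
  exact pow_le_pow_left₀ (abs_nonneg _) h1 2

/-- **The squares of a list, three indices.** -/
lemma ex3_le (hS : S.Reg) (hs : ∀ x, |s x| ≤ 1) {l : ℕ} (hl : l ≤ S.K) {L : List (Tm ι)}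
    (hL : Gd S l 3 L) {B : ℝ}
    (hB : ∀ i ≤ l, S.pairEx i (fun x y => |CC A a x y| ^ 3) ≤ B) :
    S.Ex (fun z x => ∑ e ∈ A, ∑ f ∈ A, ∑ k ∈ A, evL S a s (ix e f k k) L z x ^ 2) ≤
      tot L ^ 2 * B := by
  have nE : ∀ (i : Fin L.length) (e f k : ι), Nh (X := X) fun z x =>
      ev S a s (ix e f k k) L[i.1].M z x ^ 2 := fun i e f k =>
    Nh.pow (nh_ev hS a s (ix e f k k) L[i.1].M (hL.tk _ (List.getElem_mem _))) 2
  have nS : ∀ i : Fin L.length, Nh (X := X) fun z x => ∑ e ∈ A, ∑ f ∈ A, ∑ k ∈ A,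
      ev S a s (ix e f k k) L[i.1].M z x ^ 2 := fun i =>
    Nh.sum _ fun e _ => Nh.sum _ fun f _ => Nh.sum _ fun k _ => nE i e f k
  have h1 : ∀ z x, ∑ e ∈ A, ∑ f ∈ A, ∑ k ∈ A, evL S a s (ix e f k k) L z x ^ 2 ≤
      tot L * ∑ i : Fin L.length, L[i.1].r * ∑ e ∈ A, ∑ f ∈ A, ∑ k ∈ A,
        ev S a s (ix e f k k) L[i.1].M z x ^ 2 := by
    intro z x
    have h2 : ∀ e f k, evL S a s (ix e f k k) L z x ^ 2 ≤ tot L * ∑ i : Fin L.length,
        L[i.1].r * ev S a s (ix e f k k) L[i.1].M z x ^ 2 := fun e f k => evL_sq_le L z x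
    refine (Finset.sum_le_sum fun e _ => Finset.sum_le_sum fun f _ =>
      Finset.sum_le_sum fun k _ => h2 e f k).trans (le_of_eq ?_)
    simp only [← Finset.mul_sum]
    congr 1
    simp only [Finset.mul_sum]
    have e1 : ∀ e f, ∑ k ∈ A, ∑ i : Fin L.length, L[i.1].r *
        ev S a s (ix e f k k) L[i.1].M z x ^ 2 = ∑ i : Fin L.length, ∑ k ∈ A, L[i.1].r *
        ev S a s (ix e f k k) L[i.1].M z x ^ 2 := fun e f => Finset.sum_comm
    simp only [e1]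
    have e2 : ∀ e, ∑ f ∈ A, ∑ i : Fin L.length, ∑ k ∈ A, L[i.1].r *
        ev S a s (ix e f k k) L[i.1].M z x ^ 2 = ∑ i : Fin L.length, ∑ f ∈ A, ∑ k ∈ A,
        L[i.1].r * ev S a s (ix e f k k) L[i.1].M z x ^ 2 := fun e => Finset.sum_comm
    simp only [e2]
    exact Finset.sum_comm
  have nL : Nh (X := X) fun z x => ∑ e ∈ A, ∑ f ∈ A, ∑ k ∈ A,
      evL S a s (ix e f k k) L z x ^ 2 :=
    Nh.sum _ fun e _ => Nh.sum _ fun f _ => Nh.sum _ fun k _ =>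
      Nh.pow (nh_evL hS a s (ix e f k k) L hL.tk) 2
  refine (hS.Ex_mono nL (Nh.const_mul _ (Nh.sum _ fun i _ => Nh.const_mul _ (nS i))) h1).trans ?_
  rw [Ex_const_mul, hS.Ex_sum Finset.univ (f := fun (i : Fin L.length) z x => L[i.1].r *
    ∑ e ∈ A, ∑ f ∈ A, ∑ k ∈ A, ev S a s (ix e f k k) L[i.1].M z x ^ 2)
    fun i _ => Nh.const_mul _ (nS i)]
  have h3 : ∀ i : Fin L.length, S.Ex (fun z x => ∑ e ∈ A, ∑ f ∈ A, ∑ k ∈ A,
      ev S a s (ix e f k k) L[i.1].M z x ^ 2) ≤ B := by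
    intro i
    obtain ⟨j, hj, hp⟩ := sq3_le hS hs hl (hL.cm (List.getElem_mem i.2)) A a
    have n0 := fun v => hS.nh_pair ((hj v).trans hl) fun x y => |CC A a x y| ^ 3
    refine (hS.Ex_mono (nS i) (Nh.const_mul (1 / 3) (Nh.add (Nh.add (Nh.fst (n0 0))
      (Nh.fst (n0 1))) (Nh.fst (n0 2)))) hp).trans ?_
    rw [Ex_const_mul, hS.Ex_add (Nh.add (Nh.fst (n0 0)) (Nh.fst (n0 1))) (Nh.fst (n0 2)),
      hS.Ex_add (Nh.fst (n0 0)) (Nh.fst (n0 1))]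
    have b0 := hB (j 0) (hj 0)
    have b1 := hB (j 1) (hj 1)
    have b2 := hB (j 2) (hj 2)
    unfold pairEx at b0 b1 b2
    linarith
  have h4 : ∑ i : Fin L.length, S.Ex (fun z x => L[i.1].r * ∑ e ∈ A, ∑ f ∈ A, ∑ k ∈ A,
      ev S a s (ix e f k k) L[i.1].M z x ^ 2) ≤ tot L * B := by
    rw [tot_get, Finset.sum_mul]
    refine Finset.sum_le_sum fun i _ => ?_
    rw [Ex_const_mul]
    exact mul_le_mul_of_nonneg_left (h3 i) L[i.1].hr
  calc _ ≤ tot L * (tot L * B) := mul_le_mul_of_nonneg_left h4 (tot_nonneg L)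
    _ = _ := by ring

/-- **The squares of a list, four indices.** -/
lemma ex4_le (hS : S.Reg) (hs : ∀ x, |s x| ≤ 1) {l : ℕ} (hl : l ≤ S.K) {L : List (Tm ι)}
    (hL : Gd S l 4 L) {B : ℝ}
    (hB : ∀ i ≤ l, S.pairEx i (fun x y => CC A a x y ^ 4) ≤ B) :
    S.Ex (fun z x => ∑ e ∈ A, ∑ f ∈ A, ∑ k ∈ A, ∑ j ∈ A,
      evL S a s (ix e f k j) L z x ^ 2) ≤ tot L ^ 2 * B := by
  have nE : ∀ (i : Fin L.length) (e f k j : ι), Nh (X := X) fun z x =>
      ev S a s (ix e f k j) L[i.1].M z x ^ 2 := fun i e f k j =>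
    Nh.pow (nh_ev hS a s (ix e f k j) L[i.1].M (hL.tk _ (List.getElem_mem _))) 2
  have nS : ∀ i : Fin L.length, Nh (X := X) fun z x => ∑ e ∈ A, ∑ f ∈ A, ∑ k ∈ A, ∑ j ∈ A,
      ev S a s (ix e f k j) L[i.1].M z x ^ 2 := fun i =>
    Nh.sum _ fun e _ => Nh.sum _ fun f _ => Nh.sum _ fun k _ => Nh.sum _ fun j _ => nE i e f k j
  have h1 : ∀ z x, ∑ e ∈ A, ∑ f ∈ A, ∑ k ∈ A, ∑ j ∈ A, evL S a s (ix e f k j) L z x ^ 2 ≤
      tot L * ∑ i : Fin L.length, L[i.1].r * ∑ e ∈ A, ∑ f ∈ A, ∑ k ∈ A, ∑ j ∈ A,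
        ev S a s (ix e f k j) L[i.1].M z x ^ 2 := by
    intro z x
    have h2 : ∀ e f k j, evL S a s (ix e f k j) L z x ^ 2 ≤ tot L * ∑ i : Fin L.length,
        L[i.1].r * ev S a s (ix e f k j) L[i.1].M z x ^ 2 := fun e f k j => evL_sq_le L z x
    refine (Finset.sum_le_sum fun e _ => Finset.sum_le_sum fun f _ =>
      Finset.sum_le_sum fun k _ => Finset.sum_le_sum fun j _ => h2 e f k j).trans (le_of_eq ?_)
    simp only [← Finset.mul_sum]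
    congr 1
    simp only [Finset.mul_sum]
    have e0 : ∀ e f k, ∑ j ∈ A, ∑ i : Fin L.length, L[i.1].r *
        ev S a s (ix e f k j) L[i.1].M z x ^ 2 = ∑ i : Fin L.length, ∑ j ∈ A, L[i.1].r *
        ev S a s (ix e f k j) L[i.1].M z x ^ 2 := fun e f k => Finset.sum_comm
    simp only [e0]
    have e1 : ∀ e f, ∑ k ∈ A, ∑ i : Fin L.length, ∑ j ∈ A, L[i.1].r *
        ev S a s (ix e f k j) L[i.1].M z x ^ 2 = ∑ i : Fin L.length, ∑ k ∈ A, ∑ j ∈ A,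
        L[i.1].r * ev S a s (ix e f k j) L[i.1].M z x ^ 2 := fun e f => Finset.sum_comm
    simp only [e1]
    have e2 : ∀ e, ∑ f ∈ A, ∑ i : Fin L.length, ∑ k ∈ A, ∑ j ∈ A, L[i.1].r *
        ev S a s (ix e f k j) L[i.1].M z x ^ 2 = ∑ i : Fin L.length, ∑ f ∈ A, ∑ k ∈ A,
        ∑ j ∈ A, L[i.1].r * ev S a s (ix e f k j) L[i.1].M z x ^ 2 := fun e => Finset.sum_comm
    simp only [e2]
    exact Finset.sum_comm
  have nL : Nh (X := X) fun z x => ∑ e ∈ A, ∑ f ∈ A, ∑ k ∈ A, ∑ j ∈ A,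
      evL S a s (ix e f k j) L z x ^ 2 :=
    Nh.sum _ fun e _ => Nh.sum _ fun f _ => Nh.sum _ fun k _ => Nh.sum _ fun j _ =>
      Nh.pow (nh_evL hS a s (ix e f k j) L hL.tk) 2
  refine (hS.Ex_mono nL (Nh.const_mul _ (Nh.sum _ fun i _ => Nh.const_mul _ (nS i))) h1).trans ?_
  rw [Ex_const_mul, hS.Ex_sum Finset.univ (f := fun (i : Fin L.length) z x => L[i.1].r *
    ∑ e ∈ A, ∑ f ∈ A, ∑ k ∈ A, ∑ j ∈ A, ev S a s (ix e f k j) L[i.1].M z x ^ 2)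
    fun i _ => Nh.const_mul _ (nS i)]
  have h3 : ∀ i : Fin L.length, S.Ex (fun z x => ∑ e ∈ A, ∑ f ∈ A, ∑ k ∈ A, ∑ j ∈ A,
      ev S a s (ix e f k j) L[i.1].M z x ^ 2) ≤ B := by
    intro i
    obtain ⟨j, hj, hp⟩ := sq4_le hS hs hl (hL.cm (List.getElem_mem i.2)) A a
    have n0 := fun v => hS.nh_pair ((hj v).trans hl) fun x y => CC A a x y ^ 4
    refine (hS.Ex_mono (nS i) (Nh.const_mul (1 / 4) (Nh.add (Nh.add (Nh.add (Nh.fst (n0 0))
      (Nh.fst (n0 1))) (Nh.fst (n0 2))) (Nh.fst (n0 3)))) hp).trans ?_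
    rw [Ex_const_mul, hS.Ex_add (Nh.add (Nh.add (Nh.fst (n0 0)) (Nh.fst (n0 1)))
      (Nh.fst (n0 2))) (Nh.fst (n0 3)),
      hS.Ex_add (Nh.add (Nh.fst (n0 0)) (Nh.fst (n0 1))) (Nh.fst (n0 2)),
      hS.Ex_add (Nh.fst (n0 0)) (Nh.fst (n0 1))]
    have b0 := hB (j 0) (hj 0)
    have b1 := hB (j 1) (hj 1)
    have b2 := hB (j 2) (hj 2)
    have b3 := hB (j 3) (hj 3)
    unfold pairEx at b0 b1 b2 b3
    linarith
  have h4 : ∑ i : Fin L.length, S.Ex (fun z x => L[i.1].r * ∑ e ∈ A, ∑ f ∈ A, ∑ k ∈ A,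
      ∑ j ∈ A, ev S a s (ix e f k j) L[i.1].M z x ^ 2) ≤ tot L * B := by
    rw [tot_get, Finset.sum_mul]
    refine Finset.sum_le_sum fun i _ => ?_
    rw [Ex_const_mul]
    exact mul_le_mul_of_nonneg_left (h3 i) L[i.1].hr
  calc _ ≤ tot L * (tot L * B) := mul_le_mul_of_nonneg_left h4 (tot_nonneg L)
    _ = _ := by ring

/-! ### Symbols -/

/-- the symbol: the coefficients are replaced by the spin -/
noncomputable def evs (S : Sy ι X) (s : X → ℝ) (I : ℕ → ι) (M : Mo) (z : ι → ℝ) (x : X) : ℝ :=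
  ev S (fun x _ => s x) s I M z x

/-- **The products of two main monomials.** -/
lemma sym3 (hS : S.Reg) (hs : ∀ x, s x ^ 2 = 1) {l : ℕ} (hl : l ≤ S.K) {M M' : Mo}
    (hM : Cm S l 3 M) (hM' : Cm S l 3 M') (hc : ∀ v, cl M v = some l)
    (hc' : ∀ v, cl M' v = some l) {φ : X → ι → ℝ} (ha : ∀ x, ∀ e ∈ A, a x e = s x * φ x e)
    {ρ : ℝ} (hρ : 0 ≤ ρ) (z : ι → ℝ) (x : X) (I : ℕ → ι) :
    |∑ e ∈ A, ∑ f ∈ A, ∑ k ∈ A, ev S a s (ix e f k k) M z x * ev S a s (ix e f k k) M' z x -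
      ρ ^ 3 * (evs S s I M z x * evs S s I M' z x)| ≤
      9 / 2 * pp S l z (fun x y => |CC A φ x y - ρ| ^ 3 + ρ ^ 2 * |CC A φ x y - ρ|) := by
  have hs1 : ∀ x, |s x| ≤ 1 := fun x => by
    rw [abs_le_one_iff_mul_self_le_one, ← sq, hs x]
  obtain ⟨Ω, _, P, B, q, h⟩ := rep hS hs1 M hM.tk hM.lin
  obtain ⟨Ω', _, P', B', q', h'⟩ := rep hS hs1 M' hM'.tk hM'.lin
  have m : ∀ v < 3, v ∈ lab M := fun v hv => by rw [hM.lab]; exact Finset.mem_range.2 hv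
  have m' : ∀ v < 3, v ∈ lab M' := fun v hv => by rw [hM'.lab]; exact Finset.mem_range.2 hv
  have g := h.gram3 h' hM.lab hM'.lab A a z x
  have hCC : ∀ x y, CC A a x y = s x * s y * CC A φ x y := by
    intro x y
    unfold CC
    rw [Finset.mul_sum]
    refine Finset.sum_congr rfl fun e he => ?_
    rw [ha x e he, ha y e he]
    ring
  have g1 : evs S s I M z x = ∑ ω, P ω z x * q ω x *
      (s (B ω x 0) * (s (B ω x 1) * s (B ω x 2))) := by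
    unfold evs
    rw [h.ev_eq, hM.lab]
    refine Finset.sum_congr rfl fun ω _ => ?_
    simp only [Finset.prod_range_succ, Finset.prod_range_zero]
    ring
  have g2 : evs S s I M' z x = ∑ ω, P' ω z x * q' ω x *
      (s (B' ω x 0) * (s (B' ω x 1) * s (B' ω x 2))) := by
    unfold evs
    rw [h'.ev_eq, hM'.lab]
    refine Finset.sum_congr rfl fun ω _ => ?_
    simp only [Finset.prod_range_succ, Finset.prod_range_zero]
    ring
  set G : Ω → Ω' → ℝ := fun ω ω' => (s (B ω x 0) * (s (B ω x 1) * s (B ω x 2))) *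
    (s (B' ω' x 0) * (s (B' ω' x 1) * s (B' ω' x 2))) with hG
  have e1 : ∑ e ∈ A, ∑ f ∈ A, ∑ k ∈ A, ev S a s (ix e f k k) M z x *
      ev S a s (ix e f k k) M' z x - ρ ^ 3 * (evs S s I M z x * evs S s I M' z x) =
      ∑ ω, ∑ ω', P ω z x * q ω x * (P' ω' z x * q' ω' x) * (G ω ω' *
        (CC A φ (B ω x 0) (B' ω' x 0) * (CC A φ (B ω x 1) (B' ω' x 1) *
          CC A φ (B ω x 2) (B' ω' x 2)) - ρ ^ 3)) := by
    rw [g, g1, g2, Finset.sum_mul_sum, Finset.mul_sum, ← Finset.sum_sub_distrib]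
    refine Finset.sum_congr rfl fun ω _ => ?_
    rw [Finset.mul_sum, ← Finset.sum_sub_distrib]
    refine Finset.sum_congr rfl fun ω' _ => ?_
    rw [hCC, hCC, hCC, hG]
    ring
  have hG1 : ∀ ω ω', |G ω ω'| = 1 := by
    intro ω ω'
    have h1 : ∀ x, |s x| = 1 := fun x => by
      have := hs x
      rw [← sq_abs] at this
      nlinarith [abs_nonneg (s x)]
    simp only [hG, abs_mul, h1, mul_one]
  rw [e1]
  refine (dsum_le (fun ω => h.nn ω z x) (fun ω => h'.nn ω z x)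
      (fun ω => h.q1 ω x) (fun ω => h'.q1 ω x) (G := fun ω ω' =>
        3 / 2 * ((|CC A φ (B ω x 0) (B' ω' x 0) - ρ| ^ 3 +
          ρ ^ 2 * |CC A φ (B ω x 0) (B' ω' x 0) - ρ|) +
          (|CC A φ (B ω x 1) (B' ω' x 1) - ρ| ^ 3 +
          ρ ^ 2 * |CC A φ (B ω x 1) (B' ω' x 1) - ρ|) +
          (|CC A φ (B ω x 2) (B' ω' x 2) - ρ| ^ 3 +
          ρ ^ 2 * |CC A φ (B ω x 2) (B' ω' x 2) - ρ|))) fun ω ω' => ?_).trans (le_of_eq ?_)
  · rw [abs_mul, hG1, one_mul]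
    exact real_prod3 hρ
  · have p := fun v (hv : v < 3) => h.pair hS hl h' (m v hv) (m' v hv) (hc v) (hc' v)
      (fun x y => |CC A φ x y - ρ| ^ 3 + ρ ^ 2 * |CC A φ x y - ρ|) z x
    have p0 := p 0 (by norm_num)
    have p1 := p 1 (by norm_num)
    have p2 := p 2 (by norm_num)
    have e2 : 9 / 2 * pp S l z (fun x y => |CC A φ x y - ρ| ^ 3 + ρ ^ 2 * |CC A φ x y - ρ|) =
        3 / 2 * (pp S l z (fun x y => |CC A φ x y - ρ| ^ 3 + ρ ^ 2 * |CC A φ x y - ρ|) +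
        pp S l z (fun x y => |CC A φ x y - ρ| ^ 3 + ρ ^ 2 * |CC A φ x y - ρ|) +
        pp S l z (fun x y => |CC A φ x y - ρ| ^ 3 + ρ ^ 2 * |CC A φ x y - ρ|)) := by ring
    rw [e2]
    nth_rw 1 [← p0]
    nth_rw 1 [← p1]
    nth_rw 1 [← p2]
    rw [← Finset.sum_add_distrib, ← Finset.sum_add_distrib, Finset.mul_sum]
    refine Finset.sum_congr rfl fun ω _ => ?_
    rw [← Finset.sum_add_distrib, ← Finset.sum_add_distrib, Finset.mul_sum]
    exact Finset.sum_congr rfl fun ω' _ => by ring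

lemma dbl_err {n : Type} [Fintype n] {c r : n → ℝ} (hr : ∀ i, 0 ≤ r i) (hc : ∀ i, |c i| ≤ r i)
    {Q : n → n → ℝ} {Y : n → ℝ} {ρ E : ℝ} (h : ∀ i j, |Q i j - ρ * (Y i * Y j)| ≤ E) :
    |∑ i, ∑ j, c i * c j * Q i j - ρ * ((∑ i, c i * Y i) * ∑ i, c i * Y i)| ≤
      (∑ i, r i) ^ 2 * E := by
  have e1 : ∑ i, ∑ j, c i * c j * Q i j - ρ * ((∑ i, c i * Y i) * ∑ i, c i * Y i) =
      ∑ i, ∑ j, c i * c j * (Q i j - ρ * (Y i * Y j)) := by
    rw [Finset.sum_mul_sum, Finset.mul_sum, ← Finset.sum_sub_distrib]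
    refine Finset.sum_congr rfl fun i _ => ?_
    rw [Finset.mul_sum, ← Finset.sum_sub_distrib]
    exact Finset.sum_congr rfl fun j _ => by ring
  have e2 : (∑ i, r i) ^ 2 * E = ∑ i, ∑ j, r i * r j * E := by
    rw [sq, Finset.sum_mul_sum, Finset.sum_mul]
    exact Finset.sum_congr rfl fun i _ => Finset.sum_mul _ _ _
  rw [e1, e2]
  refine (Finset.abs_sum_le_sum_abs _ _).trans (Finset.sum_le_sum fun i _ => ?_)
  refine (Finset.abs_sum_le_sum_abs _ _).trans (Finset.sum_le_sum fun j _ => ?_)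
  rw [abs_mul, abs_mul]
  exact mul_le_mul (mul_le_mul (hc i) (hc j) (abs_nonneg _) (hr i)) (h i j)
    (abs_nonneg _) (mul_nonneg (hr i) (hr j))

/-- **The squares of the main list.** -/
theorem symL (hS : S.Reg) (hs : ∀ x, s x ^ 2 = 1) {l : ℕ} (hl : l ≤ S.K) {L : List (Tm ι)}
    (hL : Gd S l 3 L) (hcst : Cst L) (hc : ∀ t ∈ L, ∀ v, cl t.M v = some l) {φ : X → ι → ℝ}
    (ha : ∀ x, ∀ e ∈ A, a x e = s x * φ x e) {ρ : ℝ} (hρ : 0 ≤ ρ) (z : ι → ℝ) (x : X)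
    (I : ℕ → ι) :
    |∑ e ∈ A, ∑ f ∈ A, ∑ k ∈ A, evL S a s (ix e f k k) L z x ^ 2 -
      ρ ^ 3 * evL S (fun x _ => s x) s I L z x ^ 2| ≤
      tot L ^ 2 * (9 / 2 *
        pp S l z (fun x y => |CC A φ x y - ρ| ^ 3 + ρ ^ 2 * |CC A φ x y - ρ|)) := by
  have e1 : ∀ e f k : ι, evL S a s (ix e f k k) L z x = ∑ i : Fin L.length, L[i.1].c I *
      ev S a s (ix e f k k) L[i.1].M z x := by
    intro e f k
    rw [evL_get]
    refine Finset.sum_congr rfl fun i _ => ?_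
    rw [hcst L[i.1] (List.getElem_mem _) (ix e f k k) I]
  have e2 : evL S (fun x _ => s x) s I L z x = ∑ i : Fin L.length, L[i.1].c I *
      evs S s I L[i.1].M z x := evL_get L z x
  have h1 := gram_base (A ×ˢ A ×ˢ A) (fun i : Fin L.length => L[i.1].c I)
    (fun i p => ev S a s (ix p.1 p.2.1 p.2.2 p.2.2) L[i.1].M z x)
    (fun i : Fin L.length => L[i.1].c I)
    (fun i p => ev S a s (ix p.1 p.2.1 p.2.2 p.2.2) L[i.1].M z x)
  simp only [Finset.sum_product] at h1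
  have hm : ∀ i : Fin L.length, L[i.1] ∈ L := fun i => List.getElem_mem i.2
  have hcm : ∀ i : Fin L.length, Cm S l 3 L[i.1].M := fun i => hL.cm (hm i)
  have hcl : ∀ i : Fin L.length, ∀ v, cl L[i.1].M v = some l := fun i => hc _ (hm i)
  have key : ∀ i j : Fin L.length, |∑ e ∈ A, ∑ f ∈ A, ∑ k ∈ A,
      ev S a s (ix e f k k) L[i.1].M z x * ev S a s (ix e f k k) L[j.1].M z x -
      ρ ^ 3 * (evs S s I L[i.1].M z x * evs S s I L[j.1].M z x)| ≤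
      9 / 2 * pp S l z (fun x y => |CC A φ x y - ρ| ^ 3 + ρ ^ 2 * |CC A φ x y - ρ|) :=
    fun i j => sym3 hS hs hl (hcm i) (hcm j) (hcl i) (hcl j) ha hρ z x I
  have h5 := dbl_err (n := Fin L.length) (c := fun i => L[i.1].c I) (r := fun i => L[i.1].r)
    (Q := fun i j => ∑ e ∈ A, ∑ f ∈ A, ∑ k ∈ A,
      ev S a s (ix e f k k) L[i.1].M z x * ev S a s (ix e f k k) L[j.1].M z x)
    (Y := fun i => evs S s I L[i.1].M z x) (ρ := ρ ^ 3)
    (E := 9 / 2 * pp S l z (fun x y => |CC A φ x y - ρ| ^ 3 + ρ ^ 2 * |CC A φ x y - ρ|))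
    (fun i => L[i.1].hr) (fun i => L[i.1].hc I) key
  rw [← tot_get, ← e2, ← h1] at h5
  simp only [← e1, ← sq] at h5
  exact h5

end Vale.Agent.P146.H508
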