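import Vale.Agent.P146.H379.RowG

/-!
# P146: the cross terms of the row at a good level (helper508)

`tj l j = 1/n² ∑ Ex (D_i D_k T_j (x_i x_k))` equals `Θ_j = Tt j` up to `√(V_l Θ_j)`,
`V_l = Θ_l - ρ_l²`: only the concentration at the level `l` is needed, none at `j < l`.
-/

open MeasureTheory ProbabilityTheory

namespace Vale.Agent.P146.H508

open Vale.Agent.P157 Vale.Agent.P157.Lv Vale.Agent.P157.Lv.Sy
open Vale.Agent.P146.H425 Vale.Agent.P146.H946 Vale.Agent.P146.H985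
open Vale.Agent.P146.H93 Vale.Agent.P146.H325 Vale.Agent.P146.H379.Row

set_option linter.unusedSectionVars false

section tj

variable {ι : Type} [Fintype ι] [DecidableEq ι] {n : ℕ} {S : Sy ι (Fin n → ℤˣ)}

lemma Tt_nonneg (hS : S.Reg) {l : ℕ} (hl : l ≤ S.K) : 0 ≤ Tt S l := by
  unfold Tt
  refine mul_nonneg (by positivity) (Finset.sum_nonneg fun i _ => Finset.sum_nonneg fun k _ => ?_)
  exact Ex_nn hS (Nh.pow (Nh.fst (hS.eg_T hl (Nh.snd fun x => ss i k x))) 2)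
    fun z x => sq_nonneg _

lemma Tt_mono (hS : S.Reg) {j l : ℕ} (hjl : j ≤ l) (hl : l ≤ S.K) : Tt S j ≤ Tt S l := by
  unfold Tt
  refine mul_le_mul_of_nonneg_left (Finset.sum_le_sum fun i _ => Finset.sum_le_sum fun k _ => ?_)
    (by positivity)
  exact Ex_T_sq_mono hS hjl hl (Nh.snd fun x => ss i k x)

/-- `1/n² ∑ Ex (D_i D_k)²` -/
noncomputable def Aa (S : Sy ι (Fin n → ℤˣ)) (l : ℕ) : ℝ :=
  1 / n ^ 2 * ∑ i, ∑ k, S.Ex (fun z _ => (dd S l i z * dd S l k z) ^ 2)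

lemma Aa_eq (hS : S.Reg) {l : ℕ} (hl : l ≤ S.K) :
    Aa S l = S.Ex (fun z _ => S.T l (Fld.uu S sp l) z ^ 2) := by
  have hD : ∀ i, EG (dd S l i) := fun i => eg_dd hS hl i
  have hN : ∀ i k, Nh (X := Fin n → ℤˣ) fun z _ => (dd S l i z * dd S l k z) ^ 2 := fun i k =>
    Nh.pow (Nh.fst ((hD i).mul (hD k))) 2
  have e0 : ∀ z, S.T l (Fld.uu S sp l) z = 1 / n * ∑ i, dd S l i z * dd S l i z := by
    intro z
    have e1 : Fld.uu S sp l = fun z x => 1 / (n : ℝ) * ∑ i, dd S l i z * sp x i := rfl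
    rw [e1, Sy.T_const_mul, hS.T_sum hl Finset.univ (f := fun i z x => dd S l i z * sp x i)
      fun i _ => Nh.mul (Nh.fst (hD i)) (nh_sp i)]
    congr 1
    refine Finset.sum_congr rfl fun i _ => ?_
    rw [T_mul_left S (dep_dd S l i)]
    rfl
  have e2 : (fun (z : ι → ℝ) (_ : Fin n → ℤˣ) => S.T l (Fld.uu S sp l) z ^ 2) =
      fun z _ => 1 / n ^ 2 * ∑ i, ∑ k, (dd S l i z * dd S l k z) ^ 2 := by
    funext z _
    rw [e0, mul_pow, sq (∑ i, _), Finset.sum_mul_sum, div_pow, one_pow]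
    congr 1
    refine Finset.sum_congr rfl fun i _ => Finset.sum_congr rfl fun k _ => ?_
    ring
  rw [e2, Ex_const_mul, hS.Ex_sum Finset.univ (f := fun i z _ => ∑ k,
    (dd S l i z * dd S l k z) ^ 2) fun i _ => Nh.sum _ fun k _ => hN i k]
  unfold Aa
  congr 1
  refine Finset.sum_congr rfl fun i _ => ?_
  rw [hS.Ex_sum Finset.univ (f := fun k z _ => (dd S l i z * dd S l k z) ^ 2)
    fun k _ => hN i k]

lemma Aa_le_tj (hS : S.Reg) {l : ℕ} (hl : l ≤ S.K) : Aa S l ≤ tj S l l := by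
  rw [Aa_eq hS hl, tj_self hS hl]
  have nu : Nh (Fld.uu S sp l) := Fld.nh_uu hS hl
  rw [← hS.Ex_T hl (f := fun z x => Fld.uu S sp l z x ^ 2) (Nh.pow nu 2)]
  exact hS.Ex_mono (Nh.pow (Nh.fst (hS.eg_T hl nu)) 2) (Nh.fst (hS.eg_T hl (Nh.pow nu 2)))
    fun z _ => hS.sq_T_le hl nu z

/-- `ρ_l² ≤ t_l` -/
lemma rho_sq_le_tj (hS : S.Reg) {l : ℕ} (hl : l ≤ S.K) : rho S l ^ 2 ≤ tj S l l := by
  rw [tj_self hS hl]
  have nu : Nh (Fld.uu S sp l) := Fld.nh_uu hS hl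
  have h1 := hS.Ex_cs nu (g := fun _ _ => (1 : ℝ)) (fun _ => EG.const 1)
  simp only [mul_one, one_pow, hS.Ex_const] at h1
  have e1 : S.Ex (fun z x => Fld.uu S sp l z x) = rho S l := by
    have e2 : (fun z x => Fld.uu S sp l z x) = fun z x => 1 / (n : ℝ) * ∑ i, dd S l i z * sp x i :=
      rfl
    have hN : ∀ i, Nh fun z x => dd S l i z * sp x i := fun i =>
      Nh.mul (Nh.fst (eg_dd hS hl i)) (nh_sp i)
    rw [e2, Ex_const_mul, hS.Ex_sum Finset.univ (f := fun i z x => dd S l i z * sp x i)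
      fun i _ => hN i]
    unfold Vale.Agent.P146.H379.Row.rho
    congr 1
    refine Finset.sum_congr rfl fun i _ => ?_
    rw [← hS.Ex_mul_T hl (dep_dd S l i) (eg_dd hS hl i) (nh_sp i)]
    congr 1
    funext z _
    rw [sq]
    rfl
  rw [e1] at h1
  exact h1

/-- `Θ_j = 1/n² ∑ Ex (T_l (x_i x_k) T_j (x_i x_k))` -/
lemma Tt_eq_cross (hS : S.Reg) {j l : ℕ} (hjl : j ≤ l) (hl : l ≤ S.K) :
    Tt S j = 1 / n ^ 2 * ∑ i, ∑ k, S.Ex (fun z _ => S.T l (fun _ x => ss i k x) z *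
      S.T j (fun _ x => ss i k x) z) := by
  unfold Tt
  congr 1
  refine Finset.sum_congr rfl fun i _ => Finset.sum_congr rfl fun k _ => ?_
  have hj := hjl.trans hl
  have hN : Nh (ι := ι) fun _ (x : Fin n → ℤˣ) => ss i k x := Nh.snd _
  have hE := hS.eg_T hj hN
  have h1 := hS.Ex_mul_T hj (S.dep_T j fun _ x => ss i k x) hE hN
  have h2 := hS.Ex_mul_T hl ((S.dep_T j fun _ x => ss i k x).mono hjl) hE hN
  have e1 : (fun (z : ι → ℝ) (_ : Fin n → ℤˣ) => S.T j (fun _ x => ss i k x) z ^ 2) =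
      fun z _ => S.T j (fun _ x => ss i k x) z * S.T j (fun _ x => ss i k x) z := by
    funext z _; rw [sq]
  have e2 : (fun (z : ι → ℝ) (_ : Fin n → ℤˣ) => S.T l (fun _ x => ss i k x) z *
      S.T j (fun _ x => ss i k x) z) =
      fun z _ => S.T j (fun _ x => ss i k x) z * S.T l (fun _ x => ss i k x) z := by
    funext z _; rw [mul_comm]
  rw [e1, e2, h1, h2]

/-- the clustering error: `1/n² ∑ Ex (T_l (x_i x_k) - D_i D_k)² ≤ Θ_l - ρ_l²` -/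
lemma clus (hS : S.Reg) {l : ℕ} (hl : l ≤ S.K) :
    1 / (n : ℝ) ^ 2 * ∑ i, ∑ k, S.Ex (fun z _ => (dd S l i z * dd S l k z -
      S.T l (fun _ x => ss i k x) z) ^ 2) ≤ Tt S l - rho S l ^ 2 := by
  have hD : ∀ i, EG (dd S l i) := fun i => eg_dd hS hl i
  have hT : ∀ i k, EG (S.T l (fun _ (x : Fin n → ℤˣ) => ss i k x)) := fun i k =>
    hS.eg_T hl (Nh.snd _)
  have e1 : ∀ i k, S.Ex (fun z _ => (dd S l i z * dd S l k z -
      S.T l (fun _ x => ss i k x) z) ^ 2) =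
      S.Ex (fun z _ => (dd S l i z * dd S l k z) ^ 2) -
        2 * S.Ex (fun z _ => dd S l i z * dd S l k z * S.T l (fun _ x => ss i k x) z) +
        S.Ex (fun z _ => S.T l (fun _ x => ss i k x) z ^ 2) := by
    intro i k
    have n1 : Nh (X := Fin n → ℤˣ) fun z _ => (dd S l i z * dd S l k z) ^ 2 :=
      Nh.pow (Nh.fst ((hD i).mul (hD k))) 2
    have n2 : Nh (X := Fin n → ℤˣ) fun z _ => dd S l i z * dd S l k z *
        S.T l (fun _ x => ss i k x) z := Nh.mul (Nh.fst ((hD i).mul (hD k))) (Nh.fst (hT i k))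
    have n3 : Nh (X := Fin n → ℤˣ) fun z _ => S.T l (fun _ x => ss i k x) z ^ 2 :=
      Nh.pow (Nh.fst (hT i k)) 2
    rw [← Ex_const_mul, ← hS.Ex_sub n1 (Nh.const_mul 2 n2),
      ← hS.Ex_add (Nh.sub n1 (Nh.const_mul 2 n2)) n3]
    congr 1
    funext z _
    ring
  have e2 : 1 / (n : ℝ) ^ 2 * ∑ i, ∑ k, S.Ex (fun z _ => (dd S l i z * dd S l k z -
      S.T l (fun _ x => ss i k x) z) ^ 2) = Aa S l - 2 * tj S l l + Tt S l := by
    simp only [e1]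
    unfold Aa tj Tt
    simp only [Finset.sum_add_distrib, Finset.sum_sub_distrib, ← Finset.mul_sum]
    ring
  rw [e2]
  have h1 := Aa_le_tj hS hl
  have h2 := rho_sq_le_tj hS hl
  linarith

/-- Cauchy-Schwarz for the double sums -/
lemma cs_sum (hS : S.Reg) {f g : Fin n → Fin n → (ι → ℝ) → ℝ} (hf : ∀ i k, EG (f i k))
    (hg : ∀ i k, EG (g i k)) :
    |1 / (n : ℝ) ^ 2 * ∑ i, ∑ k, S.Ex (fun z _ => f i k z * g i k z)| ≤
      √((1 / (n : ℝ) ^ 2 * ∑ i, ∑ k, S.Ex (fun z _ => f i k z ^ 2)) *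
        (1 / (n : ℝ) ^ 2 * ∑ i, ∑ k, S.Ex (fun z _ => g i k z ^ 2))) := by
  have hF : ∀ p : Fin n × Fin n, 0 ≤ S.Ex (fun z _ => f p.1 p.2 z ^ 2) := fun p =>
    Ex_nn hS (Nh.pow (Nh.fst (hf p.1 p.2)) 2) fun z x => sq_nonneg _
  have hG : ∀ p : Fin n × Fin n, 0 ≤ S.Ex (fun z _ => g p.1 p.2 z ^ 2) := fun p =>
    Ex_nn hS (Nh.pow (Nh.fst (hg p.1 p.2)) 2) fun z x => sq_nonneg _
  have h1 : ∀ p : Fin n × Fin n, |S.Ex (fun z _ => f p.1 p.2 z * g p.1 p.2 z)| ≤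
      √(S.Ex (fun z _ => f p.1 p.2 z ^ 2)) * √(S.Ex (fun z _ => g p.1 p.2 z ^ 2)) := by
    intro p
    rw [← Real.sqrt_mul (hF p)]
    refine Real.abs_le_sqrt ?_
    exact hS.Ex_cs (Nh.fst (hf p.1 p.2)) (Nh.fst (hg p.1 p.2))
  have h2 : |∑ p : Fin n × Fin n, S.Ex (fun z _ => f p.1 p.2 z * g p.1 p.2 z)| ≤
      √(∑ p : Fin n × Fin n, S.Ex (fun z _ => f p.1 p.2 z ^ 2)) *
        √(∑ p : Fin n × Fin n, S.Ex (fun z _ => g p.1 p.2 z ^ 2)) :=
    (Finset.abs_sum_le_sum_abs _ _).trans ((Finset.sum_le_sum fun p _ => h1 p).trans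
      (Real.sum_sqrt_mul_sqrt_le Finset.univ hF hG))
  simp only [Fintype.sum_prod_type] at h2
  have hc : (0 : ℝ) ≤ 1 / (n : ℝ) ^ 2 := by positivity
  have hA : 0 ≤ ∑ i, ∑ k, S.Ex (fun z _ => f i k z ^ 2) :=
    Finset.sum_nonneg fun i _ => Finset.sum_nonneg fun k _ => hF (i, k)
  have hB : 0 ≤ ∑ i, ∑ k, S.Ex (fun z _ => g i k z ^ 2) :=
    Finset.sum_nonneg fun i _ => Finset.sum_nonneg fun k _ => hG (i, k)
  rw [abs_mul, abs_of_nonneg hc]
  refine (mul_le_mul_of_nonneg_left h2 hc).trans (le_of_eq ?_)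
  have e : (1 / (n : ℝ) ^ 2 * ∑ i, ∑ k, S.Ex (fun z _ => f i k z ^ 2)) *
        (1 / (n : ℝ) ^ 2 * ∑ i, ∑ k, S.Ex (fun z _ => g i k z ^ 2)) =
      (1 / (n : ℝ) ^ 2) ^ 2 * ((∑ i, ∑ k, S.Ex (fun z _ => f i k z ^ 2)) *
        ∑ i, ∑ k, S.Ex (fun z _ => g i k z ^ 2)) := by ring
  rw [e, Real.sqrt_mul (sq_nonneg _), Real.sqrt_sq hc, Real.sqrt_mul hA]

/-- **The cross term of the row.** -/
theorem tj_near (hS : S.Reg) {j l : ℕ} (hjl : j ≤ l) (hl : l ≤ S.K) :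
    |tj S l j - Tt S j| ≤ √((Tt S l - rho S l ^ 2) * Tt S j) := by
  have hj := hjl.trans hl
  have hD : ∀ i, EG (dd S l i) := fun i => eg_dd hS hl i
  have hT : ∀ i k, EG (S.T l (fun _ (x : Fin n → ℤˣ) => ss i k x)) := fun i k =>
    hS.eg_T hl (Nh.snd _)
  have hG : ∀ i k, EG (S.T j (fun _ (x : Fin n → ℤˣ) => ss i k x)) := fun i k =>
    hS.eg_T hj (Nh.snd _)
  have e1 : tj S l j - Tt S j = 1 / n ^ 2 * ∑ i, ∑ k, S.Ex (fun z _ =>
      (dd S l i z * dd S l k z - S.T l (fun _ x => ss i k x) z) *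
        S.T j (fun _ x => ss i k x) z) := by
    rw [Tt_eq_cross hS hjl hl]
    unfold tj
    rw [← mul_sub, ← Finset.sum_sub_distrib]
    congr 1
    refine Finset.sum_congr rfl fun i _ => ?_
    rw [← Finset.sum_sub_distrib]
    refine Finset.sum_congr rfl fun k _ => ?_
    rw [← hS.Ex_sub (Nh.mul (Nh.fst ((hD i).mul (hD k))) (Nh.fst (hG i k)))
      (Nh.mul (Nh.fst (hT i k)) (Nh.fst (hG i k)))]
    congr 1
    funext z _
    ring
  rw [e1]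
  refine (cs_sum hS (fun i k => ((hD i).mul (hD k)).sub (hT i k)) hG).trans ?_
  refine Real.sqrt_le_sqrt ?_
  have h1 := clus hS hl
  have h2 := Tt_nonneg hS hj
  exact mul_le_mul_of_nonneg_right h1 h2

/-- `0 ≤ Θ_l - t_l ≤ Θ_l - ρ_l²` -/
lemma tj_le_Tt (hS : S.Reg) {l : ℕ} (hl : l ≤ S.K) : tj S l l ≤ Tt S l := by
  have hD : ∀ i, EG (dd S l i) := fun i => eg_dd hS hl i
  have hT : ∀ i k, EG (S.T l (fun _ (x : Fin n → ℤˣ) => ss i k x)) := fun i k =>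
    hS.eg_T hl (Nh.snd _)
  have h1 := cs_sum hS (fun i k => (hD i).mul (hD k)) hT (S := S)
  have e1 : |tj S l l| ≤ √(Aa S l * Tt S l) := h1
  have h2 := Aa_le_tj hS hl
  have h3 := Tt_nonneg hS hl
  have h4 : 0 ≤ tj S l l := (sq_nonneg _).trans (rho_sq_le_tj hS hl)
  rw [abs_of_nonneg h4] at e1
  have h5 : tj S l l ≤ √(tj S l l * Tt S l) :=
    e1.trans (Real.sqrt_le_sqrt (mul_le_mul_of_nonneg_right h2 h3))
  have h6 : tj S l l ^ 2 ≤ tj S l l * Tt S l := by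
    have := pow_le_pow_left₀ h4 h5 2
    rwa [Real.sq_sqrt (mul_nonneg h4 h3)] at this
  rcases h4.eq_or_lt with h | h
  · rw [← h]; exact h3
  · have h7 : tj S l l * tj S l l ≤ tj S l l * Tt S l := by rw [← sq]; exact h6
    exact le_of_mul_le_mul_left h7 h

end tj

section sk

variable {n K : ℕ} {m b w : ℕ → ℝ}

/-- **The cross term of the row of the SK system**, `V = pairEx l (R - ρ_l)²`. -/
theorem tj_near_sk (hm : Em K m) (hn : 0 < n) {j l : ℕ} (hjl : j ≤ l) (hl : l ≤ K) :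
    |tj (skS n K m b w) l j - (skS n K m b w).pairEx j (fun x x' => Rov sp x x' ^ 2)| ≤
      √(((skS n K m b w).pairEx l (fun x x' => Rov sp x x' ^ 2) -
        (skS n K m b w).Rl sp l ^ 2) *
        (skS n K m b w).pairEx j (fun x x' => Rov sp x x' ^ 2)) := by
  have hS : (skS n K m b w).Reg := (linS_sk hm b w).reg
  have h1 := tj_near hS (j := j) (l := l) hjl hl
  rw [Tt_eq hm hn (hjl.trans hl), Tt_eq hm hn hl, rho_eq_Rl hS (l := l) hl] at h1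
  exact h1

/-- `ρ_l² ≤ t_l ≤ Θ_l` -/
theorem tj_self_sk (hm : Em K m) (hn : 0 < n) {l : ℕ} (hl : l ≤ K) :
    (skS n K m b w).Rl sp l ^ 2 ≤ tj (skS n K m b w) l l ∧
      tj (skS n K m b w) l l ≤ (skS n K m b w).pairEx l (fun x x' => Rov sp x x' ^ 2) := by
  have hS : (skS n K m b w).Reg := (linS_sk hm b w).reg
  have h1 := rho_sq_le_tj hS (l := l) hl
  have h2 := tj_le_Tt hS (l := l) hl
  rw [Tt_eq hm hn hl] at h2
  rw [rho_eq_Rl hS (l := l) hl] at h1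
  exact ⟨h1, h2⟩

end sk

end Vale.Agent.P146.H508
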