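import Vale.Agent.P146.H508.Ur

/-!
# P146: the two-time argument with two times only (helper508)

`r0 ≥ r1` overlaps at the times `T0 < T1`, rows `α - T_k = y r_k - c_k - F / r_k ± e` (`F` any real
number), `c1 ≤ (r1 / r0)² c0 + e`.  Then `y r1² ≤ (2 (α - T1)₊ + 6 e) r1 + 3 F₊`: the bound is at
the LATER time and needs no good step.  `ur_gap`: the same across a gap of the exponents.
-/

namespace Vale.Agent.P146.H508

/-- two times, `F ≥ 0` -/
theorem ur_two_pos {y F e α r0 r1 c0 c1 T0 T1 : ℝ} (hr1 : 0 < r1) (hle : r1 ≤ r0)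
    (h0 : |α - T0 - (y * r0 - c0 - F / r0)| ≤ e) (h1 : |α - T1 - (y * r1 - c1 - F / r1)| ≤ e)
    (hc : c1 ≤ (r1 / r0) ^ 2 * c0 + e) (hT : 12 * e < T1 - T0) (hF : 0 ≤ F) :
    y * r1 ^ 2 ≤ (2 * max (α - T1) 0 + 6 * e) * r1 + 3 * F := by
  have hr0 : 0 < r0 := hr1.trans_le hle
  have he : 0 ≤ e := (abs_nonneg _).trans h0
  obtain ⟨h0a, h0b⟩ := abs_le.1 h0
  obtain ⟨h1a, h1b⟩ := abs_le.1 h1
  set θ := r1 / r0 with hθ
  have hθ0 : 0 < θ := div_pos hr1 hr0
  have hθ1 : θ ≤ 1 := (div_le_one hr0).2 hle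
  have e1 : r1 = θ * r0 := by rw [hθ]; field_simp
  have e0 : r0 = r1 / θ := by rw [e1]; field_simp
  have hθ2 : θ ^ 2 ≤ 1 := pow_le_one₀ hθ0.le hθ1
  -- `c0`, `c1` from the rows
  have d0 : c0 ≤ y * r0 - F / r0 - (α - T0) + e := by linarith
  have d1 : y * r1 - F / r1 - (α - T1) - e ≤ c1 := by linarith
  have d2 : y * r1 - F / r1 - (α - T1) - e ≤
      θ ^ 2 * (y * r0 - F / r0 - (α - T0) + e) + e :=
    d1.trans (hc.trans (by linarith [mul_le_mul_of_nonneg_left d0 (sq_nonneg θ)]))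
  have e2 : θ ^ 2 * (y * r0) = θ * (y * r1) := by rw [e1]; ring
  have e3 : θ ^ 2 * (F / r0) = θ ^ 3 * (F / r1) := by
    rw [e1]; field_simp
  have d3 : y * r1 * (1 - θ) ≤ (1 - θ ^ 2) * (α - T1) - θ ^ 2 * (T1 - T0) +
      F / r1 * (1 - θ ^ 3) + 3 * e := by
    have : θ ^ 2 * (y * r0 - F / r0 - (α - T0) + e) =
        θ * (y * r1) - θ ^ 3 * (F / r1) - θ ^ 2 * (α - T0) + θ ^ 2 * e := by
      rw [← e2, ← e3]; ring
    rw [this] at d2
    have h5 : θ ^ 2 * e ≤ 1 * e := mul_le_mul_of_nonneg_right hθ2 he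
    have e8 : y * r1 * (1 - θ) = y * r1 - θ * (y * r1) := by ring
    have e9 : (1 - θ ^ 2) * (α - T1) - θ ^ 2 * (T1 - T0) = (α - T1) - θ ^ 2 * (α - T0) := by ring
    have e10 : F / r1 * (1 - θ ^ 3) = F / r1 - θ ^ 3 * (F / r1) := by ring
    rw [e8, e9, e10]
    linarith
  set M := max (α - T1) 0 with hM
  have hM0 : 0 ≤ M := le_max_right _ _
  have hM1 : α - T1 ≤ M := le_max_left _ _
  have hθ22 : 0 ≤ 1 - θ ^ 2 := by linarith
  have d4 : (1 - θ ^ 2) * (α - T1) ≤ (1 - θ ^ 2) * M := mul_le_mul_of_nonneg_left hM1 hθ22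
  have hFr : 0 ≤ F / r1 := div_nonneg hF hr1.le
  -- the errors
  have d5 : 3 * e - θ ^ 2 * (T1 - T0) ≤ 6 * e * (1 - θ) := by
    rcases le_total (1 / 2) θ with h | h
    · have h6 : (1 / 4 : ℝ) ≤ θ ^ 2 := by
        calc (1 / 4 : ℝ) = (1 / 2) ^ 2 := by norm_num
          _ ≤ θ ^ 2 := pow_le_pow_left₀ (by norm_num) h 2
      have h7 : 3 * e ≤ θ ^ 2 * (T1 - T0) := by
        have h9 : (1 / 4 : ℝ) * (T1 - T0) ≤ θ ^ 2 * (T1 - T0) :=
          mul_le_mul_of_nonneg_right h6 (by linarith)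
        linarith
      have h8 : 0 ≤ 6 * e * (1 - θ) := mul_nonneg (by positivity) (by linarith)
      linarith
    · have h7 : 0 ≤ θ ^ 2 * (T1 - T0) := mul_nonneg (sq_nonneg _) (by linarith)
      have h8 : 6 * e * (1 / 2) ≤ 6 * e * (1 - θ) :=
        mul_le_mul_of_nonneg_left (by linarith) (by positivity)
      linarith
  have d6 : (1 - θ) * (y * r1) ≤ (1 - θ) * (2 * M + 6 * e + 3 * (F / r1)) := by
    have h6 : (1 - θ ^ 2) * M ≤ (1 - θ) * (2 * M) := by
      have h9 : 1 - θ ^ 2 ≤ (1 - θ) * 2 := by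
        have h10 : 0 ≤ (1 - θ) * (1 - θ) := mul_nonneg (by linarith) (by linarith)
        linarith [show (1 - θ) * 2 - (1 - θ ^ 2) = (1 - θ) * (1 - θ) by ring]
      calc (1 - θ ^ 2) * M ≤ ((1 - θ) * 2) * M := mul_le_mul_of_nonneg_right h9 hM0
        _ = _ := by ring
    have h7 : F / r1 * (1 - θ ^ 3) ≤ (1 - θ) * (3 * (F / r1)) := by
      have h8 : 1 - θ ^ 3 ≤ 3 * (1 - θ) := by
        have h10 : 0 ≤ (1 - θ) * (2 - θ - θ ^ 2) := mul_nonneg (by linarith) (by linarith)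
        linarith [show 3 * (1 - θ) - (1 - θ ^ 3) = (1 - θ) * (2 - θ - θ ^ 2) by ring]
      calc F / r1 * (1 - θ ^ 3) ≤ F / r1 * (3 * (1 - θ)) := mul_le_mul_of_nonneg_left h8 hFr
        _ = _ := by ring
    have e6 : (1 - θ) * (2 * M + 6 * e + 3 * (F / r1)) =
        (1 - θ) * (2 * M) + 6 * e * (1 - θ) + (1 - θ) * (3 * (F / r1)) := by ring
    rw [e6]
    have e7 : (1 - θ) * (y * r1) = y * r1 * (1 - θ) := by ring
    rw [e7]
    linarith
  have hθlt : θ < 1 := by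
    rcases hθ1.lt_or_eq with h | h
    · exact h
    · exfalso
      rw [h] at d3
      norm_num at d3
      linarith
  have d7 : y * r1 ≤ 2 * M + 6 * e + 3 * (F / r1) := le_of_mul_le_mul_left d6 (by linarith)
  have d8 := mul_le_mul_of_nonneg_right d7 hr1.le
  have e4 : (2 * M + 6 * e + 3 * (F / r1)) * r1 = (2 * M + 6 * e) * r1 + 3 * F := by
    field_simp
  rw [e4] at d8
  calc y * r1 ^ 2 = y * r1 * r1 := by ring
    _ ≤ _ := d8

/-- two times, any real `F` -/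
theorem ur_two {y F e α r0 r1 c0 c1 T0 T1 : ℝ} (hr1 : 0 < r1) (hle : r1 ≤ r0)
    (h0 : |α - T0 - (y * r0 - c0 - F / r0)| ≤ e) (h1 : |α - T1 - (y * r1 - c1 - F / r1)| ≤ e)
    (hc : c1 ≤ (r1 / r0) ^ 2 * c0 + e) (hT : 12 * e < T1 - T0) :
    y * r1 ^ 2 ≤ (2 * max (α - T1) 0 + 6 * e) * r1 + 3 * max F 0 := by
  rcases le_total 0 F with hF | hF
  · rw [max_eq_left hF]
    exact ur_two_pos hr1 hle h0 h1 hc hT hF
  · rw [max_eq_right hF]
    have hr0 : 0 < r0 := hr1.trans_le hle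
    have e0 : y * r0 - (c0 + F / r0) - 0 / r0 = y * r0 - c0 - F / r0 := by ring
    have e1 : y * r1 - (c1 + F / r1) - 0 / r1 = y * r1 - c1 - F / r1 := by ring
    refine ur_two_pos (c0 := c0 + F / r0) (c1 := c1 + F / r1) hr1 hle (by rwa [e0]) (by rwa [e1])
      ?_ hT le_rfl
    have h2 : F / r1 ≤ (r1 / r0) ^ 2 * (F / r0) := by
      have h3 : (r1 / r0) ^ 2 / r0 ≤ 1 / r1 := by
        rw [div_pow, div_div, div_le_div_iff₀ (by positivity) hr1]
        have h4 : r1 ^ 3 ≤ r0 ^ 3 := pow_le_pow_left₀ hr1.le hle 3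
        nlinarith
      have h4 : F * (1 / r1) ≤ F * ((r1 / r0) ^ 2 / r0) := mul_le_mul_of_nonpos_left h3 hF
      calc F / r1 = F * (1 / r1) := by ring
        _ ≤ _ := h4
        _ = _ := by ring
    rw [mul_add]
    linarith

/-- the final form -/
theorem ur_two' {y F e α r0 r1 c0 c1 T0 T1 : ℝ} (hr1 : 0 < r1) (hle : r1 ≤ r0)
    (h0 : |α - T0 - (y * r0 - c0 - F / r0)| ≤ e) (h1 : |α - T1 - (y * r1 - c1 - F / r1)| ≤ e)
    (hc : c1 ≤ (r1 / r0) ^ 2 * c0 + e) (hT : 12 * e < T1 - T0) (hy : 0 < y) :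
    r1 ≤ (2 * max (α - T1) 0 + 6 * e) / y + Real.sqrt (3 * max F 0 / y) := by
  have he : 0 ≤ e := (abs_nonneg _).trans h0
  exact quad_le hy (by positivity) (by positivity) (ur_two hr1 hle h0 h1 hc hT)

/-- **across a gap**: at the time `s` the exponents jump from `y` to `v`, the row at `T0 < s` sees
`(v - y) rs²` (or any `G ≥ (v - y) rs²`, up to `e`). -/
theorem ur_gap {y v b e α rs r0 cs c0 s T0 G : ℝ} (hrs : 0 < rs) (hle : rs ≤ r0)
    (h0 : |α - T0 - (b * v * r0 + b * G / r0 - c0)| ≤ e)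
    (h1 : |α - s - (b * (2 * v - y) * rs - cs)| ≤ e)
    (hG : G ≤ (v - y) * rs ^ 2 + e * r0)
    (hc : cs ≤ (rs / r0) ^ 2 * c0 + e) (hT : 16 * (1 + b) * e < s - T0) (hb : 0 ≤ b)
    (hyv : y ≤ v) :
    b * (2 * v - y) * rs ≤ 2 * max (α - s) 0 + 8 * (1 + b) * e := by
  have hr0 : 0 < r0 := hrs.trans_le hle
  have he : 0 ≤ e := (abs_nonneg _).trans h0
  obtain ⟨h0a, h0b⟩ := abs_le.1 h0
  obtain ⟨h1a, h1b⟩ := abs_le.1 h1
  set q := rs / r0 with hq
  have hq0 : 0 < q := div_pos hrs hr0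
  have hq1 : q ≤ 1 := (div_le_one hr0).2 hle
  have e1 : rs = q * r0 := by rw [hq]; field_simp
  have hq2 : q ^ 2 ≤ 1 := pow_le_one₀ hq0.le hq1
  have hGr : G / r0 ≤ (v - y) * (q * rs) + e := by
    rw [div_le_iff₀ hr0]
    refine hG.trans (le_of_eq ?_)
    rw [e1]; ring
  have d0 : c0 ≤ b * v * r0 + b * ((v - y) * (q * rs) + e) - (α - T0) + e := by
    have h5 : b * G / r0 ≤ b * ((v - y) * (q * rs) + e) := by
      rw [mul_div_assoc]; exact mul_le_mul_of_nonneg_left hGr hb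
    linarith
  have d1 : b * (2 * v - y) * rs - (α - s) - e ≤ cs := by linarith
  have d2 : b * (2 * v - y) * rs - (α - s) - e ≤
      q ^ 2 * (b * v * r0 + b * ((v - y) * (q * rs) + e) - (α - T0) + e) + e :=
    d1.trans (hc.trans (by linarith [mul_le_mul_of_nonneg_left d0 (sq_nonneg q)]))
  have e2 : q ^ 2 * (b * v * r0) = q * (b * v * rs) := by rw [e1]; ring
  have hbe : 0 ≤ b * e := mul_nonneg hb he
  have d3 : b * rs * (v * (1 - q) + (v - y) * (1 - q ^ 3)) ≤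
      (1 - q ^ 2) * (α - s) - q ^ 2 * (s - T0) + (3 + b) * e := by
    have h5 : q ^ 2 * (b * e + e) ≤ 1 * (b * e + e) := mul_le_mul_of_nonneg_right hq2 (by positivity)
    have e8 : b * rs * (v * (1 - q) + (v - y) * (1 - q ^ 3)) =
        b * (2 * v - y) * rs - q * (b * v * rs) - q ^ 2 * (b * ((v - y) * (q * rs))) := by ring
    have e9 : (1 - q ^ 2) * (α - s) - q ^ 2 * (s - T0) = (α - s) - q ^ 2 * (α - T0) := by ring
    have e10 : q ^ 2 * (b * v * r0 + b * ((v - y) * (q * rs) + e) - (α - T0) + e) =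
        q * (b * v * rs) + q ^ 2 * (b * ((v - y) * (q * rs))) - q ^ 2 * (α - T0) +
          q ^ 2 * (b * e + e) := by rw [← e2]; ring
    rw [e10] at d2
    rw [e8, e9]
    linarith
  set M := max (α - s) 0 with hM
  have hM0 : 0 ≤ M := le_max_right _ _
  have hM1 : α - s ≤ M := le_max_left _ _
  have d4 : (1 - q ^ 2) * (α - s) ≤ (1 - q ^ 2) * M :=
    mul_le_mul_of_nonneg_left hM1 (by linarith)
  have d5 : (3 + b) * e - q ^ 2 * (s - T0) ≤ 8 * (1 + b) * e * (1 - q) := by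
    have hbe' : (3 + b) * e ≤ 4 * (1 + b) * e := by
      linarith [show 4 * (1 + b) * e - (3 + b) * e = e + 3 * (b * e) by ring]
    rcases le_total (1 / 2) q with h | h
    · have h6 : (1 / 4 : ℝ) ≤ q ^ 2 := by
        calc (1 / 4 : ℝ) = (1 / 2) ^ 2 := by norm_num
          _ ≤ q ^ 2 := pow_le_pow_left₀ (by norm_num) h 2
      have h9 : 0 ≤ 16 * (1 + b) * e := by positivity
      have h7 : 4 * (1 + b) * e ≤ q ^ 2 * (s - T0) := by
        have h10 : (1 / 4 : ℝ) * (s - T0) ≤ q ^ 2 * (s - T0) :=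
          mul_le_mul_of_nonneg_right h6 (by linarith)
        linarith
      have h8 : 0 ≤ 8 * (1 + b) * e * (1 - q) := mul_nonneg (by positivity) (by linarith)
      linarith
    · have h9 : 0 ≤ 16 * (1 + b) * e := by positivity
      have h7 : 0 ≤ q ^ 2 * (s - T0) := mul_nonneg (sq_nonneg _) (by linarith)
      have h8 : 8 * (1 + b) * e * (1 / 2) ≤ 8 * (1 + b) * e * (1 - q) :=
        mul_le_mul_of_nonneg_left (by linarith) (by positivity)
      linarith
  have hvy : 0 ≤ v - y := by linarith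
  have hbr : 0 ≤ b * rs := mul_nonneg hb hrs.le
  have d6 : (1 - q) * (b * (2 * v - y) * rs) ≤ (1 - q) * (2 * M + 8 * (1 + b) * e) := by
    have h6 : (1 - q ^ 2) * M ≤ (1 - q) * (2 * M) := by
      have h9 : 1 - q ^ 2 ≤ (1 - q) * 2 := by
        have h10 : 0 ≤ (1 - q) * (1 - q) := mul_nonneg (by linarith) (by linarith)
        linarith [show (1 - q) * 2 - (1 - q ^ 2) = (1 - q) * (1 - q) by ring]
      calc (1 - q ^ 2) * M ≤ ((1 - q) * 2) * M := mul_le_mul_of_nonneg_right h9 hM0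
        _ = _ := by ring
    have h8 : 1 - q ≤ 1 - q ^ 3 := by
      have : q ^ 3 ≤ q := by
        have h9 := mul_le_mul_of_nonneg_left hq2 hq0.le
        calc q ^ 3 = q * q ^ 2 := by ring
          _ ≤ q * 1 := h9
          _ = q := mul_one q
      linarith
    have h7 : b * rs * ((1 - q) * (2 * v - y)) ≤
        b * rs * (v * (1 - q) + (v - y) * (1 - q ^ 3)) := by
      refine mul_le_mul_of_nonneg_left ?_ hbr
      linarith [mul_le_mul_of_nonneg_left h8 hvy]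
    have e5 : (1 - q) * (b * (2 * v - y) * rs) = b * rs * ((1 - q) * (2 * v - y)) := by ring
    have e6 : (1 - q) * (2 * M + 8 * (1 + b) * e) = (1 - q) * (2 * M) + 8 * (1 + b) * e * (1 - q) := by
      ring
    rw [e5, e6]
    linarith
  have hqlt : q < 1 := by
    rcases hq1.lt_or_eq with h | h
    · exact h
    · exfalso
      rw [h] at d3
      have h9 : 0 ≤ 16 * (1 + b) * e := by positivity
      have e9 : b * rs * (v * (1 - 1) + (v - y) * (1 - 1 ^ 3)) = 0 := by ring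
      rw [e9] at d3
      have hbe' : (3 + b) * e ≤ 16 * (1 + b) * e := by
        linarith [show 16 * (1 + b) * e - (3 + b) * e = 13 * e + 15 * (b * e) by ring]
      linarith
  exact le_of_mul_le_mul_left d6 (by linarith)

end Vale.Agent.P146.H508
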